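import Mathlib

/-!
P116: the disc minus a closed disc centred in it is connected, and a rotation argument.
-/

open Complex Metric Filter Set Topology
open scoped Real ComplexConjugate

namespace Vale.Agent.P116

lemma normSq_polar_sub (ρ s θ : ℝ) :
    normSq ((ρ : ℂ) * exp ((θ : ℂ) * I) - s) = ρ ^ 2 + s ^ 2 - 2 * (ρ * s) * Real.cos θ := by
  simp [normSq_apply, exp_ofReal_mul_I_re, exp_ofReal_mul_I_im]
  linear_combination ρ ^ 2 * Real.sin_sq_add_cos_sq θ

/-- The disc minus a closed disc with centre in the closed disc is preconnected. -/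
theorem isPreconnected_ball_diff {p : ℂ} {η : ℝ} (hη : 0 < η) :
    IsPreconnected (ball (0 : ℂ) 1 \ closedBall p η) := by
  obtain ⟨u, hu, hpu⟩ : ∃ u : ℂ, ‖u‖ = 1 ∧ p = u * (‖p‖ : ℂ) :=
    ⟨exp ((arg p : ℂ) * I), norm_exp_ofReal_mul_I _,
      by rw [mul_comm]; exact (norm_mul_exp_arg_mul_I p).symm⟩
  set s := ‖p‖ with hs
  have hs0 : 0 ≤ s := norm_nonneg p
  set G := ball (0 : ℂ) 1 \ closedBall p η with hG
  have hmem : ∀ ρ θ : ℝ, 0 ≤ ρ → ρ < 1 → η ^ 2 < ρ ^ 2 + s ^ 2 - 2 * (ρ * s) * Real.cos θ →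
      u * ((ρ : ℂ) * exp ((θ : ℂ) * I)) ∈ G := by
    intro ρ θ h0 h1 h2
    refine ⟨mem_ball_zero_iff.2 ?_, fun hc => ?_⟩
    · rw [norm_mul, hu, norm_mul, norm_exp_ofReal_mul_I, norm_real, Real.norm_of_nonneg h0]
      simpa using h1
    · rw [mem_closedBall, dist_eq] at hc
      nth_rewrite 1 [hpu] at hc
      rw [← mul_sub, norm_mul, hu, one_mul] at hc
      rw [← normSq_polar_sub, normSq_eq_norm_sq] at h2
      nlinarith [norm_nonneg ((ρ : ℂ) * exp ((θ : ℂ) * I) - s)]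
  set Seg : Set ℂ := (fun t : ℝ => u * (t : ℂ)) '' (Ioo (-1) (s - η) ∩ Iic 0) with hSeg
  have hSegG : Seg ⊆ G := by
    rintro _ ⟨t, ⟨⟨h1, h2⟩, h3⟩, rfl⟩
    have h3' : t ≤ 0 := h3
    have := hmem (-t) π (by linarith) (by linarith) (by rw [Real.cos_pi]; nlinarith)
    simpa [exp_pi_mul_I] using this
  have hSegc : IsPreconnected Seg :=
    ((ordConnected_Ioo.inter ordConnected_Iic).isPreconnected).image _
      (by fun_prop : Continuous fun t : ℝ => u * (t : ℂ)).continuousOn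
  have harc : ∀ z ∈ G, ∃ t ⊆ G, z ∈ t ∧ IsPreconnected t ∧ (t ∩ Seg).Nonempty := by
    rintro z ⟨hz1, hz2⟩
    set w := z / u with hw
    have hu0 : u ≠ 0 := by intro h; simp [h] at hu
    have hzw : z = u * w := by rw [hw]; field_simp
    set ρ := ‖w‖ with hρ
    have hρ0 : 0 ≤ ρ := norm_nonneg w
    have hρ1 : ρ < 1 := by
      rw [hρ, hw, norm_div, hu, div_one]; exact mem_ball_zero_iff.1 hz1
    set α := arg w with hα
    have hstart : η ^ 2 < ρ ^ 2 + s ^ 2 - 2 * (ρ * s) * Real.cos α := by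
      rw [← normSq_polar_sub, normSq_eq_norm_sq, hρ, hα, norm_mul_exp_arg_mul_I]
      rw [mem_closedBall, not_le, dist_eq, hzw] at hz2
      nth_rewrite 1 [hpu] at hz2
      rw [← mul_sub, norm_mul, hu, one_mul] at hz2
      nlinarith
    obtain ⟨σ, hσ, hσα⟩ : ∃ σ : ℝ, (σ = 1 ∨ σ = -1) ∧ σ * |α| = α := by
      rcases le_total 0 α with h | h
      · exact ⟨1, .inl rfl, by rw [abs_of_nonneg h, one_mul]⟩
      · exact ⟨-1, .inr rfl, by rw [abs_of_nonpos h]; ring⟩
    have hcosσ : ∀ θ, Real.cos (σ * θ) = Real.cos θ := fun θ => by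
      rcases hσ with rfl | rfl <;> simp
    have hαπ : |α| ≤ π := abs_arg_le_pi w
    let γ : ℝ → ℂ := fun θ => u * ((ρ : ℂ) * exp (((σ * θ : ℝ) : ℂ) * I))
    have hG' : ∀ θ ∈ Icc |α| π, η ^ 2 < ρ ^ 2 + s ^ 2 - 2 * (ρ * s) * Real.cos (σ * θ) := by
      intro θ hθ
      rw [hcosσ]
      refine lt_of_lt_of_le hstart ?_
      have : Real.cos θ ≤ Real.cos α := by
        rw [← Real.cos_abs α]
        exact Real.cos_le_cos_of_nonneg_of_le_pi (abs_nonneg _) hθ.2 hθ.1
      nlinarith [mul_nonneg hρ0 hs0]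
    have hend : γ π = u * ((-ρ : ℝ) : ℂ) := by
      rcases hσ with rfl | rfl <;> simp [γ, exp_pi_mul_I, exp_neg]
    refine ⟨γ '' Icc |α| π, ?_, ⟨|α|, left_mem_Icc.2 hαπ, ?_⟩,
      isPreconnected_Icc.image _ (by fun_prop : Continuous γ).continuousOn,
      γ π, mem_image_of_mem _ (right_mem_Icc.2 hαπ), ?_⟩
    · rintro _ ⟨θ, hθ, rfl⟩
      exact hmem ρ (σ * θ) hρ0 hρ1 (hG' θ hθ)
    · simp only [γ, hσα]
      rw [hρ, hα, norm_mul_exp_arg_mul_I, ← hzw]
    · refine ⟨-ρ, ⟨⟨by linarith, ?_⟩, by simp [hρ0]⟩, hend.symm⟩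
      have h := hG' π (right_mem_Icc.2 hαπ)
      rw [hcosσ, Real.cos_pi] at h
      nlinarith
  refine isPreconnected_of_forall_pair fun x hx y hy => ?_
  obtain ⟨t, htG, hxt, htc, htS⟩ := harc x hx
  obtain ⟨t', htG', hyt, htc', htS'⟩ := harc y hy
  refine ⟨(t ∪ Seg) ∪ t', union_subset (union_subset htG hSegG) htG', .inl (.inl hxt), .inr hyt, ?_⟩
  refine (htc.union' htS hSegc).union' ?_ htc'
  obtain ⟨v, hv⟩ := htS'
  exact ⟨v, .inr hv.2, hv.1⟩

/-- An injective holomorphic map, continuous up to the circle, is not constant on an arc. -/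
theorem not_const_arc {f : ℂ → ℂ} (hd : DifferentiableOn ℂ f (ball 0 1))
    (hc : ContinuousOn f (closedBall 0 1)) (hi : InjOn f (ball 0 1)) {ζ c : ℂ} {ρ : ℝ}
    (hζ : ‖ζ‖ = 1) (hρ : 0 < ρ) (hconst : ∀ x, ‖x‖ = 1 → dist x ζ < ρ → f x = c) : False := by
  obtain ⟨N, hN⟩ := exists_nat_gt (2 * π / ρ)
  have hN0 : (0 : ℝ) < N := lt_trans (by positivity) hN
  rw [div_lt_iff₀ hρ] at hN
  let ω : ℕ → ℂ := fun j => exp (((2 * π * j / N : ℝ) : ℂ) * I)
  have hω : ∀ j, ‖ω j‖ = 1 := fun j => norm_exp_ofReal_mul_I _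
  have hωb : ∀ j, MapsTo (fun x => ω j * x) (ball (0 : ℂ) 1) (ball 0 1) := fun j x hx => by
    simpa [hω] using hx
  have hωc : ∀ j, MapsTo (fun x => ω j * x) (closedBall (0 : ℂ) 1) (closedBall 0 1) :=
    fun j x hx => by simpa [hω] using hx
  let g : ℂ → ℂ := fun x => ∏ j ∈ Finset.range N, (f (ω j * x) - c)
  have hgd : DiffContOnCl ℂ g (ball 0 1) := by
    refine ⟨DifferentiableOn.fun_finsetProd fun j _ =>
      (hd.comp (differentiable_id.const_mul (ω j)).differentiableOn (hωb j)).sub_const c, ?_⟩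
    rw [closure_ball _ one_ne_zero]
    exact continuousOn_finsetProd _ fun j _ =>
      (hc.comp (continuous_const.mul continuous_id).continuousOn (hωc j)).sub continuousOn_const
  have hzero : EqOn g 0 (ball 0 1) := by
    refine eqOn_of_eqOn_frontier isBounded_ball hgd diffContOnCl_const fun x hx => ?_
    rw [frontier_ball _ one_ne_zero, mem_sphere_zero_iff_norm] at hx
    set θ := arg (ζ / x)
    obtain ⟨β, hβ0, hβ, hβe⟩ : ∃ β : ℝ, 0 ≤ β ∧ β < 2 * π ∧
        exp ((β : ℂ) * I) = ζ / x := by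
      have hn : ‖ζ / x‖ = 1 := by rw [norm_div, hζ, hx, div_one]
      have he := norm_mul_exp_arg_mul_I (ζ / x)
      rw [hn, ofReal_one, one_mul] at he
      rcases le_or_gt 0 (arg (ζ / x)) with h | h
      · exact ⟨_, h, by linarith [arg_le_pi (ζ / x), Real.pi_pos], he⟩
      · refine ⟨arg (ζ / x) + 2 * π, by linarith [neg_pi_lt_arg (ζ / x)], by linarith, ?_⟩
        rw [ofReal_add, add_mul, Complex.exp_add, he]
        push_cast
        rw [exp_two_pi_mul_I, mul_one]
    set j := ⌊β * N / (2 * π)⌋₊ with hj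
    have hjN : j < N := by
      rw [hj, Nat.floor_lt (by positivity), div_lt_iff₀ (by positivity)]
      nlinarith
    refine Finset.prod_eq_zero (Finset.mem_range.2 hjN) (sub_eq_zero.2 (hconst _ ?_ ?_))
    · rw [norm_mul, hω, hx, one_mul]
    · have hx0 : x ≠ 0 := by intro h; simp [h] at hx
      rw [dist_eq, show ω j * x - ζ = (ω j - ζ / x) * x by field_simp, norm_mul, hx, mul_one,
        ← hβe]
      refine lt_of_le_of_lt (b := ‖(2 * π * j / N : ℝ) - β‖) ?_ ?_
      · calc ‖ω j - exp ((β : ℂ) * I)‖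
            = ‖exp ((β : ℂ) * I) * (exp (I * ((2 * π * j / N - β : ℝ) : ℂ)) - 1)‖ := by
              simp only [ω, mul_sub, mul_one, ← Complex.exp_add]
              congr 2
              push_cast
              ring_nf
          _ ≤ _ := by
              rw [norm_mul, norm_exp_ofReal_mul_I, one_mul]
              exact Real.norm_exp_I_mul_ofReal_sub_one_le
      · have h1 := Nat.floor_le (show 0 ≤ β * N / (2 * π) by positivity)
        have h2 := Nat.lt_floor_add_one (β * N / (2 * π))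
        rw [← hj] at h1 h2
        rw [le_div_iff₀ (by positivity)] at h1
        rw [div_lt_iff₀ (by positivity)] at h2
        have e : 2 * π * j / N - β = (2 * π * j - β * N) / N := by field_simp
        rw [e, Real.norm_eq_abs, abs_div, abs_of_pos hN0, div_lt_iff₀ hN0, abs_lt]
        constructor <;> nlinarith
  have hfin : (ball (0 : ℂ) 1).Finite := by
    refine ((Finset.range N).finite_toSet.biUnion fun j _ =>
      (show {x ∈ ball (0 : ℂ) 1 | f (ω j * x) = c}.Subsingleton from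
        fun x hx y hy => mul_left_cancel₀ (exp_ne_zero _)
          (hi (hωb j hx.1) (hωb j hy.1) (hx.2.trans hy.2.symm))).finite).subset fun x hx => ?_
    obtain ⟨j, hj, he⟩ := Finset.prod_eq_zero_iff.1 (hzero hx)
    exact mem_biUnion (Finset.mem_coe.2 hj) ⟨hx, sub_eq_zero.1 he⟩
  exact infinite_of_mem_nhds (0 : ℂ) (ball_mem_nhds 0 one_pos) hfin

end Vale.Agent.P116
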