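import Mathlib

/-!
P116: length and area. An injective holomorphic self map of the disc sends some circular arc at
every centre and every scale to a curve of small diameter.
-/

open Complex Metric Filter Set Topology MeasureTheory
open scoped Real ENNReal

namespace Vale.Agent.P116

lemma det_mul_left (d : ℂ) :
    ((ContinuousLinearMap.toSpanSingleton ℂ d).restrictScalars ℝ).det = normSq d := by
  unfold ContinuousLinearMap.det
  rw [show ((((ContinuousLinearMap.toSpanSingleton ℂ d).restrictScalars ℝ) : ℂ →L[ℝ] ℂ) : ℂ →ₗ[ℝ] ℂ)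
      = ((ContinuousLinearMap.toSpanSingleton ℂ d : ℂ →L[ℂ] ℂ) : ℂ →ₗ[ℂ] ℂ).restrictScalars ℝ from rfl,
    LinearMap.det_restrictScalars, Algebra.norm_complex_apply]
  congr 1
  rw [LinearMap.det_ring]
  simp

/-- The area of the image is at most that of the disc. -/
lemma area_le {W : Set ℂ} (hW : IsOpen W) {φ : ℂ → ℂ} (hd : DifferentiableOn ℂ φ W)
    (hi : InjOn φ W) (hm : MapsTo φ W (closedBall 0 1)) :
    ∫⁻ x, W.indicator (fun x => ENNReal.ofReal (normSq (deriv φ x))) x
      ≤ ENNReal.ofReal π := by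
  rw [lintegral_indicator hW.measurableSet]
  have hf : ∀ x ∈ W, HasFDerivWithinAt φ
      ((ContinuousLinearMap.toSpanSingleton ℂ (deriv φ x)).restrictScalars ℝ) W x :=
    fun x hx => ((hd.differentiableAt (hW.mem_nhds hx)).hasDerivAt.hasFDerivAt
      |>.restrictScalars ℝ).hasFDerivWithinAt
  have h := lintegral_abs_det_fderiv_eq_addHaar_image (volume : Measure ℂ) hW.measurableSet hf hi
  simp only [det_mul_left, abs_of_nonneg (normSq_nonneg _)] at h
  rw [h]
  calc volume (φ '' W) ≤ volume (closedBall (0 : ℂ) 1) := measure_mono hm.image_subset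
    _ = _ := by
      rw [Complex.volume_closedBall, ENNReal.ofReal_eq_coe_nnreal Real.pi_nonneg]
      simp
      rfl

/-- The point at angle `t` of the circle of radius `r` about `-s`. -/
noncomputable def circ (s r t : ℝ) : ℂ := -(s : ℂ) + (r : ℂ) * exp ((t : ℂ) * I)

lemma normSq_circ (s r t : ℝ) :
    normSq (circ s r t) = s ^ 2 + r ^ 2 - 2 * (s * r) * Real.cos t := by
  simp [circ, normSq_apply, exp_ofReal_mul_I_re, exp_ofReal_mul_I_im]
  linear_combination r ^ 2 * Real.sin_sq_add_cos_sq t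

/-- A radius with small angular energy. -/
lemma exists_radius {c ρ : ℝ} (hc : 0 < c) (hρ : 0 < ρ) {N : ℕ} (hN : 2 * π < N * c) {W : Set ℂ} (hW : IsOpen W)
    {φ : ℂ → ℂ} (hd : DifferentiableOn ℂ φ W) (hi : InjOn φ W)
    (hm : MapsTo φ W (closedBall 0 1)) (s : ℝ) :
    ∃ r ∈ Ioo (ρ / 2 ^ N) ρ, ENNReal.ofReal r * ∫⁻ t in Ioo (-π) π, ENNReal.ofReal r *
      W.indicator (fun x => ENNReal.ofReal (normSq (deriv φ x))) (circ s r t)
        ≤ ENNReal.ofReal c := by
  set G := W.indicator (fun x => ENNReal.ofReal (normSq (deriv φ x))) with hG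
  set g : ℝ → ℝ≥0∞ := fun r => ∫⁻ t in Ioo (-π) π, ENNReal.ofReal r * G (circ s r t) with hg
  by_contra hne
  push Not at hne
  have hGm : Measurable G :=
    ((continuous_normSq.measurable.comp (measurable_deriv φ)).ennreal_ofReal).indicator
      hW.measurableSet
  have hF : Measurable fun p : ℝ × ℝ => ENNReal.ofReal p.1 * G (circ s p.1 p.2) :=
    measurable_fst.ennreal_ofReal.mul (hGm.comp (by unfold circ; fun_prop))
  have htot : ∫⁻ r in Ioi (0 : ℝ), g r ≤ ENNReal.ofReal π := by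
    calc ∫⁻ r in Ioi (0 : ℝ), g r
        = ∫⁻ p in Ioi (0 : ℝ) ×ˢ Ioo (-π) π, ENNReal.ofReal p.1 * G (circ s p.1 p.2) := by
          rw [Measure.volume_eq_prod, ← Measure.prod_restrict,
            lintegral_prod _ hF.aemeasurable]
      _ = ∫⁻ x, G (-(s : ℂ) + x) := by
          rw [← Complex.lintegral_comp_polarCoord_symm fun x => G (-(s : ℂ) + x), polarCoord_target]
          refine setLIntegral_congr_fun (measurableSet_Ioi.prod measurableSet_Ioo) fun p _ => ?_
          simp only [smul_eq_mul, circ, Complex.polarCoord_symm_apply, exp_mul_I, ofReal_cos,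
            ofReal_sin]
      _ = ∫⁻ x, G x := lintegral_add_left_eq_self G _
      _ ≤ _ := area_le hW hd hi hm
  set J : ℕ → Set ℝ := fun k => Ioo (ρ / 2 ^ (k + 1)) (ρ / 2 ^ k) with hJ
  have hone : ∀ k < N, ENNReal.ofReal (c / 2) ≤ ∫⁻ r in J k, g r := by
    intro k hk
    have hpos : (0 : ℝ) < ρ / 2 ^ k := by positivity
    calc ENNReal.ofReal (c / 2) = ∫⁻ _ in J k, ENNReal.ofReal (c / (ρ / 2 ^ k)) := by
          rw [setLIntegral_const, hJ, Real.volume_Ioo, ← ENNReal.ofReal_mul (by positivity)]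
          congr 1
          field_simp
          ring
      _ ≤ _ := by
          refine setLIntegral_mono' measurableSet_Ioo fun r hr => ?_
          obtain ⟨hr1, hr2⟩ := hr
          have h0 : ρ / 2 ^ N ≤ ρ / 2 ^ (k + 1) := div_le_div_of_nonneg_left hρ.le (by positivity)
            (pow_le_pow_right₀ one_le_two hk)
          have h1 : ρ / 2 ^ k ≤ ρ := div_le_self hρ.le (one_le_pow₀ one_le_two)
          rw [ENNReal.ofReal_div_of_pos hpos]
          refine ENNReal.div_le_of_le_mul' ((hne r ⟨by linarith, by linarith⟩).le.trans ?_)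
          gcongr
  have hsum : ∑ k ∈ Finset.range N, ∫⁻ r in J k, g r ≤ ∫⁻ r in Ioi (0 : ℝ), g r := by
    rw [← lintegral_biUnion_finset ?_ fun k _ => measurableSet_Ioo]
    · refine lintegral_mono_set fun r hr => ?_
      simp only [mem_iUnion] at hr
      obtain ⟨k, _, hk, _⟩ := hr
      exact lt_trans (show (0 : ℝ) < ρ / 2 ^ (k + 1) by positivity) hk
    · intro i _ j _ hij
      rw [Function.onFun, Set.disjoint_left]
      rintro x ⟨hi1, hi2⟩ ⟨hj1, hj2⟩
      rcases lt_or_gt_of_ne hij with h | h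
      · have := div_le_div_of_nonneg_left hρ.le (by positivity)
          (pow_le_pow_right₀ (one_le_two (α := ℝ)) (Nat.succ_le_of_lt h))
        simp only [Nat.succ_eq_add_one] at this
        linarith
      · have := div_le_div_of_nonneg_left hρ.le (by positivity)
          (pow_le_pow_right₀ (one_le_two (α := ℝ)) (Nat.succ_le_of_lt h))
        simp only [Nat.succ_eq_add_one] at this
        linarith
  have : ENNReal.ofReal (N * (c / 2)) ≤ ENNReal.ofReal π := by
    refine le_trans ?_ (hsum.trans htot)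
    rw [ENNReal.ofReal_mul (by positivity), ENNReal.ofReal_natCast]
    simpa using Finset.sum_le_sum fun k hk => hone k (Finset.mem_range.1 hk)
  rw [ENNReal.ofReal_le_ofReal_iff Real.pi_nonneg] at this
  linarith

/-- Small image of an arc whose energy is small. -/
lemma arc_core {c s r : ℝ} (hc : 0 < c) (hr : 0 < r) {W : Set ℂ} (hW : IsOpen W) {φ : ℂ → ℂ}
    (hd : DifferentiableOn ℂ φ W)
    (he : ENNReal.ofReal r * ∫⁻ t in Ioo (-π) π, ENNReal.ofReal r *
      W.indicator (fun x => ENNReal.ofReal (normSq (deriv φ x))) (circ s r t)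
        ≤ ENNReal.ofReal c)
    {a b : ℝ} (hab : a ≤ b) (ha : a ∈ Icc (-π) π) (hb : b ∈ Icc (-π) π)
    (hin : ∀ t ∈ Icc a b, circ s r t ∈ W) :
    dist (φ (circ s r a)) (φ (circ s r b)) ≤ 4 * √c := by
  have hcirc : Continuous fun t : ℝ => circ s r t := by unfold circ; fun_prop
  have hdc : ContinuousOn (fun t : ℝ => deriv φ (circ s r t)) (Icc a b) :=
    (hd.analyticOnNhd hW).deriv.continuousOn.comp hcirc.continuousOn hin
  set D : ℝ → ℂ := fun t => deriv φ (circ s r t) * ((r : ℂ) * (exp ((t : ℂ) * I) * I)) with hD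
  have hder : ∀ t ∈ uIcc a b, HasDerivAt (fun t : ℝ => φ (circ s r t)) (D t) t := by
    intro t ht
    rw [uIcc_of_le hab] at ht
    have h1 : HasDerivAt (fun t : ℝ => circ s r t) ((r : ℂ) * (exp ((t : ℂ) * I) * I)) t := by
      have := (((hasDerivAt_id t).ofReal_comp.mul_const I).cexp.const_mul (r : ℂ)).const_add
        (-(s : ℂ))
      simpa [circ] using this
    exact (hd.differentiableAt (hW.mem_nhds (hin t ht))).hasDerivAt.comp t h1
  have hDc : ContinuousOn D (uIcc a b) := by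
    rw [uIcc_of_le hab]
    exact hdc.mul (by fun_prop : Continuous fun t : ℝ =>
      (r : ℂ) * (exp ((t : ℂ) * I) * I)).continuousOn
  have hftc := intervalIntegral.integral_eq_sub_of_hasDerivAt hder hDc.intervalIntegrable
  rw [dist_comm, dist_eq, ← hftc]
  set q : ℝ → ℝ := fun t => r ^ 2 * normSq (deriv φ (circ s r t)) with hq
  have hqc : ContinuousOn q (Icc a b) :=
    continuousOn_const.mul (continuous_normSq.comp_continuousOn hdc)
  have hint : ∫ t in a..b, q t ≤ c := by
    rw [intervalIntegral.integral_of_le hab, ← ENNReal.ofReal_le_ofReal_iff hc.le,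
      ofReal_integral_eq_lintegral_ofReal (hqc.integrableOn_Icc.mono_set Ioc_subset_Icc_self)
        (.of_forall fun t => mul_nonneg (sq_nonneg r) (normSq_nonneg _))]
    refine le_trans ?_ he
    rw [setLIntegral_congr (Ioo_ae_eq_Ioc (μ := (volume : Measure ℝ))),
      ← lintegral_const_mul' _ _ ENNReal.ofReal_ne_top]
    refine le_trans (le_of_eq (setLIntegral_congr_fun measurableSet_Ioc fun t ht => ?_))
      (lintegral_mono_set (Ioc_subset_Ioc ha.1 hb.2))
    rw [indicator_of_mem (hin t (Ioc_subset_Icc_self ht)), ← mul_assoc,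
      ← ENNReal.ofReal_mul hr.le, ← ENNReal.ofReal_mul (mul_nonneg hr.le hr.le)]
    congr 1
    ring
  have hsc : 0 < √c := Real.sqrt_pos.2 hc
  calc ‖∫ t in a..b, D t‖ ≤ ∫ t in a..b, ‖D t‖ := intervalIntegral.norm_integral_le_integral_norm hab
    _ ≤ ∫ t in a..b, (q t / (2 * √c) + √c / 2) := by
        refine intervalIntegral.integral_mono_on hab hDc.norm.intervalIntegrable
          (((hqc.div_const _).add continuousOn_const).intervalIntegrable_of_Icc hab) fun t _ => ?_
        have e : ‖D t‖ = r * ‖deriv φ (circ s r t)‖ := by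
          simp [hD, norm_exp_ofReal_mul_I, abs_of_pos hr]
          ring
        rw [e, hq]
        simp only [normSq_eq_norm_sq]
        rw [div_add_div _ _ (by positivity) two_ne_zero, le_div_iff₀ (by positivity)]
        nlinarith [sq_nonneg (r * ‖deriv φ (circ s r t)‖ - √c)]
    _ = (∫ t in a..b, q t) / (2 * √c) + (b - a) * (√c / 2) := by
        rw [intervalIntegral.integral_add ((hqc.div_const _).intervalIntegrable_of_Icc hab)
          intervalIntegrable_const, intervalIntegral.integral_div, intervalIntegral.integral_const,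
          smul_eq_mul]
    _ ≤ c / (2 * √c) + (2 * π) * (√c / 2) := by
        gcongr
        linarith [ha.1, hb.2]
    _ ≤ 4 * √c := by
        have e : c / (2 * √c) = √c / 2 := by
          rw [div_eq_div_iff (by positivity) two_ne_zero]
          nlinarith [Real.mul_self_sqrt hc.le]
        rw [e]
        nlinarith [Real.pi_lt_d2]

/-- Small image of an arc in the disc whose energy is small. -/
lemma arc_small {c s r : ℝ} (hc : 0 < c) (hs : 0 ≤ s) (hr : 0 < r) {φ : ℂ → ℂ}
    (hd : DifferentiableOn ℂ φ (ball 0 1))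
    (he : ENNReal.ofReal r * ∫⁻ t in Ioo (-π) π, ENNReal.ofReal r *
      (ball (0 : ℂ) 1).indicator (fun x => ENNReal.ofReal (normSq (deriv φ x))) (circ s r t)
        ≤ ENNReal.ofReal c)
    {a b : ℝ} (hab : a ≤ b) (ha : a ∈ Icc (-π) π) (hb : b ∈ Icc (-π) π)
    (hai : ‖circ s r a‖ < 1) (hbi : ‖circ s r b‖ < 1) :
    dist (φ (circ s r a)) (φ (circ s r b)) ≤ 4 * √c := by
  have hin : ∀ t ∈ Icc a b, circ s r t ∈ ball (0 : ℂ) 1 := by
    intro t ht
    rw [mem_ball_zero_iff]
    have key : ∀ u, |t| ≤ |u| → |u| ≤ π → ‖circ s r u‖ < 1 → ‖circ s r t‖ < 1 := by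
      intro u h1 h2 h3
      have hcos : Real.cos u ≤ Real.cos t := by
        rw [← Real.cos_abs u, ← Real.cos_abs t]
        exact Real.cos_le_cos_of_nonneg_of_le_pi (abs_nonneg t) h2 h1
      refine lt_of_le_of_lt ?_ h3
      rw [← sq_le_sq₀ (norm_nonneg _) (norm_nonneg _), ← normSq_eq_norm_sq, ← normSq_eq_norm_sq,
        normSq_circ, normSq_circ]
      nlinarith [mul_nonneg hs hr.le]
    rcases le_total 0 t with h | h
    · exact key b (by rw [abs_of_nonneg h, abs_of_nonneg (h.trans ht.2)]; exact ht.2)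
        (abs_le.2 hb) hbi
    · exact key a (by rw [abs_of_nonpos h, abs_of_nonpos (ht.1.trans h)]; linarith [ht.1])
        (abs_le.2 ha) hai
  exact arc_core hc hr isOpen_ball hd he hab ha hb hin

/-- Length and area: small image of one circular arc, uniformly in the map and in the centre. -/
theorem length_area {ε ρ : ℝ} (hε : 0 < ε) (hρ : 0 < ρ) :
    ∃ δ > 0, δ < ρ ∧ ∀ φ : ℂ → ℂ, DifferentiableOn ℂ φ (ball 0 1) → InjOn φ (ball 0 1) →
      MapsTo φ (ball 0 1) (closedBall 0 1) → ∀ ζ : ℂ, ∃ r ∈ Ioo δ ρ,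
        ∀ x ∈ ball 0 1 ∩ sphere ζ r, ∀ y ∈ ball 0 1 ∩ sphere ζ r, dist (φ x) (φ y) < ε := by
  set c := (ε / 5) ^ 2 with hcdef
  have hc : 0 < c := by positivity
  obtain ⟨N, hN⟩ := exists_nat_gt (2 * π / c)
  rw [div_lt_iff₀ hc] at hN
  have hN0 : N ≠ 0 := by
    rintro rfl
    simp at hN
    linarith [Real.pi_pos]
  refine ⟨ρ / 2 ^ N, by positivity, div_lt_self hρ (one_lt_pow₀ one_lt_two hN0), ?_⟩
  intro φ hd hi hm ζ
  obtain ⟨u, hu, hζ⟩ : ∃ u : ℂ, ‖u‖ = 1 ∧ ζ = u * (-(‖ζ‖ : ℂ)) := by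
    by_cases h : ζ = 0
    · exact ⟨1, by simp, by simp [h]⟩
    · exact ⟨-ζ / (‖ζ‖ : ℂ), by simp [h], by
        have : (‖ζ‖ : ℂ) ≠ 0 := by simpa using h
        field_simp⟩
  have hmul : MapsTo (fun x => u * x) (ball (0 : ℂ) 1) (ball 0 1) := fun x hx => by
    simpa [hu] using hx
  set ψ : ℂ → ℂ := fun x => φ (u * x) with hψ
  have hu0 : u ≠ 0 := by intro h; simp [h] at hu
  have hψd : DifferentiableOn ℂ ψ (ball 0 1) :=
    hd.comp ((differentiable_id.const_mul u).differentiableOn) hmul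
  have hψi : InjOn ψ (ball 0 1) := fun x hx y hy h =>
    mul_left_cancel₀ hu0 (hi (hmul hx) (hmul hy) h)
  obtain ⟨r, hr, he⟩ := exists_radius hc hρ hN isOpen_ball hψd hψi (hm.comp hmul) ‖ζ‖
  have hr0 : 0 < r := lt_trans (by positivity) hr.1
  refine ⟨r, hr, fun x hx y hy => ?_⟩
  have hrep : ∀ z ∈ ball (0 : ℂ) 1 ∩ sphere ζ r, ∃ t ∈ Icc (-π) π,
      z = u * circ ‖ζ‖ r t ∧ ‖circ ‖ζ‖ r t‖ < 1 := by
    rintro z ⟨hz1, hz2⟩
    set w := z / u + (‖ζ‖ : ℂ) with hw
    have hwn : ‖w‖ = r := by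
      have e : w = (z - ζ) / u := by
        rw [hw]; field_simp; linear_combination hζ
      rw [e, norm_div, hu, div_one, ← dist_eq]
      exact hz2
    have e : z = u * circ ‖ζ‖ r (arg w) := by
      rw [circ, ← hwn, norm_mul_exp_arg_mul_I, hw]
      field_simp
      ring
    refine ⟨arg w, ⟨(neg_pi_lt_arg w).le, arg_le_pi w⟩, e, ?_⟩
    have := congrArg norm e
    rw [norm_mul, hu, one_mul] at this
    rw [← this]
    exact mem_ball_zero_iff.1 hz1
  obtain ⟨a, ha, rfl, hai⟩ := hrep x hx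
  obtain ⟨b, hb, rfl, hbi⟩ := hrep y hy
  have h45 : 4 * √c < ε := by
    rw [hcdef, Real.sqrt_sq (by positivity)]
    linarith
  rcases le_total a b with h | h
  · exact (arc_small hc (norm_nonneg ζ) hr0 hψd he h ha hb hai hbi).trans_lt h45
  · rw [dist_comm]
    exact (arc_small hc (norm_nonneg ζ) hr0 hψd he h hb ha hbi hai).trans_lt h45

/-- Length and area at a point of the real line: small image of one half circle. -/
theorem length_area_half {ε ρ : ℝ} (hε : 0 < ε) (hρ : 0 < ρ) :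
    ∃ δ > 0, δ < ρ ∧ ∀ (W : Set ℂ) (φ : ℂ → ℂ) (x : ℝ), IsOpen W → DifferentiableOn ℂ φ W →
      InjOn φ W → MapsTo φ W (closedBall 0 1) → ball (x : ℂ) ρ ∩ {z | 0 < z.im} ⊆ W →
      ∃ r ∈ Ioo δ ρ, ∀ p ∈ {z : ℂ | 0 < z.im} ∩ sphere (x : ℂ) r,
        ∀ q ∈ {z : ℂ | 0 < z.im} ∩ sphere (x : ℂ) r, dist (φ p) (φ q) < ε := by
  set c := (ε / 5) ^ 2 with hcdef
  have hc : 0 < c := by positivity
  obtain ⟨N, hN⟩ := exists_nat_gt (2 * π / c)
  rw [div_lt_iff₀ hc] at hN
  have hN0 : N ≠ 0 := by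
    rintro rfl
    simp at hN
    linarith [Real.pi_pos]
  refine ⟨ρ / 2 ^ N, by positivity, div_lt_self hρ (one_lt_pow₀ one_lt_two hN0), ?_⟩
  intro W φ x hW hd hi hm hsub
  obtain ⟨r, hr, he⟩ := exists_radius hc hρ hN hW hd hi hm (-x)
  have hr0 : 0 < r := lt_trans (by positivity) hr.1
  have hcirc : ∀ t, circ (-x) r t = (x : ℂ) + (r : ℂ) * exp ((t : ℂ) * I) := fun t => by
    simp [circ]
  have hrep : ∀ z ∈ {z : ℂ | 0 < z.im} ∩ sphere (x : ℂ) r,
      ∃ t ∈ Ioo 0 π, z = circ (-x) r t := by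
    rintro z ⟨hz, hzr⟩
    have hwn : ‖z - x‖ = r := by rw [← dist_eq]; exact hzr
    have hwi : 0 < (z - x).im := by simpa using hz
    refine ⟨arg (z - x), ⟨?_, ?_⟩, ?_⟩
    · refine lt_of_le_of_ne (arg_nonneg_iff.2 hwi.le) fun h0 => ?_
      exact hwi.ne (arg_eq_zero_iff.1 h0.symm).2.symm
    · refine lt_of_le_of_ne (arg_le_pi _) fun h0 => ?_
      exact hwi.ne (arg_eq_pi_iff.1 h0).2.symm
    · rw [hcirc, ← hwn, norm_mul_exp_arg_mul_I]
      ring
  have hin : ∀ t ∈ Ioo 0 π, circ (-x) r t ∈ W := by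
    intro t ht
    refine hsub ⟨?_, ?_⟩
    · rw [mem_ball, dist_eq, hcirc, add_sub_cancel_left, norm_mul, norm_exp_ofReal_mul_I,
        norm_real, Real.norm_of_nonneg hr0.le, mul_one]
      exact hr.2
    · show 0 < (circ (-x) r t).im
      simp [hcirc, exp_ofReal_mul_I_im]
      exact mul_pos hr0 (Real.sin_pos_of_pos_of_lt_pi ht.1 ht.2)
  refine ⟨r, hr, fun p hp q hq => ?_⟩
  obtain ⟨a, ha, rfl⟩ := hrep p hp
  obtain ⟨b, hb, rfl⟩ := hrep q hq
  have h45 : 4 * √c < ε := by
    rw [hcdef, Real.sqrt_sq (by positivity)]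
    linarith
  have hI : ∀ t ∈ Ioo 0 π, t ∈ Icc (-π) π := fun t ht =>
    ⟨by linarith [ht.1, Real.pi_pos], ht.2.le⟩
  rcases le_total a b with h | h
  · exact (arc_core hc hr0 hW hd he h (hI a ha) (hI b hb) fun t ht =>
      hin t ⟨ha.1.trans_le ht.1, ht.2.trans_lt hb.2⟩).trans_lt h45
  · rw [dist_comm]
    exact (arc_core hc hr0 hW hd he h (hI b hb) (hI a ha) fun t ht =>
      hin t ⟨hb.1.trans_le ht.1, ht.2.trans_lt ha.2⟩).trans_lt h45

end Vale.Agent.P116
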