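import Mathlib

/-!
P116: the Cayley map, the shear of the disc given by a height function, and compactness of the
class of height functions.
-/

open Complex Metric Filter Set Topology
open scoped Real

namespace Vale.Agent.P116

/-- Diagonal lemma: an equicontinuous sequence with values in a compact set has a locally
uniformly convergent subsequence. -/
theorem exists_subseq_tlu {X Y : Type*} [PseudoMetricSpace X] [TopologicalSpace.SeparableSpace X] [MetricSpace Y]
    {Q : Set Y} (hQ : IsCompact Q) (f : ℕ → X → Y) (hfQ : ∀ n x, f n x ∈ Q)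
    (heq : ∀ x, ∀ ε > 0, ∃ δ > 0, ∀ n y, dist y x < δ → dist (f n y) (f n x) ≤ ε) :
    ∃ (φ : ℕ → ℕ) (g : X → Y), StrictMono φ ∧ (∀ x, g x ∈ Q) ∧
      TendstoLocallyUniformly (fun n => f (φ n)) g atTop := by
  rcases isEmpty_or_nonempty X with hX | hX
  · exact ⟨id, fun x => (hX.false x).elim, strictMono_id, fun x => (hX.false x).elim,
      fun u _ x => (hX.false x).elim⟩
  let e : ℕ → X := TopologicalSpace.denseSeq X
  have he : DenseRange e := TopologicalSpace.denseRange_denseSeq X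
  obtain ⟨a, -, φ, hφ, hlim⟩ := (isCompact_univ_pi fun _ : ℕ => hQ).tendsto_subseq
    (x := fun n k => f n (e k)) (fun n k _ => hfQ n (e k))
  have hk : ∀ k, Tendsto (fun n => f (φ n) (e k)) atTop (𝓝 (a k)) := fun k =>
    (tendsto_pi_nhds.1 hlim) k
  have hcau : ∀ x, CauchySeq fun n => f (φ n) x := by
    intro x
    refine Metric.cauchySeq_iff.2 fun ε hε => ?_
    obtain ⟨δ, hδ, hd⟩ := heq x (ε / 4) (by positivity)
    obtain ⟨k, hk'⟩ : ∃ k, dist x (e k) < δ := by
      obtain ⟨_, ⟨k, rfl⟩, hk'⟩ := Metric.mem_closure_iff.1 (he x) δ hδ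
      exact ⟨k, hk'⟩
    obtain ⟨N, hN⟩ := Metric.cauchySeq_iff.1 (hk k).cauchySeq (ε / 4) (by positivity)
    refine ⟨N, fun m hm n hn => ?_⟩
    have hm' := hd (φ m) (e k) (by rwa [dist_comm])
    have hn' := hd (φ n) (e k) (by rwa [dist_comm])
    have := hN m hm n hn
    have h1 := dist_triangle4 (f (φ m) x) (f (φ m) (e k)) (f (φ n) (e k)) (f (φ n) x)
    linarith [dist_comm (f (φ m) x) (f (φ m) (e k))]
  have hex : ∀ x, ∃ y ∈ Q, Tendsto (fun n => f (φ n) x) atTop (𝓝 y) := fun x =>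
    cauchySeq_tendsto_of_isComplete hQ.isComplete (fun n => hfQ _ _) (hcau x)
  choose g hgQ hg using hex
  refine ⟨φ, g, hφ, hgQ, Metric.tendstoLocallyUniformly_iff.2 fun ε hε x => ?_⟩
  obtain ⟨δ, hδ, hd⟩ := heq x (ε / 4) (by positivity)
  refine ⟨ball x δ, ball_mem_nhds x hδ, ?_⟩
  have hev := Metric.tendsto_nhds.1 (hg x) (ε / 4) (by positivity)
  filter_upwards [hev] with n hn y hy
  have hgy : dist (g y) (g x) ≤ ε / 4 :=
    le_of_tendsto ((hg y).dist (hg x)) (.of_forall fun m => hd (φ m) y hy)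
  have hfy := hd (φ n) y hy
  have h1 := dist_triangle4 (g y) (g x) (f (φ n) x) (f (φ n) y)
  rw [dist_comm (g x) (f (φ n) x), dist_comm (f (φ n) x) (f (φ n) y)] at h1
  linarith

/-- Height functions: nonnegative, bounded, with a square root modulus, zero off `(-1,1)`. -/
structure Adm (h : ℝ → ℝ) : Prop where
  hold : ∀ x y, |h x - h y| ≤ 2 * √|x - y|
  nonneg : ∀ x, 0 ≤ h x
  le_two : ∀ x, h x ≤ 2
  zero : ∀ x, 1 ≤ |x| → h x = 0

lemma adm_zero : Adm (fun _ => 0) :=
  ⟨fun x y => by simp, fun _ => le_rfl, fun _ => by norm_num, fun _ _ => rfl⟩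

lemma Adm.equi {δ : ℝ} {ε : ℝ} (hε : 0 < ε) (hδ : δ = (ε / 2) ^ 2) {h : ℝ → ℝ} (hh : Adm h)
    {x y : ℝ} (hxy : dist y x < δ) : dist (h y) (h x) ≤ ε := by
  rw [Real.dist_eq] at hxy ⊢
  refine (hh.hold y x).trans ?_
  have : √|y - x| ≤ ε / 2 := by
    rw [Real.sqrt_le_left (by positivity)]
    exact hδ ▸ hxy.le
  linarith

lemma Adm.continuous {h : ℝ → ℝ} (hh : Adm h) : Continuous h :=
  Metric.continuous_iff.2 fun x ε hε =>
    ⟨(ε / 2 / 2) ^ 2, by positivity, fun _ hy =>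
      lt_of_le_of_lt (hh.equi (ε := ε / 2) (by positivity) rfl hy) (by linarith)⟩

/-- Sequential compactness of the class of height functions. -/
theorem adm_subseq {h : ℕ → ℝ → ℝ} (hh : ∀ n, Adm (h n)) :
    ∃ (φ : ℕ → ℕ) (g : ℝ → ℝ), StrictMono φ ∧ Adm g ∧
      TendstoUniformly (fun n => h (φ n)) g atTop := by
  obtain ⟨φ, g, hφ, hgQ, hg⟩ := exists_subseq_tlu (isCompact_Icc (a := (0 : ℝ)) (b := 2)) h
    (fun n x => ⟨(hh n).nonneg x, (hh n).le_two x⟩)
    (fun x ε hε => ⟨(ε / 2) ^ 2, by positivity, fun n y hy => (hh n).equi hε rfl hy⟩)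
  have hpt : ∀ x, Tendsto (fun n => h (φ n) x) atTop (𝓝 (g x)) := fun x => by
    refine Metric.tendsto_nhds.2 fun ε hε => ?_
    obtain ⟨t, ht, hev⟩ := Metric.tendstoLocallyUniformly_iff.1 hg ε hε x
    filter_upwards [hev] with n hn
    rw [dist_comm]
    exact hn x (mem_of_mem_nhds ht)
  have hzero : ∀ x, 1 ≤ |x| → g x = 0 := fun x hx =>
    tendsto_nhds_unique (hpt x) (tendsto_const_nhds.congr fun n => ((hh _).zero x hx).symm)
  refine ⟨φ, g, hφ, ⟨fun x y => ?_, fun x => (hgQ x).1, fun x => (hgQ x).2, hzero⟩, ?_⟩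
  · exact le_of_tendsto (((hpt x).sub (hpt y)).abs) (.of_forall fun n => (hh _).hold x y)
  · refine Metric.tendstoUniformly_iff.2 fun ε hε => ?_
    have hK := Metric.tendstoUniformlyOn_iff.1
      (tendstoLocallyUniformly_iff_forall_isCompact.1 hg (Icc (-1 : ℝ) 1) isCompact_Icc) ε hε
    filter_upwards [hK] with n hn x
    by_cases hx : x ∈ Icc (-1 : ℝ) 1
    · exact hn x hx
    · have : 1 ≤ |x| := by
        by_contra hlt
        exact hx (abs_le.1 (not_le.1 hlt).le)
      rw [hzero x this, (hh _).zero x this, dist_self]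
      exact hε

/-- The Cayley map. -/
noncomputable def kap (z : ℂ) : ℂ := (z - I) / (z + I)

/-- The inverse Cayley map. -/
noncomputable def kinv (w : ℂ) : ℂ := I * (1 + w) / (1 - w)

lemma add_I_ne {z : ℂ} (hz : -1 < z.im) : z + I ≠ 0 := by
  intro h
  have := congrArg Complex.im h
  simp at this
  linarith

lemma one_sub_kap {z : ℂ} (hz : -1 < z.im) : 1 - kap z = 2 * I / (z + I) := by
  have := add_I_ne hz
  rw [kap]
  field_simp
  ring

lemma kap_ne_one {z : ℂ} (hz : -1 < z.im) : kap z ≠ 1 := by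
  intro h
  have := one_sub_kap hz
  rw [h, sub_self] at this
  exact div_ne_zero (by simp) (add_I_ne hz) this.symm

lemma kinv_kap {z : ℂ} (hz : -1 < z.im) : kinv (kap z) = z := by
  have h1 := add_I_ne hz
  rw [kinv, one_sub_kap hz, kap]
  field_simp
  linear_combination (0 : ℂ) * I_sq

lemma normSq_kap_sub_one {z : ℂ} (hz : -1 < z.im) :
    normSq (kap z) - 1 = -4 * z.im / normSq (z + I) := by
  have h1 := normSq_pos.2 (add_I_ne hz)
  rw [kap, map_div₀, div_sub_one h1.ne']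
  congr 1
  simp [normSq_apply]
  ring

lemma norm_lt_one_iff' {w : ℂ} : ‖w‖ < 1 ↔ normSq w - 1 < 0 := by
  rw [normSq_eq_norm_sq, sub_neg, sq_lt_one_iff_abs_lt_one, abs_norm]

lemma norm_kap_lt_iff {z : ℂ} (hz : -1 < z.im) : ‖kap z‖ < 1 ↔ 0 < z.im := by
  rw [norm_lt_one_iff', normSq_kap_sub_one hz,
    div_lt_iff₀ (normSq_pos.2 (add_I_ne hz))]
  constructor <;> intro h <;> linarith

lemma norm_kap_le_iff {z : ℂ} (hz : -1 < z.im) : ‖kap z‖ ≤ 1 ↔ 0 ≤ z.im := by
  rw [show ‖kap z‖ ≤ 1 ↔ normSq (kap z) - 1 ≤ 0 by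
    rw [normSq_eq_norm_sq, sub_nonpos, sq_le_one_iff_abs_le_one, abs_norm],
    normSq_kap_sub_one hz, div_le_iff₀ (normSq_pos.2 (add_I_ne hz))]
  constructor <;> intro h <;> linarith

lemma norm_kap_real (x : ℝ) : ‖kap x‖ = 1 := by
  refine le_antisymm ((norm_kap_le_iff (by simp)).2 (by simp)) (not_lt.1 fun h => ?_)
  have := (norm_kap_lt_iff (z := (x : ℂ)) (by simp)).1 h
  simp at this

lemma kinv_im (w : ℂ) : (kinv w).im = (1 - normSq w) / normSq (1 - w) := by
  simp [kinv, Complex.div_im, normSq_apply]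
  ring

lemma kap_kinv {w : ℂ} (hw : w ≠ 1) : kap (kinv w) = w := by
  have h1 : 1 - w ≠ 0 := sub_ne_zero.2 (Ne.symm hw)
  rw [kap, kinv]
  rw [div_sub' h1, div_add' _ _ _ h1, div_div_div_cancel_right₀ h1]
  rw [div_eq_iff (by intro h; apply two_ne_zero (α := ℂ); linear_combination (-I) * h + (1:ℂ) * (2 * I_sq))]
  ring

lemma kinv_im_nonneg {w : ℂ} (hw : ‖w‖ ≤ 1) : 0 ≤ (kinv w).im := by
  rw [kinv_im]
  refine div_nonneg ?_ (normSq_nonneg _)
  rw [normSq_eq_norm_sq]
  nlinarith [norm_nonneg w]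

lemma cases_disc {w : ℂ} (hw : ‖w‖ ≤ 1) : w = 1 ∨ ∃ z : ℂ, 0 ≤ z.im ∧ w = kap z := by
  by_cases h : w = 1
  · exact .inl h
  · exact .inr ⟨kinv w, kinv_im_nonneg hw, (kap_kinv h).symm⟩

lemma cases_sphere {w : ℂ} (hw : ‖w‖ = 1) : w = 1 ∨ ∃ x : ℝ, w = kap x := by
  rcases cases_disc hw.le with h | ⟨z, hz, rfl⟩
  · exact .inl h
  · refine .inr ⟨z.re, ?_⟩
    have : z.im = 0 := by
      by_contra h
      exact absurd hw ((norm_kap_lt_iff (by linarith)).2 (lt_of_le_of_ne hz (Ne.symm h))).ne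
    congr 1
    exact Complex.ext rfl (by simp [this])

lemma continuousAt_kinv {w : ℂ} (hw : w ≠ 1) : ContinuousAt kinv w := by
  unfold kinv
  exact ContinuousAt.div (by fun_prop) (by fun_prop) (sub_ne_zero.2 (Ne.symm hw))

lemma continuousAt_kap {z : ℂ} (hz : -1 < z.im) : ContinuousAt kap z := by
  unfold kap
  exact ContinuousAt.div (by fun_prop) (by fun_prop) (add_I_ne hz)

/-- The correction term of the shear. -/
noncomputable def Ta (h : ℝ → ℝ) (w : ℂ) : ℂ := (h (kinv w).re : ℂ) * (1 - w)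

/-- The shear `z ↦ z + i h(Re z)`, written in the disc. -/
noncomputable def T (h : ℝ → ℝ) (w : ℂ) : ℂ := (2 * w + Ta h w) / (2 + Ta h w)

variable {h : ℝ → ℝ}

lemma T_kap (hh : Adm h) {z : ℂ} (hz : 0 ≤ z.im) : T h (kap z) = kap (z + (h z.re : ℂ) * I) := by
  have h1 := add_I_ne (z := z) (by linarith)
  have h2 : z + (h z.re : ℂ) * I + I ≠ 0 :=
    add_I_ne (by simp; linarith [hh.nonneg z.re])
  rw [T, Ta, kinv_kap (by linarith), one_sub_kap (by linarith), kap, kap]
  rw [mul_div_assoc', mul_div_assoc', ← add_div, add_div' _ _ _ h1,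
    div_div_div_cancel_right₀ h1, div_eq_div_iff ?_ h2]
  · ring
  · intro h; apply h2; linear_combination h / 2

lemma T_one (h : ℝ → ℝ) : T h 1 = 1 := by simp [T, Ta]

lemma norm_T_le (hh : Adm h) {w : ℂ} (hw : ‖w‖ ≤ 1) : ‖T h w‖ ≤ 1 := by
  rcases cases_disc hw with rfl | ⟨z, hz, rfl⟩
  · simp [T_one]
  · have := hh.nonneg z.re
    rw [T_kap hh hz]
    exact (norm_kap_le_iff (by simp; linarith)).2 (by simp; linarith)

lemma T_ne_one (hh : Adm h) {z : ℂ} (hz : 0 ≤ z.im) : T h (kap z) ≠ 1 := by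
  rw [T_kap hh hz]
  exact kap_ne_one (by simp; linarith [hh.nonneg z.re])

lemma T_injOn (hh : Adm h) : InjOn (T h) (closedBall 0 1) := by
  intro w hw w' hw' he
  rw [mem_closedBall_zero_iff] at hw hw'
  rcases cases_disc hw with rfl | ⟨z, hz, rfl⟩ <;> rcases cases_disc hw' with rfl | ⟨z', hz', rfl⟩
  · rfl
  · exact absurd (he.symm.trans (T_one h)) (T_ne_one hh hz')
  · exact absurd (he.trans (T_one h)) (T_ne_one hh hz)
  · rw [T_kap hh hz, T_kap hh hz'] at he
    have he' := congrArg kinv he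
    rw [kinv_kap (by simp; linarith [hh.nonneg z.re]),
      kinv_kap (by simp; linarith [hh.nonneg z'.re])] at he'
    have hre : z.re = z'.re := by simpa using congrArg Complex.re he'
    rw [hre] at he'
    rw [add_right_cancel he']

lemma mem_T_ball (hh : Adm h) {q : ℂ} :
    q ∈ T h '' ball 0 1 ↔ ‖q‖ < 1 ∧ h (kinv q).re < (kinv q).im := by
  constructor
  · rintro ⟨w, hw, rfl⟩
    rw [mem_ball_zero_iff] at hw
    rcases cases_disc hw.le with rfl | ⟨z, hz, rfl⟩
    · simp at hw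
    · have hzp := (norm_kap_lt_iff (by linarith)).1 hw
      have hn := hh.nonneg z.re
      rw [T_kap hh hz, kinv_kap (by simp; linarith)]
      exact ⟨(norm_kap_lt_iff (by simp; linarith)).2 (by simp; linarith), by simp; linarith⟩
  · rintro ⟨hq, hlt⟩
    have hq1 : q ≠ 1 := by intro h; rw [h] at hq; simp at hq
    set z := kinv q - (h (kinv q).re : ℂ) * I with hz
    have hzre : z.re = (kinv q).re := by simp [hz]
    have hzim : 0 < z.im := by simp [hz]; linarith
    refine ⟨kap z, mem_ball_zero_iff.2 ((norm_kap_lt_iff (by linarith)).2 hzim), ?_⟩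
    rw [T_kap hh hzim.le, hzre, hz, sub_add_cancel, kap_kinv hq1]

lemma mem_T_closedBall (hh : Adm h) {z : ℂ} (hz : h z.re ≤ z.im) :
    kap z ∈ T h '' closedBall 0 1 := by
  have hw : 0 ≤ (z - (h z.re : ℂ) * I).im := by simp; linarith
  refine ⟨_, mem_closedBall_zero_iff.2 ((norm_kap_le_iff (by linarith)).2 hw), ?_⟩
  rw [T_kap hh hw]
  simp

lemma le_of_mem_T_closedBall (hh : Adm h) {z : ℂ} (hz : -1 < z.im)
    (hm : kap z ∈ T h '' closedBall 0 1) : h z.re ≤ z.im := by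
  obtain ⟨w, hw, he⟩ := hm
  rcases cases_disc (mem_closedBall_zero_iff.1 hw) with rfl | ⟨v, hv, rfl⟩
  · exact absurd (he.symm.trans (T_one h)) (kap_ne_one hz)
  · rw [T_kap hh hv] at he
    have := congrArg kinv he
    rw [kinv_kap (by simp; linarith [hh.nonneg v.re]), kinv_kap hz] at this
    rw [← this]
    simp [hv]

lemma isOpen_T_ball (hh : Adm h) : IsOpen (T h '' ball 0 1) := by
  rw [isOpen_iff_mem_nhds]
  intro q hq
  obtain ⟨hq1, hlt⟩ := (mem_T_ball hh).1 hq
  have hne : q ≠ 1 := by intro h; rw [h] at hq1; simp at hq1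
  have hc := continuousAt_kinv hne
  have e1 : ∀ᶠ x in 𝓝 q, ‖x‖ < 1 := continuous_norm.continuousAt.eventually_lt_const hq1
  have e2 : ∀ᶠ x in 𝓝 q, h (kinv x).re < (kinv x).im :=
    ((hh.continuous.continuousAt.comp (continuous_re.continuousAt.comp hc))).eventually_lt
      (continuous_im.continuousAt.comp hc) hlt
  filter_upwards [e1, e2] with x h1 h2 using (mem_T_ball hh).2 ⟨h1, h2⟩

lemma tendsto_Ta {hs : ℕ → ℝ → ℝ} (hh : Adm h) (hhs : ∀ n, Adm (hs n))
    (hu : TendstoUniformly hs h atTop) {ws : ℕ → ℂ} {w : ℂ} (hw : Tendsto ws atTop (𝓝 w)) :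
    Tendsto (fun n => Ta (hs n) (ws n)) atTop (𝓝 (Ta h w)) := by
  by_cases h1 : w = 1
  · subst h1
    have : Ta h 1 = 0 := by simp [Ta]
    rw [this]
    refine squeeze_zero_norm (a := fun n => 2 * ‖1 - ws n‖) (fun n => ?_) ?_
    · rw [Ta, norm_mul, norm_real, Real.norm_of_nonneg ((hhs n).nonneg _)]
      gcongr
      exact (hhs n).le_two _
    · simpa using ((tendsto_const_nhds (x := (1 : ℂ))).sub hw).norm.const_mul 2
  · have hre : Tendsto (fun n => (kinv (ws n)).re) atTop (𝓝 (kinv w).re) :=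
      (continuous_re.tendsto _).comp ((continuousAt_kinv h1).tendsto.comp hw)
    have := hu.tendsto_comp hh.continuous.continuousAt hre
    exact ((continuous_ofReal.tendsto _).comp this).mul (tendsto_const_nhds.sub hw)

lemma T_den_ne (hh : Adm h) {w : ℂ} (hw : ‖w‖ ≤ 1) : 2 + Ta h w ≠ 0 := by
  intro he
  have := congrArg Complex.re he
  simp [Ta] at this
  have : w.re ≤ 1 := (Complex.re_le_norm w).trans hw
  nlinarith [hh.nonneg (kinv w).re]

/-- Joint sequential continuity of the shear. -/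
lemma tendsto_T {hs : ℕ → ℝ → ℝ} (hh : Adm h) (hhs : ∀ n, Adm (hs n))
    (hu : TendstoUniformly hs h atTop) {ws : ℕ → ℂ} {w : ℂ} (hw1 : ‖w‖ ≤ 1)
    (hw : Tendsto ws atTop (𝓝 w)) :
    Tendsto (fun n => T (hs n) (ws n)) atTop (𝓝 (T h w)) := by
  have ha := tendsto_Ta hh hhs hu hw
  exact ((hw.const_mul 2).add ha).div (tendsto_const_nhds.add ha) (T_den_ne hh hw1)

lemma T_continuousOn (hh : Adm h) : ContinuousOn (T h) (closedBall 0 1) := by
  intro w hw
  rw [ContinuousWithinAt, tendsto_iff_seq_tendsto]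
  intro ws hws
  rw [tendsto_nhdsWithin_iff] at hws
  refine tendsto_T hh (fun _ => hh) ?_ (mem_closedBall_zero_iff.1 hw) hws.1
  exact Metric.tendstoUniformly_iff.2 fun ε hε => .of_forall fun n x => by simpa using hε

/-- An open subset of the image of the closed disc lies in the image of the open disc. -/
lemma subset_T_ball (hh : Adm h) {U : Set ℂ} (hU : IsOpen U)
    (hsub : U ⊆ T h '' closedBall 0 1) : U ⊆ T h '' ball 0 1 := by
  have hU1 : U ⊆ ball 0 1 := by
    rw [← interior_closedBall (0 : ℂ) one_ne_zero]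
    refine interior_maximal (hsub.trans ?_) hU
    rintro _ ⟨w, hw, rfl⟩
    exact mem_closedBall_zero_iff.2 (norm_T_le hh (mem_closedBall_zero_iff.1 hw))
  intro q hq
  obtain ⟨w, hw, rfl⟩ := hsub hq
  rcases cases_disc (mem_closedBall_zero_iff.1 hw) with rfl | ⟨z, hz, rfl⟩
  · have := hU1 hq
    simp [T_one] at this
  · rcases eq_or_lt_of_le hz with hz0 | hzp
    · exfalso
      have hn := hh.nonneg z.re
      set v : ℂ := z + (h z.re : ℂ) * I with hv
      have hvim : v.im = h z.re := by simp [hv, ← hz0]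
      let γ : ℝ → ℂ := fun e => kap (v - (e : ℂ) * I)
      have hγ : ContinuousAt γ 0 :=
        (continuousAt_kap (by simp [hvim]; linarith)).comp (by fun_prop)
      have hγ0 : γ 0 ∈ U := by
        have : γ 0 = T h (kap z) := by rw [T_kap hh hz]; simp [γ, hv]
        rw [this]; exact hq
      have hev : ∀ᶠ e in 𝓝[>] (0 : ℝ), γ e ∈ U :=
        mem_nhdsWithin_of_mem_nhds (hγ.preimage_mem_nhds (hU.mem_nhds hγ0))
      obtain ⟨e, heU, he0, he1⟩ :=
        (hev.and (eventually_mem_set.2 (Ioo_mem_nhdsGT (show (0 : ℝ) < 1 by norm_num)))).exists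
      have him : -1 < (v - (e : ℂ) * I).im := by simp [hvim]; linarith
      have hle := le_of_mem_T_closedBall hh him (hsub heU)
      have hvre : (v - (e : ℂ) * I).re = z.re := by simp [hv]
      rw [hvre] at hle
      simp [hvim] at hle
      linarith
    · exact mem_image_of_mem _ (mem_ball_zero_iff.2 ((norm_kap_lt_iff (by linarith)).2 hzp))

/-- A convergent selection from a sequence of heights and pairs of points of the closed disc. -/
lemma select {hs : ℕ → ℝ → ℝ} (hhs : ∀ n, Adm (hs n)) {ws ws' : ℕ → ℂ} (hw : ∀ n, ‖ws n‖ ≤ 1)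
    (hw' : ∀ n, ‖ws' n‖ ≤ 1) :
    ∃ (φ : ℕ → ℕ) (h : ℝ → ℝ) (w w' : ℂ), StrictMono φ ∧ Adm h ∧ ‖w‖ ≤ 1 ∧ ‖w'‖ ≤ 1 ∧
      TendstoUniformly (fun n => hs (φ n)) h atTop ∧ Tendsto (fun n => ws (φ n)) atTop (𝓝 w) ∧
      Tendsto (fun n => ws' (φ n)) atTop (𝓝 w') := by
  obtain ⟨φ, h, hφ, hh, hu⟩ := adm_subseq hhs
  obtain ⟨⟨w, w'⟩, hmem, ψ, hψ, hlim⟩ :=
    ((isCompact_closedBall (0 : ℂ) 1).prod (isCompact_closedBall (0 : ℂ) 1)).tendsto_subseq
      (x := fun n => (ws (φ n), ws' (φ n)))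
      (fun n => ⟨mem_closedBall_zero_iff.2 (hw _), mem_closedBall_zero_iff.2 (hw' _)⟩)
  exact ⟨φ ∘ ψ, h, w, w', hφ.comp hψ, hh, mem_closedBall_zero_iff.1 hmem.1,
    mem_closedBall_zero_iff.1 hmem.2, fun u hu0 => hψ.tendsto_atTop.eventually (hu u hu0),
    (continuous_fst.tendsto _).comp hlim, (continuous_snd.tendsto _).comp hlim⟩

/-- The modulus of continuity of the shear is uniform in the height. -/
theorem T_modulus {ε : ℝ} (hε : 0 < ε) : ∃ δ > 0, ∀ h, Adm h → ∀ w w' : ℂ, ‖w‖ ≤ 1 → ‖w'‖ ≤ 1 →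
    dist w w' < δ → dist (T h w) (T h w') < ε := by
  by_contra hne
  push Not at hne
  choose hs hhs ws ws' hw hw' hclose hbad using
    fun n : ℕ => hne (1 / (n + 1)) (by positivity)
  obtain ⟨φ, h, w, w', hφ, hh, hw1, hw1', hu, l1, l2⟩ := select hhs hw hw'
  have heq : dist w w' = 0 := tendsto_nhds_unique (l1.dist l2) (squeeze_zero
    (fun n => dist_nonneg) (fun n => (hclose (φ n)).le)
    (tendsto_one_div_add_atTop_nhds_zero_nat.comp hφ.tendsto_atTop))
  have e1 := (tendsto_T hh (fun n => hhs _) hu hw1 l1).dist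
    (tendsto_T hh (fun n => hhs _) hu hw1' l2)
  rw [← dist_eq_zero.1 heq, dist_self] at e1
  have := ge_of_tendsto e1 (.of_forall fun n => hbad (φ n))
  linarith

/-- The modulus of continuity of the inverse shear is uniform in the height. -/
theorem T_modulus_inv {ε : ℝ} (hε : 0 < ε) : ∃ δ > 0, ∀ h, Adm h → ∀ w w' : ℂ,
    ‖w‖ ≤ 1 → ‖w'‖ ≤ 1 → dist (T h w) (T h w') < δ → dist w w' < ε := by
  by_contra hne
  push Not at hne
  choose hs hhs ws ws' hw hw' hclose hbad using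
    fun n : ℕ => hne (1 / (n + 1)) (by positivity)
  obtain ⟨φ, h, w, w', hφ, hh, hw1, hw1', hu, l1, l2⟩ := select hhs hw hw'
  have heq : dist (T h w) (T h w') = 0 := tendsto_nhds_unique
    ((tendsto_T hh (fun n => hhs _) hu hw1 l1).dist (tendsto_T hh (fun n => hhs _) hu hw1' l2))
    (squeeze_zero (fun n => dist_nonneg) (fun n => (hclose (φ n)).le)
      (tendsto_one_div_add_atTop_nhds_zero_nat.comp hφ.tendsto_atTop))
  have e2 := l1.dist l2
  rw [T_injOn hh (mem_closedBall_zero_iff.2 hw1) (mem_closedBall_zero_iff.2 hw1')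
    (dist_eq_zero.1 heq), dist_self] at e2
  have := ge_of_tendsto e2 (.of_forall fun n => hbad (φ n))
  linarith

end Vale.Agent.P116
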