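import Mathlib

/-!
P116: a continuous function holomorphic off the real axis is holomorphic; reflection.
-/

open Complex Metric Filter Set Topology
open scoped Real ComplexConjugate Interval

namespace Vale.Agent.P116

/-- The boundary integral of a rectangle. -/
noncomputable def bdry (F : ℂ → ℂ) (a b c d : ℝ) : ℂ :=
  (∫ x : ℝ in a..b, F (x + c * I)) - (∫ x : ℝ in a..b, F (x + d * I)) +
    I • (∫ y : ℝ in c..d, F (b + y * I)) - I • (∫ y : ℝ in c..d, F (a + y * I))

/-- Continuous and holomorphic off the axis implies holomorphic. -/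
theorem differentiableOn_of_off_axis {U : Set ℂ} (hU : IsOpen U) {F : ℂ → ℂ}
    (hc : ContinuousOn F U) (hd : ∀ z ∈ U, z.im ≠ 0 → DifferentiableAt ℂ F z) :
    DifferentiableOn ℂ F U := by
  refine (isConservativeOn_and_continuousOn_iff_isDifferentiableOn hU).1 ⟨fun z w hsub => ?_, hc⟩
  rw [eq_neg_iff_add_eq_zero, wedgeIntegral_add_wedgeIntegral_eq]
  change bdry F z.re w.re z.im w.im = 0
  have hrect : ∀ {a b c d : ℝ}, [[a, b]] ⊆ [[z.re, w.re]] → [[c, d]] ⊆ [[z.im, w.im]] →
      [[a, b]] ×ℂ [[c, d]] ⊆ U := fun h1 h2 v hv => hsub ⟨h1 hv.1, h2 hv.2⟩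
  have hside : ∀ a b c d : ℝ, [[a, b]] ⊆ [[z.re, w.re]] → [[c, d]] ⊆ [[z.im, w.im]] →
      0 ∉ Ioo (min c d) (max c d) → bdry F a b c d = 0 := by
    intro a b c d h1 h2 h0
    have := integral_boundary_rect_eq_zero_of_continuousOn_of_differentiableOn F
      ((a : ℂ) + c * I) ((b : ℂ) + d * I) ?_ ?_
    · simpa [bdry] using this
    · refine hc.mono ?_
      simpa using hrect h1 h2
    · intro v hv
      simp only [add_re, add_im, ofReal_re, ofReal_im, mul_re, mul_im, I_re, I_im, mul_zero,
        mul_one, sub_zero, add_zero, zero_add, mem_reProdIm] at hv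
      have hvU : v ∈ U :=
        hrect h1 h2 ⟨Ioo_subset_Icc_self hv.1, Ioo_subset_Icc_self hv.2⟩
      exact (hd v hvU fun h => h0 (h ▸ hv.2)).differentiableWithinAt
  by_cases h0 : (0 : ℝ) ∈ Ioo (min z.im w.im) (max z.im w.im)
  · have hm : (0 : ℝ) ∈ [[z.im, w.im]] := Ioo_subset_Icc_self h0
    have hA := hside z.re w.re z.im 0 Subset.rfl (uIcc_subset_uIcc left_mem_uIcc hm) (by
      intro h
      rcases le_total z.im 0 with hz | hz
      · rw [max_eq_right hz] at h; exact lt_irrefl _ h.2
      · rw [min_eq_right hz] at h; exact lt_irrefl _ h.1)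
    have hB := hside z.re w.re 0 w.im Subset.rfl (uIcc_subset_uIcc hm right_mem_uIcc) (by
      intro h
      rcases le_total w.im 0 with hz | hz
      · rw [max_eq_left hz] at h; exact lt_irrefl _ h.2
      · rw [min_eq_left hz] at h; exact lt_irrefl _ h.1)
    have hint : ∀ x ∈ [[z.re, w.re]], ∀ c d : ℝ, [[c, d]] ⊆ [[z.im, w.im]] →
        IntervalIntegrable (fun y : ℝ => F ((x : ℂ) + y * I)) MeasureTheory.volume c d := by
      intro x hx c d hcd
      refine (hc.comp (by fun_prop : Continuous fun y : ℝ => (x : ℂ) + y * I).continuousOn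
        fun y hy => hsub ⟨?_, ?_⟩).intervalIntegrable
      · simpa using hx
      · simpa using hcd hy
    have e1 := intervalIntegral.integral_add_adjacent_intervals
      (hint z.re left_mem_uIcc z.im 0 (uIcc_subset_uIcc left_mem_uIcc hm))
      (hint z.re left_mem_uIcc 0 w.im (uIcc_subset_uIcc hm right_mem_uIcc))
    have e2 := intervalIntegral.integral_add_adjacent_intervals
      (hint w.re right_mem_uIcc z.im 0 (uIcc_subset_uIcc left_mem_uIcc hm))
      (hint w.re right_mem_uIcc 0 w.im (uIcc_subset_uIcc hm right_mem_uIcc))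
    simp only [bdry, smul_eq_mul] at hA hB ⊢
    rw [← e1, ← e2]
    linear_combination hA + hB
  · exact hside _ _ _ _ Subset.rfl Subset.rfl h0

/-- Reflection of a function of the closed upper half plane. -/
noncomputable def refl (f : ℂ → ℂ) (z : ℂ) : ℂ := if 0 ≤ z.im then f z else conj (f (conj z))

lemma refl_of_nonneg {f : ℂ → ℂ} {z : ℂ} (h : 0 ≤ z.im) : refl f z = f z := if_pos h

lemma refl_of_neg {f : ℂ → ℂ} {z : ℂ} (h : z.im < 0) : refl f z = conj (f (conj z)) :=
  if_neg (not_le.2 h)

/-- Schwarz reflection. -/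
theorem refl_differentiableOn {U : Set ℂ} (hU : IsOpen U) (hsym : ∀ z ∈ U, conj z ∈ U)
    {f : ℂ → ℂ} (hc : ContinuousOn f (U ∩ {z | 0 ≤ z.im}))
    (hd : ∀ z ∈ U, 0 < z.im → DifferentiableAt ℂ f z)
    (hreal : ∀ z ∈ U, z.im = 0 → (f z).im = 0) : DifferentiableOn ℂ (refl f) U := by
  refine differentiableOn_of_off_axis hU ?_ fun z hz h0 => ?_
  · refine ContinuousOn.if (fun z hz => ?_) ?_ ?_
    · have h0 : z.im = 0 := by
        have := hz.2
        rwa [frontier_setOfPred_le_im] at this
      have hcz : conj z = z := Complex.conj_eq_iff_im.2 h0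
      rw [hcz]
      exact (Complex.conj_eq_iff_im.2 (hreal z hz.1 h0)).symm
    · rw [(isClosed_le continuous_const continuous_im).closure_eq]
      exact hc
    · refine continuous_conj.comp_continuousOn (hc.comp continuous_conj.continuousOn ?_)
      intro z hz
      refine ⟨hsym z hz.1, ?_⟩
      have := hz.2
      rw [show {a : ℂ | ¬0 ≤ a.im} = {a | a.im < 0} by ext; simp, closure_setOfPred_im_lt] at this
      simpa using this
  · rcases lt_or_gt_of_ne h0 with h | h
    · refine DifferentiableAt.congr_of_eventuallyEq (f := fun w => conj (f (conj w))) ?_ ?_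
      · exact differentiableAt_conj_conj_iff.2 (hd _ (hsym z hz) (by simpa using h))
      · filter_upwards [(isOpen_lt continuous_im continuous_const).mem_nhds h] with w hw
        exact refl_of_neg hw
    · refine (hd z hz h).congr_of_eventuallyEq ?_
      filter_upwards [(isOpen_lt continuous_const continuous_im).mem_nhds h] with w hw
      exact refl_of_nonneg (le_of_lt hw)

end Vale.Agent.P116
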