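import Vale.Agent.P116.Conf
import Vale.Agent.P116.Area
import Vale.Agent.P116.Annulus
import Vale.Agent.P116.Reflect

/-!
P116: boundary behaviour of a conformal map onto the disc along a segment of the real line.
-/

open Complex Metric Filter Set Topology
open scoped Real ComplexConjugate

namespace Vale.Agent.P116

/-- The open upper half plane. -/
def upper : Set ℂ := {z | 0 < z.im}

lemma isOpen_upper : IsOpen upper := isOpen_lt continuous_const continuous_im

lemma convex_upper : Convex ℝ upper := convex_halfSpace_im_gt 0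

/-- A conformal map of an open part of the upper half plane onto the disc. -/
structure Umap (W : Set ℂ) (f : ℂ → ℂ) : Prop where
  isOpen : IsOpen W
  sub : W ⊆ upper
  diff : DifferentiableOn ℂ f W
  inj : InjOn f W
  image : f '' W = ball 0 1

variable {W : Set ℂ} {f : ℂ → ℂ}

lemma Umap.norm_lt (H : Umap W f) {z : ℂ} (hz : z ∈ W) : ‖f z‖ < 1 :=
  mem_ball_zero_iff.1 (H.image.subset (mem_image_of_mem f hz))

lemma mem_closure_upper {z : ℂ} (hz : 0 ≤ z.im) {r : ℝ} (hr : 0 < r) :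
    ∃ p ∈ upper, p ∈ ball z r := by
  refine ⟨z + ((r / 2 : ℝ) : ℂ) * I, ?_, ?_⟩
  · show 0 < (z + ((r / 2 : ℝ) : ℂ) * I).im
    simp
    linarith
  · rw [mem_ball, dist_eq, add_sub_cancel_left, norm_mul, norm_I, norm_real,
      Real.norm_of_nonneg (by linarith)]
    linarith

lemma Umap.closure_mem (H : Umap W f) {x : ℝ} {r : ℝ} (hsub : ball (x : ℂ) r ∩ upper ⊆ W)
    {z : ℂ} (hz : z ∈ ball (x : ℂ) r) (hz0 : 0 ≤ z.im) : z ∈ closure W := by
  rw [Metric.mem_closure_iff]
  intro ε hε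
  have := mem_ball.1 hz
  obtain ⟨p, hp, hpz⟩ := mem_closure_upper hz0 (lt_min hε (show 0 < r - dist z x by linarith))
  have e := mem_ball.1 hpz
  refine ⟨p, hsub ⟨mem_ball.2 ?_, hp⟩, ?_⟩
  · linarith [dist_triangle p z (x : ℂ), min_le_right ε (r - dist z x)]
  · rw [dist_comm]
    linarith [min_le_left ε (r - dist z x)]

/-- The limit at a boundary point on the line exists and lies on the circle. -/
theorem Umap.limit (H : Umap W f) {x r : ℝ} (hr : 0 < r) (hsub : ball (x : ℂ) r ∩ upper ⊆ W) :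
    ∃ q : ℂ, ‖q‖ = 1 ∧ Tendsto f (𝓝[W] (x : ℂ)) (𝓝 q) := by
  have : (𝓝[W] (x : ℂ)).NeBot := mem_closure_iff_nhdsWithin_neBot.1
    (H.closure_mem hsub (mem_ball_self hr) (by simp))
  set w₁ : ℂ := (x : ℂ) + ((r / 2 : ℝ) : ℂ) * I with hw₁
  set w₂ : ℂ := (x : ℂ) + ((r / 3 : ℝ) : ℂ) * I with hw₂
  have hmem : ∀ t : ℝ, 0 < t → t < r → (x : ℂ) + (t : ℂ) * I ∈ W ∧
      dist ((x : ℂ) + (t : ℂ) * I) x = t := by
    intro t ht0 ht
    have e : dist ((x : ℂ) + (t : ℂ) * I) x = t := by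
      rw [dist_eq, add_sub_cancel_left, norm_mul, norm_I, norm_real,
        Real.norm_of_nonneg ht0.le, mul_one]
    refine ⟨hsub ⟨mem_ball.2 (by linarith), ?_⟩, e⟩
    show 0 < ((x : ℂ) + (t : ℂ) * I).im
    simpa using ht0
  obtain ⟨h1, d1⟩ := hmem (r / 2) (by linarith) (by linarith)
  obtain ⟨h2, d2⟩ := hmem (r / 3) (by linarith) (by linarith)
  set d := dist (f w₁) (f w₂)
  have hd : 0 < d := dist_pos.2 fun he => by
    have := congrArg Complex.im (H.inj h1 h2 he)
    simp at this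
    linarith
  have hcauchy : Cauchy (map f (𝓝[W] (x : ℂ))) := by
    refine Metric.cauchy_iff.2 ⟨inferInstance, fun ε hε => ?_⟩
    set η := min ε d / 5 with hη
    have hη0 : 0 < η := by positivity
    obtain ⟨δ, hδ, hδρ, hLA⟩ := length_area_half hη0 (show (0 : ℝ) < r / 4 by positivity)
    obtain ⟨s, ⟨hs1, hs2⟩, harc⟩ := hLA W f x H.isOpen H.diff H.inj
      (fun z hz => mem_closedBall_zero_iff.2 (H.norm_lt hz).le)
      (fun z hz => hsub ⟨ball_subset_ball (by linarith) hz.1, hz.2⟩)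
    obtain ⟨p, hp⟩ : ∃ p : ℂ, ∀ z ∈ W ∩ sphere (x : ℂ) s, f z ∈ closedBall p η := by
      rcases (W ∩ sphere (x : ℂ) s).eq_empty_or_nonempty with h0 | ⟨z0, hz0⟩
      · exact ⟨0, by simp [h0]⟩
      · exact ⟨f z0, fun z hz => mem_closedBall.2
          (harc z ⟨H.sub hz.1, hz.2⟩ z0 ⟨H.sub hz0.1, hz0.2⟩).le⟩
    set A := W ∩ ball (x : ℂ) s
    set B := W ∩ (closedBall (x : ℂ) s)ᶜ
    have hcov : ball (0 : ℂ) 1 \ closedBall p η ⊆ f '' A ∪ f '' B := by
      rintro v ⟨hv, hvp⟩
      obtain ⟨z, hz, rfl⟩ := H.image.symm.subset hv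
      rcases lt_trichotomy (dist z x) s with h | h | h
      · exact .inl (mem_image_of_mem _ ⟨hz, h⟩)
      · exact absurd (hp z ⟨hz, h⟩) hvp
      · exact .inr (mem_image_of_mem _ ⟨hz, not_le.2 h⟩)
    have hdis : f '' A ∩ f '' B = ∅ := by
      rw [eq_empty_iff_forall_notMem]
      rintro v ⟨⟨z, hz, rfl⟩, y, hy, he⟩
      rw [H.inj hy.1 hz.1 he] at hy
      exact hy.2 (mem_closedBall.2 (mem_ball.1 hz.2).le)
    rcases isPreconnected_iff_subset_of_disjoint.1 (isPreconnected_ball_diff hη0) _ _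
      (isOpen_image_inj H.isOpen H.diff H.inj (H.isOpen.inter isOpen_ball) inter_subset_left)
      (isOpen_image_inj H.isOpen H.diff H.inj
        (H.isOpen.inter isClosed_closedBall.isOpen_compl) inter_subset_left) hcov
      (by rw [hdis, inter_empty]) with hA | hB
    · exfalso
      have key : ∀ z ∈ W, s < dist z x → f z ∈ closedBall p η := by
        intro z hz hzd
        by_contra hc
        obtain ⟨y, hy, he⟩ := hA ⟨H.image.subset (mem_image_of_mem f hz), hc⟩
        rw [H.inj hy.1 hz he] at hy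
        linarith [mem_ball.1 hy.2]
      have a1 := mem_closedBall.1 (key w₁ h1 (by rw [hw₁, d1]; linarith))
      have a2 := mem_closedBall.1 (key w₂ h2 (by rw [hw₂, d2]; linarith))
      linarith [dist_triangle_right (f w₁) (f w₂) p, min_le_right ε d]
    · have key : ∀ z ∈ W, dist z (x : ℂ) < s → f z ∈ closedBall p η := by
        intro z hz hzd
        by_contra hc
        obtain ⟨y, hy, he⟩ := hB ⟨H.image.subset (mem_image_of_mem f hz), hc⟩
        rw [H.inj hy.1 hz he] at hy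
        exact hy.2 (mem_closedBall.2 hzd.le)
      refine ⟨f '' (W ∩ ball (x : ℂ) δ),
        image_mem_map (inter_mem_nhdsWithin _ (ball_mem_nhds _ hδ)), ?_⟩
      rintro _ ⟨a, ha, rfl⟩ _ ⟨b, hb, rfl⟩
      have a1 := mem_closedBall.1 (key a ha.1 (lt_trans (mem_ball.1 ha.2) hs1))
      have a2 := mem_closedBall.1 (key b hb.1 (lt_trans (mem_ball.1 hb.2) hs1))
      linarith [dist_triangle_right (f a) (f b) p, min_le_left ε d]
  obtain ⟨q, hq⟩ := CompleteSpace.complete hcauchy
  have hq' : Tendsto f (𝓝[W] (x : ℂ)) (𝓝 q) := hq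
  refine ⟨q, le_antisymm (le_of_tendsto hq'.norm ?_) (not_lt.1 fun hlt => ?_), hq'⟩
  · filter_upwards [self_mem_nhdsWithin] with z hz using (H.norm_lt hz).le
  · obtain ⟨a, ha, rfl⟩ := H.image.symm.subset (mem_ball_zero_iff.2 hlt)
    have him : 0 < a.im := H.sub ha
    have hev : ∀ᶠ z in 𝓝[W] (x : ℂ), f z ∈ f '' (W ∩ ball a (a.im / 2)) :=
      hq'.eventually (image_mem_nhds H.diff H.inj (H.isOpen.mem_nhds ha)
        (inter_mem (H.isOpen.mem_nhds ha) (ball_mem_nhds a (half_pos him))))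
    have hnear : ∀ᶠ z in 𝓝[W] (x : ℂ), z ∈ ball (x : ℂ) (a.im / 2) :=
      nhdsWithin_le_nhds (ball_mem_nhds _ (half_pos him))
    obtain ⟨z, ⟨y, hy, he⟩, hzW, hzx⟩ := (hev.and (eventually_mem_nhdsWithin.and hnear)).exists
    rw [H.inj hy.1 hzW he] at hy
    have e1 := (Complex.abs_im_le_norm (z - a)).trans (dist_eq z a ▸ (mem_ball.1 hy.2).le)
    have e2 := (Complex.abs_im_le_norm (z - x)).trans_lt (dist_eq z x ▸ mem_ball.1 hzx)
    rw [sub_im, abs_le] at e1
    rw [sub_im, ofReal_im, abs_lt] at e2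
    linarith [e1.1, e2.2]

lemma Umap.ext_cont (H : Umap W f) {x r : ℝ} (hsub : ball (x : ℂ) r ∩ upper ⊆ W) :
    ContinuousOn (extendFrom W f) (ball (x : ℂ) r ∩ {z | 0 ≤ z.im}) := by
  refine continuousOn_extendFrom (fun z hz => H.closure_mem hsub hz.1 hz.2) fun z hz => ?_
  rcases eq_or_lt_of_le (show 0 ≤ z.im from hz.2) with h | h
  · have e : z = (z.re : ℂ) := Complex.ext rfl (by simp [← h])
    have hd := mem_ball.1 hz.1
    obtain ⟨q, -, hq⟩ := H.limit (x := z.re) (r := r - dist z x) (by linarith) fun p hp => hsub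
      ⟨mem_ball.2 (by
        have := mem_ball.1 hp.1
        rw [← e] at this
        linarith [dist_triangle p z (x : ℂ)]), hp.2⟩
    exact ⟨q, by rw [e]; exact hq⟩
  · exact ⟨f z, H.diff.continuousOn z (hsub ⟨hz.1, h⟩)⟩

lemma Umap.ext_eq (H : Umap W f) {z : ℂ} (hz : z ∈ W) : extendFrom W f z = f z :=
  extendFrom_eq (subset_closure hz) (H.diff.continuousOn z hz)

lemma Umap.ext_norm (H : Umap W f) {x r : ℝ} (hr : 0 < r) (hsub : ball (x : ℂ) r ∩ upper ⊆ W) :
    ‖extendFrom W f x‖ = 1 ∧ Tendsto f (𝓝[W] (x : ℂ)) (𝓝 (extendFrom W f x)) := by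
  obtain ⟨q, hq, hlim⟩ := H.limit hr hsub
  rw [extendFrom_eq (H.closure_mem hsub (mem_ball_self hr) (by simp)) hlim]
  exact ⟨hq, hlim⟩

/-- Near a boundary limit the image is covered by a half disc and its diameter. -/
theorem Umap.boundary_open (H : Umap W f) {x r : ℝ} (hr : 0 < r)
    (hsub : ball (x : ℂ) r ∩ upper ⊆ W) :
    ∃ ε > 0, (∀ v ∈ ball (extendFrom W f x) ε, ‖v‖ < 1 →
        v ∈ f '' (ball (x : ℂ) r ∩ upper)) ∧
      ∀ v ∈ ball (extendFrom W f x) ε, ‖v‖ = 1 →
        ∃ t : ℝ, (t : ℂ) ∈ ball (x : ℂ) r ∧ extendFrom W f t = v := by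
  set q := extendFrom W f x with hq
  have hq1 : ‖q‖ = 1 := (H.ext_norm hr hsub).1
  have hq0 : q ≠ 0 := by intro h; simp [h] at hq1
  have hc := H.ext_cont hsub
  obtain ⟨δ, hδ, hne⟩ : ∃ δ > 0, ∀ z ∈ ball (x : ℂ) δ, 0 ≤ z.im →
      z ∈ ball (x : ℂ) r ∧ extendFrom W f z / (-q) ≠ 1 := by
    have h1 : ∀ᶠ z in 𝓝[ball (x : ℂ) r ∩ {z | 0 ≤ z.im}] (x : ℂ),
        extendFrom W f z ≠ -q :=
      (hc (x : ℂ) ⟨mem_ball_self hr, by simp⟩).eventually_ne
        (by rw [← hq]; intro h; exact hq0 (by linear_combination h / 2))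
    obtain ⟨δ, hδ, hsub'⟩ := Metric.mem_nhdsWithin_iff.1 h1
    refine ⟨min δ r, lt_min hδ hr, fun z hz h0 => ?_⟩
    have hzr : z ∈ ball (x : ℂ) r := ball_subset_ball (min_le_right _ _) hz
    refine ⟨hzr, fun he => hsub' ⟨ball_subset_ball (min_le_left _ _) hz, hzr, h0⟩ ?_⟩
    rw [div_eq_one_iff_eq (neg_ne_zero.2 hq0)] at he
    exact he
  set g : ℂ → ℂ := fun z => kinv (extendFrom W f z / (-q)) with hg
  have hgu : ∀ z ∈ ball (x : ℂ) δ, 0 < z.im → 0 < (g z).im := by
    intro z hz hzi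
    obtain ⟨hzr, hn⟩ := hne z hz hzi.le
    have hlt : ‖extendFrom W f z / (-q)‖ < 1 := by
      rw [norm_div, norm_neg, hq1, div_one, H.ext_eq (hsub ⟨hzr, hzi⟩)]
      exact H.norm_lt (hsub ⟨hzr, hzi⟩)
    rw [hg, kinv_im]
    refine div_pos ?_ (normSq_pos.2 (sub_ne_zero.2 (Ne.symm hn)))
    linarith [norm_lt_one_iff'.1 hlt]
  have hgr : ∀ z ∈ ball (x : ℂ) δ, z.im = 0 → (g z).im = 0 := by
    intro z hz h0
    obtain ⟨hzr, -⟩ := hne z hz h0.ge
    have e : z = (z.re : ℂ) := Complex.ext rfl (by simp [h0])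
    have hd := mem_ball.1 hzr
    have hn := (H.ext_norm (x := z.re) (r := r - dist z x) (by linarith) fun p hp => hsub
      ⟨mem_ball.2 (by
        have := mem_ball.1 hp.1
        rw [← e] at this
        linarith [dist_triangle p z (x : ℂ)]), hp.2⟩).1
    rw [← e] at hn
    rw [hg, kinv_im, normSq_eq_norm_sq (extendFrom W f z / (-q)), norm_div, norm_neg, hq1, hn]
    simp
  have hgd : ∀ z ∈ ball (x : ℂ) δ, 0 < z.im → DifferentiableAt ℂ g z := by
    intro z hz hzi
    obtain ⟨hzr, hn⟩ := hne z hz hzi.le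
    have hW : z ∈ W := hsub ⟨hzr, hzi⟩
    have he : extendFrom W f =ᶠ[𝓝 z] f :=
      Filter.eventuallyEq_of_mem (H.isOpen.mem_nhds hW) fun y hy => H.ext_eq hy
    have h1 : DifferentiableAt ℂ (fun z => extendFrom W f z / (-q)) z :=
      ((H.diff.differentiableAt (H.isOpen.mem_nhds hW)).congr_of_eventuallyEq he).div_const _
    have h2 : DifferentiableAt ℂ kinv (extendFrom W f z / (-q)) := by
      unfold kinv
      exact DifferentiableAt.div (by fun_prop) (by fun_prop) (sub_ne_zero.2 (Ne.symm hn))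
    exact h2.comp z h1
  have hgc : ContinuousOn g (ball (x : ℂ) δ ∩ {z | 0 ≤ z.im}) := by
    intro z hz
    obtain ⟨hzr, hn⟩ := hne z hz.1 hz.2
    have hsub2 : ball (x : ℂ) δ ∩ {z | 0 ≤ z.im} ⊆ ball (x : ℂ) r ∩ {z | 0 ≤ z.im} :=
      fun p hp => ⟨(hne p hp.1 hp.2).1, hp.2⟩
    exact ContinuousAt.comp_continuousWithinAt (f := fun z => extendFrom W f z / (-q))
      (continuousAt_kinv hn) (((hc z (hsub2 hz)).mono hsub2).div_const _)
  have hF : DifferentiableOn ℂ (refl g) (ball (x : ℂ) δ) :=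
    refl_differentiableOn isOpen_ball (fun z hz => by
      have hz' := mem_ball.1 hz
      rw [mem_ball]
      rwa [← Complex.conj_ofReal, dist_conj_conj]) hgc hgd hgr
  have hFx : refl g (x : ℂ) = 0 := by
    rw [refl_of_nonneg (by simp), hg]
    simp only [← hq]
    rw [kinv, div_neg, div_self hq0]
    simp
  have hxδ : (x : ℂ) ∈ ball (x : ℂ) δ := mem_ball_self hδ
  rcases (hF.analyticAt (isOpen_ball.mem_nhds hxδ)).eventually_constant_or_nhds_le_map_nhds with
    hcst | hopen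
  · exfalso
    obtain ⟨ρ, hρ, hsubρ⟩ := Metric.mem_nhds_iff.1 (inter_mem (ball_mem_nhds (x : ℂ) hδ) hcst)
    obtain ⟨p, hp, hpx⟩ := mem_closure_upper (z := (x : ℂ)) (by simp) hρ
    have he : refl g p = refl g (x : ℂ) := (hsubρ hpx).2
    have hp0 : 0 < p.im := hp
    rw [hFx, refl_of_nonneg hp0.le] at he
    have := hgu p (hsubρ hpx).1 hp0
    rw [he] at this
    simp at this
  · have hnb : refl g '' ball (x : ℂ) δ ∈ 𝓝 (0 : ℂ) :=
      hFx ▸ hopen (image_mem_map (isOpen_ball.mem_nhds hxδ))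
    have hk0 : kinv (q / -q) = 0 := by
      rw [div_neg, div_self hq0, kinv]
      simp
    have hcont : ContinuousAt (fun v => kinv (v / -q)) q :=
      (continuousAt_kinv (by rw [div_neg, div_self hq0]; norm_num)).comp
        (f := fun v : ℂ => v / -q) (continuousAt_id.div_const _)
    obtain ⟨ε₀, hε₀, hsubε⟩ := Metric.mem_nhds_iff.1 (hcont.preimage_mem_nhds (hk0.symm ▸ hnb))
    refine ⟨min ε₀ 1, lt_min hε₀ one_pos, fun v hv hv1 => ?_, fun v hv hv1 => ?_⟩
    all_goals
      obtain ⟨z, hz, hze⟩ := hsubε (ball_subset_ball (min_le_left _ _) hv)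
      have hvq : v / -q ≠ 1 := by
        intro he
        rw [div_eq_one_iff_eq (neg_ne_zero.2 hq0)] at he
        rw [he, mem_ball, dist_eq, show -q - q = -(2 * q) by ring, norm_neg, norm_mul,
          Complex.norm_two, hq1] at hv
        linarith [min_le_right ε₀ 1]
      have hvim : (refl g z).im = (1 - normSq (v / -q)) / normSq (1 - v / -q) := by
        rw [hze, kinv_im]
      have hvn : normSq (v / -q) = ‖v‖ ^ 2 := by
        rw [normSq_eq_norm_sq, norm_div, norm_neg, hq1, div_one]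
      have hback : ∀ p ∈ ball (x : ℂ) δ, 0 ≤ p.im → g p = kinv (v / -q) →
          extendFrom W f p = v := fun p hp hp0 he => by
        have := congrArg kap he
        rw [hg, kap_kinv (hne p hp hp0).2, kap_kinv hvq] at this
        exact (div_left_inj' (neg_ne_zero.2 hq0)).1 this
    · have hpos : 0 < (refl g z).im := by
        rw [hvim, hvn]
        exact div_pos (by nlinarith [norm_nonneg v]) (normSq_pos.2 (sub_ne_zero.2 (Ne.symm hvq)))
      rcases lt_trichotomy z.im 0 with hn | h0 | hp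
      · rw [refl_of_neg hn, conj_im] at hpos
        have := hgu (conj z) (by
          rw [mem_ball, ← Complex.conj_ofReal, dist_conj_conj]; exact mem_ball.1 hz)
          (by simpa using hn)
        linarith
      · rw [refl_of_nonneg h0.ge, hgr z hz h0] at hpos
        exact absurd hpos (lt_irrefl _)
      · rw [refl_of_nonneg hp.le] at hze
        have hzr := (hne z hz hp.le).1
        exact ⟨z, ⟨hzr, hp⟩, by rw [← H.ext_eq (hsub ⟨hzr, hp⟩)]; exact hback z hz hp.le hze⟩
    · have hzero : (refl g z).im = 0 := by rw [hvim, hvn, hv1]; simp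
      have hz0 : z.im = 0 := by
        rcases lt_trichotomy z.im 0 with hn | h0 | hp
        · rw [refl_of_neg hn, conj_im] at hzero
          have := hgu (conj z) (by
            rw [mem_ball, ← Complex.conj_ofReal, dist_conj_conj]; exact mem_ball.1 hz)
            (by simpa using hn)
          linarith
        · exact h0
        · rw [refl_of_nonneg hp.le] at hzero
          have := hgu z hz hp
          linarith
      have e : z = (z.re : ℂ) := Complex.ext rfl (by simp [hz0])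
      rw [refl_of_nonneg hz0.ge] at hze
      exact ⟨z.re, e ▸ (hne z hz hz0.ge).1, e ▸ hback z hz hz0.ge hze⟩

end Vale.Agent.P116
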