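import Vale.Agent.P116.Basic

/-!
P116: conformal maps: inverse of an injective holomorphic map, Montel, Hurwitz, and the Riemann
mapping theorem for the regions above a height function.
-/

open Complex Metric Filter Set Topology
open scoped Real ComplexConjugate

namespace Vale.Agent.P116

lemma not_const_near {U : Set ℂ} {f : ℂ → ℂ} (hi : InjOn f U) {x : ℂ} (hU : U ∈ 𝓝 x) :
    ¬∀ᶠ y in 𝓝 x, f y = f x := by
  intro h
  obtain ⟨ρ, hρ, hsub⟩ := Metric.mem_nhds_iff.1 (inter_mem hU h)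
  have hy : x + (ρ / 2 : ℝ) ∈ ball x ρ := by
    rw [mem_ball, dist_eq, add_sub_cancel_left, norm_real, Real.norm_of_nonneg (by linarith)]
    linarith
  have := hi (hsub hy).1 (hsub (mem_ball_self hρ)).1 ((hsub hy).2.trans rfl)
  rw [add_eq_left, ofReal_eq_zero] at this
  linarith

lemma image_mem_nhds {U : Set ℂ} {f : ℂ → ℂ} (hd : DifferentiableOn ℂ f U) (hi : InjOn f U)
    {x : ℂ} {W : Set ℂ} (hU : U ∈ 𝓝 x) (hW : W ∈ 𝓝 x) : f '' W ∈ 𝓝 (f x) := by
  have ha : AnalyticAt ℂ f x := hd.analyticAt hU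
  rcases ha.eventually_constant_or_nhds_le_map_nhds with h | h
  · exact absurd h (not_const_near hi hU)
  · exact h (image_mem_map hW)

lemma isOpen_image_inj {U : Set ℂ} {f : ℂ → ℂ} (hU : IsOpen U) (hd : DifferentiableOn ℂ f U)
    (hi : InjOn f U) {W : Set ℂ} (hW : IsOpen W) (hWU : W ⊆ U) : IsOpen (f '' W) := by
  rw [isOpen_iff_mem_nhds]
  rintro _ ⟨x, hx, rfl⟩
  exact image_mem_nhds hd hi (hU.mem_nhds (hWU hx)) (hW.mem_nhds hx)

/-- The inverse of an injective holomorphic map is holomorphic. -/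
theorem inv_differentiableOn {U : Set ℂ} {f g : ℂ → ℂ} (hU : IsOpen U)
    (hd : DifferentiableOn ℂ f U) (hi : InjOn f U) (hg : ∀ x ∈ U, g (f x) = x) :
    DifferentiableOn ℂ g (f '' U) := by
  have hfU := isOpen_image_inj hU hd hi hU subset_rfl
  have hcont : ∀ x ∈ U, ContinuousAt g (f x) := by
    intro x hx
    rw [ContinuousAt, hg x hx]
    intro W hW
    rw [mem_map]
    refine Filter.mem_of_superset
      (image_mem_nhds hd hi (hU.mem_nhds hx) (inter_mem hW (hU.mem_nhds hx))) ?_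
    rintro _ ⟨y, hy, rfl⟩
    simpa [hg y hy.2] using hy.1
  have hder : ∀ x ∈ U, deriv f x ≠ 0 → DifferentiableAt ℂ g (f x) := by
    intro x hx hne
    refine (HasDerivAt.of_local_left_inverse (f := f) (hcont x hx) ?_ hne ?_).differentiableAt
    · rw [hg x hx]; exact (hd.differentiableAt (hU.mem_nhds hx)).hasDerivAt
    · filter_upwards [hfU.mem_nhds (mem_image_of_mem f hx)] with y hy
      obtain ⟨t, ht, rfl⟩ := hy
      rw [hg t ht]
  rintro _ ⟨x, hx, rfl⟩
  refine DifferentiableAt.differentiableWithinAt ?_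
  rcases ((hd.analyticAt (hU.mem_nhds hx)).deriv).eventually_eq_zero_or_eventually_ne_zero
    with h0 | h0
  · exfalso
    obtain ⟨ρ, hρ, hsub⟩ := Metric.mem_nhds_iff.1 (inter_mem (hU.mem_nhds hx) h0)
    refine not_const_near hi (hU.mem_nhds hx) ?_
    filter_upwards [ball_mem_nhds x hρ] with y hy
    exact isOpen_ball.is_const_of_deriv_eq_zero (convex_ball x ρ).isPreconnected
      (hd.mono fun z hz => (hsub hz).1) (fun z hz => (hsub hz).2) hy (mem_ball_self hρ)
  · rw [eventually_nhdsWithin_iff] at h0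
    have hmem : f '' (U ∩ {y | y ∈ ({x}ᶜ : Set ℂ) → deriv f y ≠ 0}) ∈ 𝓝 (f x) :=
      image_mem_nhds hd hi (hU.mem_nhds hx) (inter_mem (hU.mem_nhds hx) h0)
    refine ((differentiableOn_compl_singleton_and_continuousAt_iff hmem).1
      ⟨?_, hcont x hx⟩).differentiableAt hmem
    rintro _ ⟨⟨y, ⟨hy, hy'⟩, rfl⟩, hne⟩
    exact (hder y hy (hy' fun h => hne (by rw [mem_singleton_iff.1 h]; rfl))).differentiableWithinAt

/-- Montel's theorem for sequences bounded by one. -/
theorem montel {V : Set ℂ} (hV : IsOpen V) {f : ℕ → ℂ → ℂ}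
    (hd : ∀ n, DifferentiableOn ℂ (f n) V) (hm : ∀ n, MapsTo (f n) V (closedBall 0 1)) :
    ∃ (φ : ℕ → ℕ) (g : ℂ → ℂ), StrictMono φ ∧ DifferentiableOn ℂ g V ∧
      MapsTo g V (closedBall 0 1) ∧ TendstoLocallyUniformlyOn (fun n => f (φ n)) g atTop V := by
  classical
  obtain ⟨φ, g, hφ, hgQ, hg⟩ := exists_subseq_tlu (X := V) (isCompact_closedBall (0 : ℂ) 1)
    (fun n x => f n x) (fun n x => hm n x.2) (by
      intro x ε hε
      obtain ⟨r, hr, hsub⟩ := Metric.isOpen_iff.1 hV x x.2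
      refine ⟨min r (ε * r / 2), by positivity, fun n y hy => ?_⟩
      have hy' : (y : ℂ) ∈ ball (x : ℂ) r :=
        mem_ball.2 (lt_of_lt_of_le hy (min_le_left _ _))
      have h2 : MapsTo (f n) (ball (x : ℂ) r) (closedBall (f n x) 2) := fun z hz => by
        have h1 := mem_closedBall_zero_iff.1 (hm n (hsub hz))
        have h0 := mem_closedBall_zero_iff.1 (hm n x.2)
        rw [mem_closedBall, dist_eq]
        linarith [norm_sub_le (f n z) (f n x)]
      refine (dist_le_div_mul_dist_of_mapsTo_ball ((hd n).mono hsub) h2 hy').trans ?_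
      have : dist (y : ℂ) x ≤ ε * r / 2 := (lt_of_lt_of_le hy (min_le_right _ _)).le
      rw [div_mul_eq_mul_div, div_le_iff₀ hr]
      linarith)
  refine ⟨φ, fun z => if hz : z ∈ V then g ⟨z, hz⟩ else 0, hφ, ?_, ?_, ?_⟩
  rotate_left
  · intro z hz
    simp only [dif_pos hz]
    exact hgQ _
  · rw [tendstoLocallyUniformlyOn_iff_tendstoLocallyUniformly_comp_coe]
    have e : ((fun z => if hz : z ∈ V then g ⟨z, hz⟩ else 0) ∘ ((↑) : V → ℂ)) = g := by
      funext z
      simp [z.2]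
    rw [e]
    exact hg
  · have hlim : TendstoLocallyUniformlyOn (fun n => f (φ n))
        (fun z => if hz : z ∈ V then g ⟨z, hz⟩ else 0) atTop V := by
      rw [tendstoLocallyUniformlyOn_iff_tendstoLocallyUniformly_comp_coe]
      have e : ((fun z => if hz : z ∈ V then g ⟨z, hz⟩ else 0) ∘ ((↑) : V → ℂ)) = g := by
        funext z
        simp [z.2]
      rw [e]
      exact hg
    exact hlim.differentiableOn (.of_forall fun n => hd _) hV

/-- Hurwitz: a nonconstant limit of injective holomorphic maps is injective. -/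
theorem hurwitz {V : Set ℂ} (hV : IsOpen V) (hp : IsPreconnected V) {f : ℕ → ℂ → ℂ} {g : ℂ → ℂ}
    (hd : ∀ n, DifferentiableOn ℂ (f n) V) (hi : ∀ n, InjOn (f n) V)
    (hl : TendstoLocallyUniformlyOn f g atTop V) (hne : ∃ x ∈ V, ∃ y ∈ V, g x ≠ g y) :
    InjOn g V := by
  intro a ha b hb hab
  by_contra hne'
  have hgd : DifferentiableOn ℂ g V := hl.differentiableOn (.of_forall hd) hV
  have hG : AnalyticOnNhd ℂ (fun z => g z - g a) V :=
    (hgd.sub_const _).analyticOnNhd hV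
  rcases (hG b hb).eventually_eq_zero_or_eventually_ne_zero with h0 | h0
  · obtain ⟨x, hx, y, hy, hxy⟩ := hne
    have hz := hG.eqOn_zero_of_preconnected_of_eventuallyEq_zero hp hb h0
    exact hxy ((sub_eq_zero.1 (hz hx)).trans (sub_eq_zero.1 (hz hy)).symm)
  rw [eventually_nhdsWithin_iff] at h0
  have hmem : V ∩ {z | z ∈ ({b}ᶜ : Set ℂ) → g z - g a ≠ 0} ∩ {a}ᶜ ∈ 𝓝 b :=
    inter_mem (inter_mem (hV.mem_nhds hb) h0)
      (isOpen_compl_singleton.mem_nhds (Ne.symm hne'))
  obtain ⟨r, hr, hsub⟩ := (Metric.nhds_basis_closedBall.mem_iff).1 hmem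
  have hsubV : closedBall b r ⊆ V := fun z hz => (hsub hz).1.1
  have hgne : ∀ z ∈ sphere b r, g z - g a ≠ 0 := fun z hz =>
    (hsub (sphere_subset_closedBall hz)).1.2 fun h => by
      rw [mem_singleton_iff.1 h, mem_sphere, dist_self] at hz
      exact hr.ne hz
  obtain ⟨z0, hz0, hmin⟩ := (isCompact_sphere b r).exists_isMinOn
    (NormedSpace.sphere_nonempty.2 hr.le)
    ((hgd.continuousOn.mono (sphere_subset_closedBall.trans hsubV)).sub continuousOn_const).norm
  set m := ‖g z0 - g a‖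
  have hm : 0 < m := norm_pos_iff.2 (hgne z0 hz0)
  have hu := Metric.tendstoUniformlyOn_iff.1 ((tendstoLocallyUniformlyOn_iff_forall_isCompact hV).1
    hl (closedBall b r ∪ {a}) (union_subset hsubV (singleton_subset_iff.2 ha))
    ((isCompact_closedBall b r).union isCompact_singleton)) (m / 16) (by positivity)
  obtain ⟨n, hn⟩ := hu.exists
  have hana := hn a (.inr rfl)
  have hnz : ∀ z ∈ closedBall b r, f n z - f n a ≠ 0 := fun z hz h =>
    (hsub hz).2 (hi n (hsubV hz) ha (sub_eq_zero.1 h))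
  have hcl : DiffContOnCl ℂ (fun z => (f n z - f n a)⁻¹) (ball b r) := by
    refine DifferentiableOn.diffContOnCl ?_
    rw [closure_ball b hr.ne']
    exact (((hd n).mono hsubV).sub_const _).inv hnz
  have hbound := norm_le_of_forall_mem_frontier_norm_le isBounded_ball hcl (C := 2 / m) (z := b)
    (fun z hz => by
      rw [frontier_ball b hr.ne'] at hz
      have h1 : m ≤ ‖g z - g a‖ := hmin hz
      have h2 := hn z (.inl (sphere_subset_closedBall hz))
      rw [dist_eq] at h2 hana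
      have e : g z - g a = (g z - f n z) + (f n z - f n a) + -(g a - f n a) := by ring
      have h3 := norm_add₃_le (a := g z - f n z) (b := f n z - f n a) (c := -(g a - f n a))
      rw [← e, norm_neg] at h3
      rw [norm_inv]
      calc ‖f n z - f n a‖⁻¹ ≤ (m / 2)⁻¹ := inv_anti₀ (by positivity) (by linarith)
        _ = 2 / m := inv_div _ _)
    (subset_closure (mem_ball_self hr))
  have h2 := hn b (.inl (mem_closedBall_self hr.le))
  rw [dist_eq] at h2 hana
  have hb0 : 0 < ‖f n b - f n a‖ := norm_pos_iff.2 (hnz b (mem_closedBall_self hr.le))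
  have e : f n b - f n a = -(g b - f n b) + (g a - f n a) := by rw [hab]; ring
  have h3 := norm_add_le (-(g b - f n b)) (g a - f n a)
  rw [← e, norm_neg] at h3
  rw [norm_inv, inv_le_comm₀ hb0 (by positivity), inv_div] at hbound
  linarith

/-- The disc automorphism sending `b` to zero. -/
noncomputable def mob (b x : ℂ) : ℂ := (x - b) / (1 - conj b * x)

lemma mob_den {b x : ℂ} (hb : ‖b‖ < 1) (hx : ‖x‖ ≤ 1) : 1 - conj b * x ≠ 0 := by
  intro h
  have : ‖conj b * x‖ = 1 := by rw [← sub_eq_zero.1 h, norm_one]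
  rw [norm_mul, norm_conj] at this
  nlinarith [norm_nonneg b, norm_nonneg x]

lemma norm_mob_lt {b x : ℂ} (hb : ‖b‖ < 1) (hx : ‖x‖ < 1) : ‖mob b x‖ < 1 := by
  have h := norm_pos_iff.2 (mob_den hb hx.le)
  rw [mob, norm_div, div_lt_one h, ← sq_lt_sq₀ (norm_nonneg _) (norm_nonneg _)]
  have e : ‖1 - conj b * x‖ ^ 2 - ‖x - b‖ ^ 2 = (1 - ‖b‖ ^ 2) * (1 - ‖x‖ ^ 2) := by
    simp only [← normSq_eq_norm_sq]
    simp [normSq_apply]
    ring
  have hb2 : ‖b‖ ^ 2 < 1 := by nlinarith [norm_nonneg b]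
  have hx2 : ‖x‖ ^ 2 < 1 := by nlinarith [norm_nonneg x]
  nlinarith [mul_pos (sub_pos.2 hb2) (sub_pos.2 hx2)]

lemma mob_injOn {b : ℂ} (hb : ‖b‖ < 1) : InjOn (mob b) (closedBall 0 1) := by
  intro x hx y hy h
  rw [mob, mob, div_eq_div_iff (mob_den hb (mem_closedBall_zero_iff.1 hx))
    (mob_den hb (mem_closedBall_zero_iff.1 hy))] at h
  have h2 : (x - y) * (1 - conj b * b) = 0 := by linear_combination h
  rcases mul_eq_zero.1 h2 with h3 | h3
  · exact sub_eq_zero.1 h3
  · exact absurd h3 (mob_den hb hb.le)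

lemma hasDerivAt_mob {b x : ℂ} (hb : ‖b‖ < 1) (hx : ‖x‖ ≤ 1) :
    HasDerivAt (mob b) ((1 - conj b * b) / (1 - conj b * x) ^ 2) x := by
  have := ((hasDerivAt_id x).sub_const b).fun_div
    (((hasDerivAt_id x).const_mul (conj b)).const_sub 1) (mob_den hb hx)
  refine this.congr_deriv ?_
  congr 1
  simp only [id]
  ring

lemma mob_mapsTo {b : ℂ} (hb : ‖b‖ < 1) : MapsTo (mob b) (ball 0 1) (ball 0 1) := fun x hx =>
  mem_ball_zero_iff.2 (norm_mob_lt hb (mem_ball_zero_iff.1 hx))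

lemma mob_differentiableOn {b : ℂ} (hb : ‖b‖ < 1) : DifferentiableOn ℂ (mob b) (ball 0 1) :=
  fun x hx => (hasDerivAt_mob hb (mem_ball_zero_iff.1 hx).le).differentiableAt.differentiableWithinAt

/-- A continuous square root of a holomorphic nonvanishing function is holomorphic. -/
lemma sqrt_hasDerivAt {s g : ℂ → ℂ} {x d : ℂ} (hs : ContinuousAt s x) (hg : HasDerivAt g d x)
    (hsq : ∀ᶠ y in 𝓝 x, s y ^ 2 = g y) (hne : s x ≠ 0) : HasDerivAt s (d / (2 * s x)) x := by
  rw [hasDerivAt_iff_tendsto_slope]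
  have h1 : Tendsto (fun y => s y + s x) (𝓝[≠] x) (𝓝 (s x + s x)) :=
    (hs.tendsto.add tendsto_const_nhds).mono_left nhdsWithin_le_nhds
  have h2 := (hasDerivAt_iff_tendsto_slope.1 hg).div h1 (by
    rw [← two_mul]; exact mul_ne_zero two_ne_zero hne)
  rw [two_mul]
  refine h2.congr' ?_
  filter_upwards [hsq.filter_mono nhdsWithin_le_nhds,
    h1.eventually_ne (show s x + s x ≠ 0 by rw [← two_mul]; exact mul_ne_zero two_ne_zero hne)]
    with y hy hy2
  simp only [Pi.div_apply, slope_def_field, ← hy, ← hsq.self_of_nhds]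
  field_simp
  ring

/-- Riemann mapping theorem for a region in which square roots exist. -/
theorem riemann_core {V : Set ℂ} (hV : IsOpen V) (hVB : V ⊆ ball 0 1) (hp : IsPreconnected V)
    {a : ℂ} (ha : a ∈ V)
    (hsqrt : ∀ g : ℂ → ℂ, DifferentiableOn ℂ g V → (∀ x ∈ V, g x ≠ 0) →
      ∃ s : ℂ → ℂ, DifferentiableOn ℂ s V ∧ ∀ x ∈ V, s x ^ 2 = g x) :
    ∃ φ : ℂ → ℂ, DifferentiableOn ℂ φ (ball 0 1) ∧ InjOn φ (ball 0 1) ∧ φ '' ball 0 1 = V := by
  set C : Set (ℂ → ℂ) :=
    {f | DifferentiableOn ℂ f V ∧ MapsTo f V (ball 0 1) ∧ InjOn f V} with hC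
  set S : Set ℝ := (fun f => ‖deriv f a‖) '' C with hS
  obtain ⟨r, hr, hsub⟩ := Metric.isOpen_iff.1 hV a ha
  have hbdd : BddAbove S := by
    refine ⟨2 / r, ?_⟩
    rintro _ ⟨f, ⟨hfd, hfm, -⟩, rfl⟩
    refine norm_deriv_le_div_of_mapsTo_ball (hfd.mono hsub) (fun z hz => ?_) hr
    have h1 := mem_ball_zero_iff.1 (hfm (hsub hz))
    have h0 := mem_ball_zero_iff.1 (hfm ha)
    rw [mem_closedBall, dist_eq]
    linarith [norm_sub_le (f z) (f a)]
  have h1S : (1 : ℝ) ∈ S := by
    refine ⟨id, ⟨differentiableOn_id, hVB, injOn_id _⟩, ?_⟩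
    simp
  have hM1 : 1 ≤ sSup S := le_csSup hbdd h1S
  obtain ⟨u, -, hu, huS⟩ := exists_seq_tendsto_sSup ⟨1, h1S⟩ hbdd
  choose f hfC hfu using huS
  obtain ⟨φ, g, hφ, hgd, hgm, hlim⟩ := montel hV (fun n => (hfC n).1)
    (fun n => (hfC n).2.1.mono_right ball_subset_closedBall)
  have hga : ‖deriv g a‖ = sSup S := by
    have h1 := ((hlim.deriv (.of_forall fun n => (hfC _).1) hV).tendsto_at ha).norm
    refine tendsto_nhds_unique h1 ((hu.comp hφ.tendsto_atTop).congr fun n => ?_)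
    simp only [Function.comp_apply]
    exact (hfu _).symm
  have hga0 : deriv g a ≠ 0 := by
    intro h
    rw [h, norm_zero] at hga
    linarith
  have hne : ∃ x ∈ V, ∃ y ∈ V, g x ≠ g y := by
    by_contra hcon
    push Not at hcon
    refine hga0 ?_
    have : g =ᶠ[𝓝 a] fun _ => g a :=
      Filter.eventuallyEq_of_mem (hV.mem_nhds ha) fun x hx => hcon x hx a ha
    rw [this.deriv_eq, deriv_const]
  have hgi : InjOn g V := hurwitz hV hp (fun n => (hfC _).1) (fun n => (hfC _).2.2) hlim hne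
  have hgb : MapsTo g V (ball 0 1) := fun x hx => by
    have := interior_maximal hgm.image_subset (isOpen_image_inj hV hgd hgi hV subset_rfl)
      (mem_image_of_mem g hx)
    rwa [interior_closedBall _ one_ne_zero] at this
  have hgder : HasDerivAt g (deriv g a) a := (hgd.differentiableAt (hV.mem_nhds ha)).hasDerivAt
  have hc0 : g a = 0 := by
    by_contra hc
    have hc1 : ‖g a‖ < 1 := mem_ball_zero_iff.1 (hgb ha)
    have hmem : (fun x => mob (g a) (g x)) ∈ C :=
      ⟨(mob_differentiableOn hc1).comp hgd hgb, (mob_mapsTo hc1).comp hgb,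
        ((mob_injOn hc1).mono ball_subset_closedBall).comp hgi hgb⟩
    have hd' : HasDerivAt (fun x => mob (g a) (g x))
        ((1 - conj (g a) * g a) / (1 - conj (g a) * g a) ^ 2 * deriv g a) a :=
      (hasDerivAt_mob hc1 hc1.le).comp a hgder
    have hle := le_csSup hbdd (mem_image_of_mem (fun f => ‖deriv f a‖) hmem)
    simp only [hd'.deriv, ← hga] at hle
    rw [conj_mul', sq (1 - _), div_mul_cancel_left₀, norm_mul, norm_inv,
      ← ofReal_one, ← ofReal_pow, ← ofReal_sub, norm_real] at hle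
    · have hsq : 0 < ‖g a‖ ^ 2 := by positivity
      have hlt : ‖g a‖ ^ 2 < 1 := by nlinarith [norm_nonneg (g a)]
      rw [Real.norm_of_nonneg (by linarith), inv_mul_eq_div,
        div_le_iff₀ (by linarith)] at hle
      have : 0 < ‖deriv g a‖ := norm_pos_iff.2 hga0
      nlinarith
    · exact sub_ne_zero.2 fun h => mob_den hc1 hc1.le (by rw [conj_mul', ← h, sub_self])
  have hsurj : g '' V = ball 0 1 := by
    refine Subset.antisymm hgb.image_subset fun b hb => ?_
    by_contra hbn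
    have hb1 : ‖b‖ < 1 := mem_ball_zero_iff.1 hb
    have hb0 : b ≠ 0 := fun h => hbn ⟨a, ha, by rw [hc0, h]⟩
    set g1 : ℂ → ℂ := fun x => mob b (g x) with hg1
    have hg1ne : ∀ x ∈ V, g1 x ≠ 0 := by
      intro x hx h
      rcases div_eq_zero_iff.1 h with h | h
      · exact hbn ⟨x, hx, sub_eq_zero.1 h⟩
      · exact mob_den hb1 (mem_ball_zero_iff.1 (hgb hx)).le h
    have hg1d : DifferentiableOn ℂ g1 V := (mob_differentiableOn hb1).comp hgd hgb
    obtain ⟨s, hsd, hssq⟩ := hsqrt g1 hg1d hg1ne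
    have hsne : ∀ x ∈ V, s x ≠ 0 := fun x hx h => hg1ne x hx (by rw [← hssq x hx, h]; simp)
    have hsder : ∀ x ∈ V, HasDerivAt s (deriv g1 x / (2 * s x)) x := fun x hx =>
      sqrt_hasDerivAt (hsd.continuousOn.continuousAt (hV.mem_nhds hx))
        (hg1d.differentiableAt (hV.mem_nhds hx)).hasDerivAt
        (Filter.eventually_of_mem (hV.mem_nhds hx) hssq) (hsne x hx)
    have hsb : MapsTo s V (ball 0 1) := fun x hx => by
      rw [mem_ball_zero_iff]
      have h2 : ‖s x‖ ^ 2 < 1 := by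
        rw [← norm_pow, hssq x hx]
        exact norm_mob_lt hb1 (mem_ball_zero_iff.1 (hgb hx))
      exact (sq_lt_one_iff₀ (norm_nonneg _)).1 h2
    have hsi : InjOn s V := fun x hx y hy h => hgi hx hy <|
      mob_injOn hb1 (ball_subset_closedBall (hgb hx)) (ball_subset_closedBall (hgb hy))
        (show g1 x = g1 y by rw [← hssq x hx, ← hssq y hy, h])
    have hβ : ‖s a‖ < 1 := mem_ball_zero_iff.1 (hsb ha)
    have hβ2 : ‖s a‖ ^ 2 = ‖b‖ := by
      rw [← norm_pow, hssq a ha, hg1]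
      simp [mob, hc0]
    have hmem : (fun x => mob (s a) (s x)) ∈ C :=
      ⟨(mob_differentiableOn hβ).comp
        (fun x hx => (hsder x hx).differentiableAt.differentiableWithinAt) hsb,
        (mob_mapsTo hβ).comp hsb, ((mob_injOn hβ).mono ball_subset_closedBall).comp hsi hsb⟩
    have hd1 : deriv g1 a = (1 - conj b * b) * deriv g a := by
      have h : HasDerivAt g1 _ a := (hasDerivAt_mob hb1 (by rw [hc0]; simp)).comp a hgder
      rw [h.deriv, hc0]
      simp
    have hd' : HasDerivAt (fun x => mob (s a) (s x))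
        ((1 - conj (s a) * s a) / (1 - conj (s a) * s a) ^ 2 * (deriv g1 a / (2 * s a))) a :=
      (hasDerivAt_mob hβ hβ.le).comp a (hsder a ha)
    have hle := le_csSup hbdd (mem_image_of_mem (fun f => ‖deriv f a‖) hmem)
    simp only [hd'.deriv, ← hga, hd1] at hle
    set β := ‖s a‖ with hβdef
    have hβ0 : 0 < β := norm_pos_iff.2 (hsne a ha)
    have hg0 : 0 < ‖deriv g a‖ := norm_pos_iff.2 hga0
    have e1 : ‖1 - conj (s a) * s a‖ = 1 - β ^ 2 := by
      rw [conj_mul', ← ofReal_one, ← ofReal_pow, ← ofReal_sub, norm_real,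
        Real.norm_of_nonneg (by nlinarith)]
    have e2 : ‖1 - conj b * b‖ = 1 - (β ^ 2) ^ 2 := by
      rw [hβ2, conj_mul', ← ofReal_one, ← ofReal_pow, ← ofReal_sub, norm_real,
        Real.norm_of_nonneg (by nlinarith [norm_nonneg b])]
    rw [norm_mul, norm_div, norm_div, norm_mul, norm_pow, norm_mul, Complex.norm_two, e1, e2]
      at hle
    have hpos : 0 < 1 - β ^ 2 := by nlinarith
    rw [show (1 - β ^ 2) / (1 - β ^ 2) ^ 2 * ((1 - (β ^ 2) ^ 2) * ‖deriv g a‖ / (2 * β))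
      = (1 + β ^ 2) / (2 * β) * ‖deriv g a‖ by field_simp; ring] at hle
    have : 1 < (1 + β ^ 2) / (2 * β) := by
      rw [one_lt_div (by positivity)]
      nlinarith [mul_pos (sub_pos.2 hβ) (sub_pos.2 hβ)]
    nlinarith
  refine ⟨Function.invFunOn g V, ?_, ?_, ?_⟩
  · rw [← hsurj]
    exact inv_differentiableOn hV hgd hgi fun x hx => hgi.leftInvOn_invFunOn hx
  · rw [← hsurj]
    exact Function.invFunOn_injOn_image g V
  · rw [← hsurj]
    exact hgi.invFunOn_image subset_rfl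

/-- Riemann mapping theorem for a region parametrised by the disc. -/
theorem riemann {V : Set ℂ} (hV : IsOpen V) (hVB : V ⊆ ball 0 1) {a : ℂ} (ha : a ∈ V)
    {τ σ : ℂ → ℂ} (hτc : ContinuousOn τ (ball 0 1)) (hτV : MapsTo τ (ball 0 1) V)
    (hσc : ContinuousOn σ V) (hσm : MapsTo σ V (ball 0 1)) (hτσ : ∀ x ∈ V, τ (σ x) = x) :
    ∃ φ : ℂ → ℂ, DifferentiableOn ℂ φ (ball 0 1) ∧ InjOn φ (ball 0 1) ∧ φ '' ball 0 1 = V := by
  have hVe : V = τ '' ball 0 1 :=
    Subset.antisymm (fun x hx => ⟨σ x, hσm hx, hτσ x hx⟩) hτV.image_subset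
  have hp : IsPreconnected V := hVe ▸ (convex_ball (0 : ℂ) 1).isPreconnected.image τ hτc
  refine riemann_core hV hVB hp ha fun g hg hne => ?_
  have hsc : IsSimplyConnected (ball (0 : ℂ) 1) := by
    have := (convex_ball (0 : ℂ) 1).contractibleSpace ⟨0, mem_ball_self one_pos⟩
    exact SimplyConnectedSpace.ofContractible _
  obtain ⟨s0, hs0c, hs0⟩ := exists_continuousOn_pow_eq (g := fun x => g (τ x)) hsc isOpen_ball
    (hg.continuousOn.comp hτc hτV) (fun ⟨x, hx, he⟩ => hne _ (hτV hx) he) two_ne_zero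
  have hsq : ∀ x ∈ V, s0 (σ x) ^ 2 = g x := fun x hx => by rw [hs0, hτσ x hx]
  refine ⟨fun x => s0 (σ x), fun x hx => ?_, hsq⟩
  exact (sqrt_hasDerivAt ((hs0c.comp hσc hσm).continuousAt (hV.mem_nhds hx))
    (hg.differentiableAt (hV.mem_nhds hx)).hasDerivAt
    (Filter.eventually_of_mem (hV.mem_nhds hx) hsq)
    (fun h => hne x hx (by rw [← hsq x hx]; exact (sq_eq_zero_iff).2 h))).differentiableAt.differentiableWithinAt

/-- The inverse of the shear. -/
noncomputable def S (h : ℝ → ℝ) : ℂ → ℂ := Function.invFunOn (T h) (closedBall 0 1)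

lemma S_T {h : ℝ → ℝ} (hh : Adm h) {w : ℂ} (hw : ‖w‖ ≤ 1) : S h (T h w) = w :=
  (T_injOn hh).leftInvOn_invFunOn (mem_closedBall_zero_iff.2 hw)

lemma S_continuousOn {h : ℝ → ℝ} (hh : Adm h) : ContinuousOn (S h) (T h '' closedBall 0 1) := by
  rw [Metric.continuousOn_iff]
  rintro _ ⟨w, hw, rfl⟩ ε hε
  obtain ⟨δ, hδ, hmod⟩ := T_modulus_inv hε
  refine ⟨δ, hδ, ?_⟩
  rintro _ ⟨v, hv, rfl⟩ hd
  rw [mem_closedBall_zero_iff] at hw hv
  rw [S_T hh hv, S_T hh hw]
  exact hmod h hh v w hv hw hd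

/-- A conformal map of the disc onto the region above a height function. -/
theorem exists_conformal {h : ℝ → ℝ} (hh : Adm h) : ∃ φ : ℂ → ℂ,
    DifferentiableOn ℂ φ (ball 0 1) ∧ InjOn φ (ball 0 1) ∧ φ '' ball 0 1 = T h '' ball 0 1 := by
  refine riemann (isOpen_T_ball hh) (fun q hq => mem_ball_zero_iff.2 ((mem_T_ball hh).1 hq).1)
    (mem_image_of_mem _ (mem_ball_self one_pos)) ((T_continuousOn hh).mono ball_subset_closedBall)
    (mapsTo_image _ _) ((S_continuousOn hh).mono (image_mono ball_subset_closedBall)) ?_ ?_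
  · rintro _ ⟨w, hw, rfl⟩
    rwa [S_T hh (mem_ball_zero_iff.1 hw).le]
  · rintro _ ⟨w, hw, rfl⟩
    rw [S_T hh (mem_ball_zero_iff.1 hw).le]

end Vale.Agent.P116
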