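import Vale.Agent.P116.Family

/-!
P116: the normalised map depends continuously on the height function.
-/

open Complex Metric Filter Set Topology
open scoped Real ComplexConjugate

namespace Vale.Agent.P116

variable {h : ℝ → ℝ} {hs : ℕ → ℝ → ℝ}

/-- Normalised maps along a uniformly convergent sequence of heights. -/
theorem tendsto_nm (hh : Adm h) (hhs : ∀ n, Adm (hs n)) (hu : TendstoUniformly hs h atTop)
    {xs : ℕ → ℂ} {x : ℂ} (hxs : ∀ n, ‖xs n‖ ≤ 1) (hx : Tendsto xs atTop (𝓝 x)) :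
    Tendsto (fun n => nm (hs n) (xs n)) atTop (𝓝 (nm h x)) := by
  have hx1 : ‖x‖ ≤ 1 := le_of_tendsto hx.norm (.of_forall hxs)
  refine tendsto_of_subseq_tendsto fun ns hns => ?_
  obtain ⟨φ, g, hφ, hgQ, hg⟩ := exists_subseq_tlu (X := closedBall (0 : ℂ) 1)
    (isCompact_closedBall (0 : ℂ) 1) (fun n y => nm (hs (ns n)) y)
    (fun n y => mem_closedBall_zero_iff.2
      ((nm_spec (hhs (ns n))).norm_le (mem_closedBall_zero_iff.1 y.2)))
    (fun y ε hε => by
      obtain ⟨δ, hδ, hm⟩ := Nmap_modulus hε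
      exact ⟨δ, hδ, fun n z hz => hm _ _ (nm_spec (hhs (ns n))) _ _
        (mem_closedBall_zero_iff.1 z.2) (mem_closedBall_zero_iff.1 y.2) hz⟩)
  classical
  set G : ℂ → ℂ := fun z => if hz : z ∈ closedBall (0 : ℂ) 1 then g ⟨z, hz⟩ else 0 with hG
  set k : ℕ → ℝ → ℝ := fun n => hs (ns (φ n)) with hk
  have hkA : ∀ n, Adm (k n) := fun n => hhs _
  have hns' : Tendsto (fun n => ns (φ n)) atTop atTop := hns.comp hφ.tendsto_atTop
  have hku : TendstoUniformly k h atTop := fun u hu0 => hns'.eventually (hu u hu0)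
  have hlim : TendstoLocallyUniformlyOn (fun n => nm (k n)) G atTop (closedBall 0 1) := by
    rw [tendstoLocallyUniformlyOn_iff_tendstoLocallyUniformly_comp_coe]
    have e : G ∘ ((↑) : closedBall (0 : ℂ) 1 → ℂ) = g := by
      funext z
      simp only [hG, Function.comp_apply, dif_pos z.2]
    rw [e]
    exact hg
  have hGc : ContinuousOn G (closedBall 0 1) :=
    hlim.continuousOn (.of_forall fun n => (nm_spec (hkA n)).cont)
  -- joint convergence
  have hjoint : ∀ {n : ℕ → ℕ} {ys : ℕ → ℂ} {y : ℂ}, Tendsto n atTop atTop →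
      (∀ j, ‖ys j‖ ≤ 1) → ‖y‖ ≤ 1 → Tendsto ys atTop (𝓝 y) →
      Tendsto (fun j => nm (k (n j)) (ys j)) atTop (𝓝 (G y)) := by
    intro n ys y hn hys hy hlim'
    have hU := (tendstoLocallyUniformlyOn_iff_tendstoUniformlyOn_of_compact
      (isCompact_closedBall (0 : ℂ) 1)).1 hlim
    refine Metric.tendsto_nhds.2 fun ε hε => ?_
    have a := hn.eventually (Metric.tendstoUniformlyOn_iff.1 hU (ε / 2) (half_pos hε))
    have b := Metric.tendsto_nhds.1 ((hGc y (mem_closedBall_zero_iff.2 hy)).tendsto.comp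
      (tendsto_nhdsWithin_iff.2 ⟨hlim', .of_forall fun j => mem_closedBall_zero_iff.2 (hys j)⟩))
      (ε / 2) (half_pos hε)
    filter_upwards [a, b] with j ha hb
    have ha' := ha (ys j) (mem_closedBall_zero_iff.2 (hys j))
    have hb' : dist (G (ys j)) (G y) < ε / 2 := hb
    rw [dist_comm] at ha'
    linarith [dist_triangle (nm (k (n j)) (ys j)) (G (ys j)) (G y)]
  have hpt : ∀ y : ℂ, ‖y‖ ≤ 1 → Tendsto (fun j => nm (k j) y) atTop (𝓝 (G y)) := fun y hy =>
    hjoint tendsto_id (fun _ => hy) hy tendsto_const_nhds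
  -- the limit is a point of the image of the shear
  have hrep : ∀ y : ℂ, ‖y‖ ≤ 1 → ∃ w : ℂ, ‖w‖ ≤ 1 ∧ (‖y‖ = 1 → ‖w‖ = 1) ∧ T h w = G y := by
    intro y hy
    obtain ⟨w, hw, ψ, hψ, hwl⟩ := (isCompact_closedBall (0 : ℂ) 1).tendsto_subseq
      (x := fun j => psi (k j) (nm (k j)) y)
      (fun j => mem_closedBall_zero_iff.2 ((nm_spec (hkA j)).psi_closed hy).1)
    refine ⟨w, mem_closedBall_zero_iff.1 hw, fun hy1 => ?_, ?_⟩
    · exact tendsto_nhds_unique hwl.norm (tendsto_const_nhds.congr fun j =>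
        ((nm_spec (hkA (ψ j))).psi_sphere hy1).symm)
    · have h1 := tendsto_T hh (fun j => hkA (ψ j))
        (fun u hu0 => hψ.tendsto_atTop.eventually (hku u hu0)) (mem_closedBall_zero_iff.1 hw) hwl
      exact tendsto_nhds_unique (h1.congr fun j => ((nm_spec (hkA (ψ j))).psi_closed hy).2)
        ((hpt y hy).comp hψ.tendsto_atTop)
  have hf1 : G 1 = 1 := tendsto_nhds_unique (hpt 1 (by simp))
    (tendsto_const_nhds.congr fun j => ((nm_spec (hkA j)).fix_one).symm)
  have hf2 : G I = I := tendsto_nhds_unique (hpt I (by simp))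
    (tendsto_const_nhds.congr fun j => ((nm_spec (hkA j)).fix_I).symm)
  have hf3 : G (-I) = -I := tendsto_nhds_unique (hpt (-I) (by simp))
    (tendsto_const_nhds.congr fun j => ((nm_spec (hkA j)).fix_neg_I).symm)
  have hlim0 := hlim.mono (ball_subset_closedBall : ball (0 : ℂ) 1 ⊆ _)
  have hGd : DifferentiableOn ℂ G (ball 0 1) :=
    hlim0.differentiableOn (.of_forall fun n => (nm_spec (hkA n)).diff) isOpen_ball
  have hne : ∃ a ∈ ball (0 : ℂ) 1, ∃ b ∈ ball (0 : ℂ) 1, G a ≠ G b := by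
    by_contra hc
    push Not at hc
    have he : EqOn G (fun _ => G 0) (closedBall 0 1) :=
      Set.EqOn.of_subset_closure (fun y hy => hc y hy 0 (mem_ball_self one_pos)) hGc
        continuousOn_const ball_subset_closedBall (by rw [closure_ball _ one_ne_zero])
    have h1 := he (show (1 : ℂ) ∈ closedBall 0 1 by simp)
    have h2 := he (show I ∈ closedBall (0 : ℂ) 1 by simp)
    rw [hf1] at h1
    rw [hf2] at h2
    have := congrArg Complex.re (h1.trans h2.symm)
    simp at this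
  have hGi : InjOn G (ball 0 1) := hurwitz isOpen_ball (convex_ball _ _).isPreconnected
    (fun n => (nm_spec (hkA n)).diff) (fun n => (nm_spec (hkA n)).inj) hlim0 hne
  have hGim : G '' ball 0 1 = T h '' ball 0 1 := by
    refine Subset.antisymm (subset_T_ball hh
      (isOpen_image_inj isOpen_ball hGd hGi isOpen_ball subset_rfl) ?_) ?_
    · rintro _ ⟨y, hy, rfl⟩
      obtain ⟨w, hw, -, he⟩ := hrep y (mem_ball_zero_iff.1 hy).le
      exact ⟨w, mem_closedBall_zero_iff.2 hw, he⟩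
    · rintro _ ⟨w, hw, rfl⟩
      have hw1 : ‖w‖ < 1 := mem_ball_zero_iff.1 hw
      have hex : ∀ j, ∃ y : ℂ, ‖y‖ ≤ 1 ∧ nm (k j) y = T (k j) w := fun j => by
        obtain ⟨y, hy, he⟩ := (nm_spec (hkA j)).image.symm.subset (mem_image_of_mem (T (k j)) hw)
        exact ⟨y, (mem_ball_zero_iff.1 hy).le, he⟩
      choose ys hys hye using hex
      obtain ⟨y, hy, ψ, hψ, hyl⟩ := (isCompact_closedBall (0 : ℂ) 1).tendsto_subseq
        (x := ys) (fun j => mem_closedBall_zero_iff.2 (hys j))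
      rw [mem_closedBall_zero_iff] at hy
      have e : G y = T h w := tendsto_nhds_unique
        ((hjoint hψ.tendsto_atTop (fun j => hys (ψ j)) hy hyl).congr fun j => hye (ψ j))
        ((tendsto_T hh hkA hku hw1.le tendsto_const_nhds).comp hψ.tendsto_atTop)
      refine ⟨y, mem_ball_zero_iff.2 (lt_of_le_of_ne hy fun hy1 => ?_), e⟩
      obtain ⟨v, hv, hv1, hve⟩ := hrep y hy
      rw [e] at hve
      have := hv1 hy1
      rw [T_injOn hh (mem_closedBall_zero_iff.2 hv) (mem_closedBall_zero_iff.2 hw1.le) hve] at this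
      exact hw1.ne this
  have HN : Nmap h G := ⟨⟨⟨hh, hGd, hGi, hGim⟩, hGc⟩, hf1, hf2, hf3⟩
  refine ⟨φ, ?_⟩
  rw [← Nmap_unique HN (nm_spec hh) hx1]
  exact hjoint tendsto_id (fun j => hxs (ns (φ j))) hx1 (hx.comp hns')

/-- The map of the upper half plane. -/
noncomputable def fh (h : ℝ → ℝ) : ℂ → ℂ := fmap (nm h)

/-- The boundary map. -/
noncomputable def uh (h : ℝ → ℝ) (x : ℝ) : ℝ := (fh h x).re

theorem tendsto_fh (hh : Adm h) (hhs : ∀ n, Adm (hs n)) (hu : TendstoUniformly hs h atTop)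
    {zs : ℕ → ℂ} {z : ℂ} (hz0 : ∀ n, 0 ≤ (zs n).im) (hz : Tendsto zs atTop (𝓝 z)) :
    Tendsto (fun n => fh (hs n) (zs n)) atTop (𝓝 (fh h z)) := by
  have hzi : 0 ≤ z.im := ge_of_tendsto ((continuous_im.tendsto z).comp hz) (.of_forall hz0)
  exact (continuousAt_kinv ((nm_spec hh).ne_one (nm_spec hh).fix_one hzi)).tendsto.comp
    (tendsto_nm hh hhs hu (fun n => (norm_kap_le_iff (by linarith [hz0 n])).2 (hz0 n))
      ((continuousAt_kap (by linarith)).tendsto.comp hz))

theorem tendsto_uh (hh : Adm h) (hhs : ∀ n, Adm (hs n)) (hu : TendstoUniformly hs h atTop)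
    {xs : ℕ → ℝ} {x : ℝ} (hx : Tendsto xs atTop (𝓝 x)) :
    Tendsto (fun n => uh (hs n) (xs n)) atTop (𝓝 (uh h x)) :=
  (continuous_re.tendsto _).comp (tendsto_fh hh hhs hu (zs := fun n => (xs n : ℂ))
    (fun n => by simp) ((continuous_ofReal.tendsto x).comp hx))

lemma uh_strictMono (hh : Adm h) : StrictMono (uh h) :=
  (nm_spec hh).u_strictMono (nm_spec hh).fix_one

lemma uh_continuous (hh : Adm h) : Continuous (uh h) := (nm_spec hh).u_cont (nm_spec hh).fix_one

lemma uh_surjective (hh : Adm h) : Function.Surjective (uh h) :=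
  (nm_spec hh).u_surjective (nm_spec hh).fix_one

lemma uh_one (hh : Adm h) : uh h 1 = 1 := by
  rw [uh, fh, fmap, ofReal_one, kap_one, (nm_spec hh).fix_neg_I, ← kap_one, kinv_kap (by simp)]
  simp

lemma uh_neg_one (hh : Adm h) : uh h (-1) = -1 := by
  rw [uh, fh, fmap, show ((-1 : ℝ) : ℂ) = -1 by simp, kap_neg_one, (nm_spec hh).fix_I,
    ← kap_neg_one, kinv_kap (by simp)]
  simp

end Vale.Agent.P116
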