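import Vale.Agent.P116.Reflect

/-!
P116: the Cauchy theorem for an open set whose complement is connected and unbounded, by counting
the turns of lattice walks.
-/

open Complex Metric Filter Set Topology
open scoped Real Interval

namespace Vale.Agent.P116

/-- A lattice point at mesh `2⁻ᵏ`. -/
noncomputable def lat (k : ℕ) (v : ℤ × ℤ) : ℂ := ⟨v.1 / 2 ^ k, v.2 / 2 ^ k⟩

/-- The rectangle with two opposite corners. -/
def rct (z w : ℂ) : Set ℂ := [[z.re, w.re]] ×ℂ [[z.im, w.im]]

/-- Lattice walks inside `U`, with the integral of `F` along them. -/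
inductive Lnk (U : Set ℂ) (F : ℂ → ℂ) (k : ℕ) (a : ℤ × ℤ) : ℤ × ℤ → ℂ → Prop
  | refl : Lnk U F k a a 0
  | step {b c : ℤ × ℤ} {v : ℂ} : Lnk U F k a b v →
      (b.2 = c.2 ∧ |b.1 - c.1| = 1 ∨ b.1 = c.1 ∧ |b.2 - c.2| = 1) →
      rct (lat k b) (lat k c) ⊆ U →
      Lnk U F k a c (v + wedgeIntegral (lat k b) (lat k c) F)

variable {U : Set ℂ} {F : ℂ → ℂ} {k : ℕ} {a b c : ℤ × ℤ} {v v' : ℂ}

lemma rct_comm (z w : ℂ) : rct z w = rct w z := by simp only [rct, uIcc_comm]

lemma wedge_symm_hor {z w : ℂ} (h : z.im = w.im) :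
    wedgeIntegral w z F = -wedgeIntegral z w F := by
  simp only [wedgeIntegral, h, intervalIntegral.integral_same, smul_zero, add_zero]
  exact intervalIntegral.integral_symm _ _

lemma wedge_symm_ver {z w : ℂ} (h : z.re = w.re) :
    wedgeIntegral w z F = -wedgeIntegral z w F := by
  simp only [wedgeIntegral, h, intervalIntegral.integral_same, zero_add]
  rw [intervalIntegral.integral_symm, smul_neg]

lemma wedge_symm_step (h : b.2 = c.2 ∧ |b.1 - c.1| = 1 ∨ b.1 = c.1 ∧ |b.2 - c.2| = 1) :
    wedgeIntegral (lat k c) (lat k b) F = -wedgeIntegral (lat k b) (lat k c) F := by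
  rcases h with ⟨h, -⟩ | ⟨h, -⟩
  · exact wedge_symm_hor (by simp [lat, h])
  · exact wedge_symm_ver (by simp [lat, h])

lemma Lnk.trans (h : Lnk U F k a b v) (h' : Lnk U F k b c v') : Lnk U F k a c (v + v') := by
  induction h' with
  | refl => simpa using h
  | step _ h1 h2 ih =>
    rw [← add_assoc]
    exact ih.step h1 h2

lemma Lnk.symm (h : Lnk U F k a b v) : Lnk U F k b a (-v) := by
  induction h with
  | refl => simpa using Lnk.refl
  | @step b c v _ h1 h2 ih =>
    have h1' : c.2 = b.2 ∧ |c.1 - b.1| = 1 ∨ c.1 = b.1 ∧ |c.2 - b.2| = 1 := by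
      rcases h1 with ⟨e, e'⟩ | ⟨e, e'⟩
      · exact .inl ⟨e.symm, by rw [abs_sub_comm]; exact e'⟩
      · exact .inr ⟨e.symm, by rw [abs_sub_comm]; exact e'⟩
    have := (Lnk.refl.step h1' (by rw [rct_comm]; exact h2)).trans ih
    rwa [zero_add, wedge_symm_step h1, ← neg_add, add_comm] at this

/-- Twice the coordinates: the same point one level finer. -/
lemma lat_double (k : ℕ) (v : ℤ × ℤ) : lat (k + 1) (2 * v.1, 2 * v.2) = lat k v := by
  simp only [lat, pow_succ]
  congr 1 <;> (push_cast; field_simp)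

lemma uIcc_mid {p q : ℝ} : (p + q) / 2 ∈ [[p, q]] := by
  rcases le_total p q with h | h
  · exact mem_uIcc.2 (.inl ⟨by linarith, by linarith⟩)
  · exact mem_uIcc.2 (.inr ⟨by linarith, by linarith⟩)

lemma Lnk.refine (hc : ContinuousOn F U) (h : Lnk U F k a b v) :
    Lnk U F (k + 1) (2 * a.1, 2 * a.2) (2 * b.1, 2 * b.2) v := by
  induction h with
  | refl => exact .refl
  | @step b c v _ h1 h2 ih =>
    set m : ℤ × ℤ := (b.1 + c.1, b.2 + c.2) with hm
    have ha1 : (2 * b.1, 2 * b.2).2 = m.2 ∧ |(2 * b.1, 2 * b.2).1 - m.1| = 1 ∨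
        (2 * b.1, 2 * b.2).1 = m.1 ∧ |(2 * b.1, 2 * b.2).2 - m.2| = 1 := by
      rcases h1 with ⟨e, e'⟩ | ⟨e, e'⟩
      · exact .inl ⟨by simp only [hm]; omega, by
          simp only [hm]; rw [show 2 * b.1 - (b.1 + c.1) = b.1 - c.1 by ring]; exact e'⟩
      · exact .inr ⟨by simp only [hm]; omega, by
          simp only [hm]; rw [show 2 * b.2 - (b.2 + c.2) = b.2 - c.2 by ring]; exact e'⟩
    have ha2 : m.2 = (2 * c.1, 2 * c.2).2 ∧ |m.1 - (2 * c.1, 2 * c.2).1| = 1 ∨
        m.1 = (2 * c.1, 2 * c.2).1 ∧ |m.2 - (2 * c.1, 2 * c.2).2| = 1 := by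
      rcases h1 with ⟨e, e'⟩ | ⟨e, e'⟩
      · exact .inl ⟨by simp only [hm]; omega, by
          simp only [hm]; rw [show b.1 + c.1 - 2 * c.1 = b.1 - c.1 by ring]; exact e'⟩
      · exact .inr ⟨by simp only [hm]; omega, by
          simp only [hm]; rw [show b.2 + c.2 - 2 * c.2 = b.2 - c.2 by ring]; exact e'⟩
    set p := lat k b
    set q := lat k c
    set mm := lat (k + 1) m
    have hre : mm.re = (p.re + q.re) / 2 := by
      simp [mm, p, q, lat, hm, pow_succ]; field_simp
    have him : mm.im = (p.im + q.im) / 2 := by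
      simp [mm, p, q, lat, hm, pow_succ]; field_simp
    have hmre : mm.re ∈ [[p.re, q.re]] := hre ▸ uIcc_mid
    have hmim : mm.im ∈ [[p.im, q.im]] := him ▸ uIcc_mid
    have r1 : rct p mm ⊆ U := fun z hz => h2
      ⟨uIcc_subset_uIcc left_mem_uIcc hmre hz.1, uIcc_subset_uIcc left_mem_uIcc hmim hz.2⟩
    have r2 : rct mm q ⊆ U := fun z hz => h2
      ⟨uIcc_subset_uIcc hmre right_mem_uIcc hz.1, uIcc_subset_uIcc hmim right_mem_uIcc hz.2⟩
    have hs := (ih.step ha1 (by rw [lat_double]; exact r1)).step ha2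
      (by rw [lat_double]; exact r2)
    have e : wedgeIntegral p mm F + wedgeIntegral mm q F = wedgeIntegral p q F := by
      rcases h1 with ⟨e, -⟩ | ⟨e, -⟩
      · have e1 : p.im = q.im := by simp [p, q, lat, e]
        have e2 : mm.im = q.im := by rw [him, e1]; ring
        simp only [wedgeIntegral, e1, e2, intervalIntegral.integral_same, smul_zero, add_zero]
        have hI : ∀ u w : ℝ, u ∈ [[p.re, q.re]] → w ∈ [[p.re, q.re]] →
            IntervalIntegrable (fun x : ℝ => F (x + q.im * I)) MeasureTheory.volume u w :=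
          fun u w hu hw => (hc.comp (by fun_prop : Continuous fun x : ℝ =>
            (x : ℂ) + q.im * I).continuousOn fun x hx => h2
              ⟨by simpa using uIcc_subset_uIcc hu hw hx, by simp⟩).intervalIntegrable
        exact intervalIntegral.integral_add_adjacent_intervals (hI _ _ left_mem_uIcc hmre)
          (hI _ _ hmre right_mem_uIcc)
      · have e1 : p.re = q.re := by simp [p, q, lat, e]
        have e2 : mm.re = q.re := by rw [hre, e1]; ring
        simp only [wedgeIntegral, e1, e2, intervalIntegral.integral_same, zero_add, ← smul_add]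
        have hI : ∀ u w : ℝ, u ∈ [[p.im, q.im]] → w ∈ [[p.im, q.im]] →
            IntervalIntegrable (fun y : ℝ => F (q.re + y * I)) MeasureTheory.volume u w :=
          fun u w hu hw => (hc.comp (by fun_prop : Continuous fun y : ℝ =>
            (q.re : ℂ) + y * I).continuousOn fun y hy => h2
              ⟨by simp, by simpa using uIcc_subset_uIcc hu hw hy⟩).intervalIntegrable
        rw [intervalIntegral.integral_add_adjacent_intervals (hI _ _ left_mem_uIcc hmim)
          (hI _ _ hmim right_mem_uIcc)]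
    have e3 : v + wedgeIntegral p q F = v + wedgeIntegral (lat (k + 1) (2 * b.1, 2 * b.2)) mm F
        + wedgeIntegral mm (lat (k + 1) (2 * c.1, 2 * c.2)) F := by
      rw [lat_double, lat_double, add_assoc, e]
    rw [e3]
    exact hs

lemma Lnk.refine_add (hc : ContinuousOn F U) (h : Lnk U F k a b v) (d : ℕ) :
    Lnk U F (k + d) (2 ^ d * a.1, 2 ^ d * a.2) (2 ^ d * b.1, 2 ^ d * b.2) v := by
  induction d with
  | zero => simpa using h
  | succ d ih =>
    have := ih.refine hc
    simpa [pow_succ, mul_comm, mul_assoc, mul_left_comm, add_assoc] using this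

lemma lat_pow (k d : ℕ) (v : ℤ × ℤ) : lat (k + d) (2 ^ d * v.1, 2 ^ d * v.2) = lat k v := by
  simp only [lat, pow_add]
  congr 1 <;> (push_cast; field_simp)

lemma lat_inj (k : ℕ) : Function.Injective (lat k) := by
  intro u w h
  simp [lat, Complex.ext_iff] at h
  exact Prod.ext h.1 h.2

/-- The boundary integral of a lattice cell. -/
noncomputable def cellInt (F : ℂ → ℂ) (k : ℕ) (i j : ℤ) : ℂ :=
  wedgeIntegral (lat k (i, j)) (lat k (i + 1, j)) F +
    wedgeIntegral (lat k (i + 1, j)) (lat k (i + 1, j + 1)) F -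
    wedgeIntegral (lat k (i, j + 1)) (lat k (i + 1, j + 1)) F -
    wedgeIntegral (lat k (i, j)) (lat k (i, j + 1)) F

/-- A potential that telescopes. -/
noncomputable def pot (F : ℂ → ℂ) (k : ℕ) (M : ℤ) (p : ℤ × ℤ) : ℂ :=
  ∑ i ∈ Finset.Ico (-M) p.1, wedgeIntegral (lat k (i, M)) (lat k (i + 1, M)) F -
    ∑ j ∈ Finset.Ico p.2 M, wedgeIntegral (lat k (p.1, j)) (lat k (p.1, j + 1)) F

lemma pot_hor (M i q : ℤ) (hi : -M ≤ i) (hq : q ≤ M) :
    wedgeIntegral (lat k (i, q)) (lat k (i + 1, q)) F =
      (∑ j ∈ Finset.Ico q M, cellInt F k i j) + (pot F k M (i + 1, q) - pot F k M (i, q)) := by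
  have htel : ∑ j ∈ Finset.Ico q M, (wedgeIntegral (lat k (i, j)) (lat k (i + 1, j)) F -
      wedgeIntegral (lat k (i, j + 1)) (lat k (i + 1, j + 1)) F) =
      wedgeIntegral (lat k (i, q)) (lat k (i + 1, q)) F -
        wedgeIntegral (lat k (i, M)) (lat k (i + 1, M)) F := by
    clear hi
    induction M, hq using Int.leInduction with
    | base => simp
    | succ M hM ih =>
      rw [show Finset.Ico q (M + 1) = insert M (Finset.Ico q M) by ext; simp; omega,
        Finset.sum_insert (by simp), ih]
      ring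
  have hsum : ∑ j ∈ Finset.Ico (-M) (i + 1), wedgeIntegral (lat k (j, M)) (lat k (j + 1, M)) F =
      (∑ j ∈ Finset.Ico (-M) i, wedgeIntegral (lat k (j, M)) (lat k (j + 1, M)) F) +
        wedgeIntegral (lat k (i, M)) (lat k (i + 1, M)) F := by
    rw [show Finset.Ico (-M) (i + 1) = insert i (Finset.Ico (-M) i) by ext; simp; omega,
      Finset.sum_insert (by simp), add_comm]
  simp only [pot, hsum, cellInt, Finset.sum_sub_distrib, Finset.sum_add_distrib] at htel ⊢
  linear_combination -htel

lemma pot_ver (M i q : ℤ) (hq : q < M) :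
    wedgeIntegral (lat k (i, q)) (lat k (i, q + 1)) F =
      pot F k M (i, q + 1) - pot F k M (i, q) := by
  have hsum : ∑ j ∈ Finset.Ico q M, wedgeIntegral (lat k (i, j)) (lat k (i, j + 1)) F =
      wedgeIntegral (lat k (i, q)) (lat k (i, q + 1)) F +
        ∑ j ∈ Finset.Ico (q + 1) M, wedgeIntegral (lat k (i, j)) (lat k (i, j + 1)) F := by
    rw [show Finset.Ico q M = insert q (Finset.Ico (q + 1) M) by ext; simp; omega,
      Finset.sum_insert (by simp)]
  simp only [pot, hsum]
  ring

/-- A marker for the left sides of cells. -/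
def mark (i j : ℤ) (p : ℤ × ℤ) : ℤ := if p.1 = i ∧ p.2 ≤ j then 1 else 0

/-- The turning numbers of a walk. -/
theorem Lnk.turns (h : Lnk U F k a b v) : ∃ n : ℤ → ℤ → ℤ, ∃ M₀ : ℤ,
    (∀ M ≥ M₀, (∀ i j, (i < -M ∨ M ≤ i ∨ j < -M) → n i j = 0) ∧
      v = ∑ i ∈ Finset.Ico (-M) M, ∑ j ∈ Finset.Ico (-M) M, (n i j : ℂ) * cellInt F k i j
        + (pot F k M b - pot F k M a)) ∧
    (∀ i j, ¬ rct (lat k (i, j)) (lat k (i + 1, j)) ⊆ U → n i j = n i (j - 1)) ∧
    ∀ i j, ¬ rct (lat k (i, j)) (lat k (i, j + 1)) ⊆ U →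
      n (i - 1) j - n i j = mark i j b - mark i j a := by
  induction h with
  | refl => exact ⟨fun _ _ => 0, 0, fun M _ => ⟨fun _ _ _ => rfl, by simp⟩, fun _ _ _ => rfl,
      fun _ _ _ => by simp⟩
  | @step b c v _ h1 h2 ih =>
    obtain ⟨n, M₀, hM, hh, hv⟩ := ih
    rcases h1 with ⟨hbc, hd⟩ | ⟨hbc, hd⟩
    · -- a horizontal step
      obtain ⟨i₀, σ, hσ, hb, hc⟩ : ∃ i₀ σ : ℤ, (σ = 1 ∨ σ = -1) ∧
          b.1 = i₀ + (1 - σ) / 2 ∧ c.1 = i₀ + (1 + σ) / 2 := by
        rcases (abs_eq zero_le_one).1 hd with e | e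
        · exact ⟨c.1, -1, .inr rfl, by omega, by omega⟩
        · exact ⟨b.1, 1, .inl rfl, by omega, by omega⟩
      let dl : ℤ → ℤ → ℤ := fun i j => if i = i₀ ∧ b.2 ≤ j then σ else 0
      refine ⟨fun i j => n i j + dl i j, max M₀ (|i₀| + |b.2| + 1), fun M hMM => ?_, ?_, ?_⟩
      · have e1 : M₀ ≤ M := le_trans (le_max_left _ _) hMM
        have e2 : |i₀| + |b.2| + 1 ≤ M := le_trans (le_max_right _ _) hMM
        have a1 := abs_le.1 (show |i₀| ≤ M - 1 by linarith [abs_nonneg b.2])
        have a2 := abs_le.1 (show |b.2| ≤ M - 1 by linarith [abs_nonneg i₀])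
        obtain ⟨hsupp, hval⟩ := hM M e1
        refine ⟨fun i j hij => ?_, ?_⟩
        · have : dl i j = 0 := if_neg (by omega)
          show n i j + dl i j = 0
          rw [hsupp i j hij, this, zero_add]
        · have hdl : ∑ i ∈ Finset.Ico (-M) M, ∑ j ∈ Finset.Ico (-M) M,
              (dl i j : ℂ) * cellInt F k i j =
              (σ : ℂ) * ∑ j ∈ Finset.Ico b.2 M, cellInt F k i₀ j := by
            rw [Finset.sum_eq_single i₀ (fun i _ hi => Finset.sum_eq_zero fun j _ => by
              simp [dl, hi]) (fun hi => absurd (Finset.mem_Ico.2 ⟨by omega, by omega⟩) hi),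
              Finset.mul_sum, ← Finset.sum_filter_add_sum_filter_not _ (fun j => b.2 ≤ j),
              show (Finset.Ico (-M) M).filter (fun j => b.2 ≤ j) = Finset.Ico b.2 M by
                ext; simp; omega]
            have z : ∑ j ∈ (Finset.Ico (-M) M).filter (fun j => ¬b.2 ≤ j),
                (dl i₀ j : ℂ) * cellInt F k i₀ j = 0 :=
              Finset.sum_eq_zero fun j hj => by simp [dl, (Finset.mem_filter.1 hj).2]
            rw [z, add_zero]
            exact Finset.sum_congr rfl fun j hj => by simp [dl, (Finset.mem_Ico.1 hj).1]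
          simp only [Int.cast_add, add_mul, Finset.sum_add_distrib, hdl]
          have hp := pot_hor (F := F) (k := k) M i₀ b.2 (by omega) (by omega)
          rcases hσ with rfl | rfl
          · rw [show lat k b = lat k (i₀, b.2) by congr 1; exact Prod.ext (by simpa using hb) rfl,
              show lat k c = lat k (i₀ + 1, b.2) by
                congr 1; exact Prod.ext (by simpa using hc) hbc.symm,
              show pot F k M b = pot F k M (i₀, b.2) by
                congr 1; exact Prod.ext (by simpa using hb) rfl] at *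
            rw [show pot F k M c = pot F k M (i₀ + 1, b.2) by
                congr 1; exact Prod.ext (by simpa using hc) hbc.symm]
            push_cast
            linear_combination hval + hp
          · rw [show lat k b = lat k (i₀ + 1, b.2) by
                congr 1; exact Prod.ext (by simpa using hb) rfl,
              show lat k c = lat k (i₀, b.2) by
                congr 1; exact Prod.ext (by simpa using hc) hbc.symm,
              show pot F k M b = pot F k M (i₀ + 1, b.2) by
                congr 1; exact Prod.ext (by simpa using hb) rfl] at *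
            rw [show pot F k M c = pot F k M (i₀, b.2) by
                congr 1; exact Prod.ext (by simpa using hc) hbc.symm,
              wedge_symm_hor (z := lat k (i₀, b.2)) (w := lat k (i₀ + 1, b.2)) rfl]
            push_cast
            linear_combination hval - hp
      · intro i j hnot
        have hne : ¬(i = i₀ ∧ j = b.2) := by
          rintro ⟨rfl, rfl⟩
          apply hnot
          rcases hσ with rfl | rfl
          · convert h2 using 3 <;> refine Prod.ext ?_ ?_ <;> simp [hb, hc, hbc]
          · rw [rct_comm]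
            convert h2 using 3 <;> refine Prod.ext ?_ ?_ <;> simp [hb, hc, hbc]
        simp only [hh i j hnot, dl]
        congr 1
        apply if_congr ?_ rfl rfl
        constructor <;> intro <;> omega
      · intro i j hnot
        have := hv i j hnot
        simp only [dl, mark] at this ⊢
        rcases hσ with rfl | rfl <;> split_ifs at this ⊢ <;> omega
    · -- a vertical step
      refine ⟨n, max M₀ (|b.2| + |c.2| + 1), fun M hMM => ?_, hh, ?_⟩
      · have e1 : M₀ ≤ M := le_trans (le_max_left _ _) hMM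
        have e2 : |b.2| + |c.2| + 1 ≤ M := le_trans (le_max_right _ _) hMM
        obtain ⟨hsupp, hval⟩ := hM M e1
        refine ⟨hsupp, ?_⟩
        rcases (abs_eq zero_le_one).1 hd with e | e
        · rw [show b = (c.1, c.2 + 1) from Prod.ext hbc (by simp only; omega),
            wedge_symm_ver (z := lat k c) (by simp [lat])]
          rw [show b = (c.1, c.2 + 1) from Prod.ext hbc (by simp only; omega)] at hval
          have hp := pot_ver (F := F) (k := k) M c.1 c.2 (by linarith [le_abs_self c.2, abs_nonneg b.2])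
          linear_combination hval - hp
        · rw [show c = (b.1, b.2 + 1) from Prod.ext hbc.symm (by simp only; omega)]
          have hp := pot_ver (F := F) (k := k) M b.1 b.2 (by linarith [le_abs_self b.2, abs_nonneg c.2])
          linear_combination hval + hp
      · intro i j hnot
        have := hv i j hnot
        have hne : ¬(b.1 = i ∧ (b.2 = j ∧ c.2 = j + 1 ∨ c.2 = j ∧ b.2 = j + 1)) := by
          rintro ⟨e, ⟨e1, e2⟩ | ⟨e1, e2⟩⟩
          · exact hnot (by convert h2 using 3 <;> refine Prod.ext ?_ ?_ <;> simp [← e, e1, e2, hbc])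
          · exact hnot (by
              rw [rct_comm]
              convert h2 using 3 <;> refine Prod.ext ?_ ?_ <;> simp [← e, e1, e2, hbc])
        simp only [mark] at this ⊢
        rcases (abs_eq zero_le_one).1 hd with e | e <;> split_ifs at this ⊢ <;> omega

end Vale.Agent.P116
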