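import Vale.Agent.P116.Conf
import Vale.Agent.P116.Area
import Vale.Agent.P116.Annulus

/-!
P116: the conformal map extends to a homeomorphism of closed discs, with a modulus of continuity
that is uniform in the height once three boundary points are fixed.
-/

open Complex Metric Filter Set Topology
open scoped Real ComplexConjugate

namespace Vale.Agent.P116

/-- A conformal map onto the region above `h`. -/
structure Cmap (h : ℝ → ℝ) (φ : ℂ → ℂ) : Prop where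
  adm : Adm h
  diff : DifferentiableOn ℂ φ (ball 0 1)
  inj : InjOn φ (ball 0 1)
  image : φ '' ball 0 1 = T h '' ball 0 1

/-- The map followed by the inverse shear. -/
noncomputable def psi (h : ℝ → ℝ) (φ : ℂ → ℂ) (x : ℂ) : ℂ := S h (φ x)

variable {h : ℝ → ℝ} {φ : ℂ → ℂ}

lemma Cmap.psi_spec (H : Cmap h φ) {x : ℂ} (hx : x ∈ ball (0 : ℂ) 1) :
    psi h φ x ∈ ball (0 : ℂ) 1 ∧ T h (psi h φ x) = φ x := by
  obtain ⟨w, hw, he⟩ := H.image.subset (mem_image_of_mem φ hx)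
  rw [psi, ← he, S_T H.adm (mem_ball_zero_iff.1 hw).le]
  exact ⟨hw, rfl⟩

lemma Cmap.mapsTo_disc (H : Cmap h φ) : MapsTo φ (ball 0 1) (closedBall 0 1) := fun x hx => by
  obtain ⟨h1, h2⟩ := H.psi_spec hx
  rw [← h2, mem_closedBall_zero_iff]
  exact norm_T_le H.adm (mem_ball_zero_iff.1 h1).le

lemma Cmap.psi_injOn (H : Cmap h φ) : InjOn (psi h φ) (ball 0 1) := fun x hx y hy he =>
  H.inj hx hy (by rw [← (H.psi_spec hx).2, ← (H.psi_spec hy).2, he])

lemma Cmap.psi_surj (H : Cmap h φ) {w : ℂ} (hw : w ∈ ball (0 : ℂ) 1) :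
    ∃ x ∈ ball (0 : ℂ) 1, psi h φ x = w := by
  obtain ⟨x, hx, he⟩ := H.image.symm.subset (mem_image_of_mem (T h) hw)
  exact ⟨x, hx, by rw [psi, he, S_T H.adm (mem_ball_zero_iff.1 hw).le]⟩

lemma Cmap.psi_open (H : Cmap h φ) {W : Set ℂ} (hW : IsOpen W) (hWD : W ⊆ ball 0 1) :
    IsOpen (psi h φ '' W) := by
  have e : psi h φ '' W = ball 0 1 ∩ T h ⁻¹' (φ '' W) := by
    ext w
    constructor
    · rintro ⟨x, hx, rfl⟩
      exact ⟨(H.psi_spec (hWD hx)).1, x, hx, ((H.psi_spec (hWD hx)).2).symm⟩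
    · rintro ⟨hw, x, hx, he⟩
      exact ⟨x, hx, by rw [psi, he, S_T H.adm (mem_ball_zero_iff.1 hw).le]⟩
  rw [e]
  exact ((T_continuousOn H.adm).mono ball_subset_closedBall).isOpen_inter_preimage isOpen_ball
    (isOpen_image_inj isOpen_ball H.diff H.inj hW hWD)

/-- Either the disc near `ζ` or the disc away from `ζ` has small image. -/
theorem alternative {η ρ : ℝ} (hη : 0 < η) (hρ : 0 < ρ) : ∃ δ > 0, δ < ρ ∧
    ∀ h φ, Cmap h φ → ∀ ζ : ℂ,
      (∀ x ∈ ball 0 1 ∩ ball ζ δ, ∀ y ∈ ball 0 1 ∩ ball ζ δ,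
        dist (psi h φ x) (psi h φ y) ≤ 2 * η) ∨
      (∀ x ∈ ball (0 : ℂ) 1, ρ ≤ dist x ζ → ∀ y ∈ ball (0 : ℂ) 1, ρ ≤ dist y ζ →
        dist (psi h φ x) (psi h φ y) ≤ 2 * η) := by
  obtain ⟨ε, hε, hmod⟩ := T_modulus_inv hη
  obtain ⟨δ, hδ, hδρ, hLA⟩ := length_area hε hρ
  refine ⟨δ, hδ, hδρ, fun h φ H ζ => ?_⟩
  obtain ⟨r, ⟨hr1, hr2⟩, harc⟩ := hLA φ H.diff H.inj H.mapsTo_disc ζ
  obtain ⟨p, hp⟩ : ∃ p : ℂ, ∀ x ∈ ball 0 1 ∩ sphere ζ r, psi h φ x ∈ closedBall p η := by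
    rcases (ball 0 1 ∩ sphere ζ r).eq_empty_or_nonempty with h0 | ⟨x0, hx0⟩
    · exact ⟨0, by simp [h0]⟩
    · refine ⟨psi h φ x0, fun x hx => mem_closedBall.2 ?_⟩
      refine (hmod h H.adm _ _ (mem_ball_zero_iff.1 (H.psi_spec hx.1).1).le
        (mem_ball_zero_iff.1 (H.psi_spec hx0.1).1).le ?_).le
      rw [(H.psi_spec hx.1).2, (H.psi_spec hx0.1).2]
      exact harc x hx x0 hx0
  set W : Set ℂ := ball 0 1 ∩ ball ζ r
  set W' : Set ℂ := ball 0 1 ∩ (closedBall ζ r)ᶜ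
  have hcov : ball (0 : ℂ) 1 \ closedBall p η ⊆ psi h φ '' W ∪ psi h φ '' W' := by
    rintro w ⟨hw, hwp⟩
    obtain ⟨x, hx, rfl⟩ := H.psi_surj hw
    rcases lt_trichotomy (dist x ζ) r with h1 | h1 | h1
    · exact .inl (mem_image_of_mem _ ⟨hx, h1⟩)
    · exact absurd (hp x ⟨hx, h1⟩) hwp
    · exact .inr (mem_image_of_mem _ ⟨hx, not_le.2 h1⟩)
  have hdis : psi h φ '' W ∩ psi h φ '' W' = ∅ := by
    rw [eq_empty_iff_forall_notMem]
    rintro w ⟨⟨x, hx, rfl⟩, y, hy, he⟩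
    rw [H.psi_injOn hy.1 hx.1 he] at hy
    exact hy.2 (mem_closedBall.2 (mem_ball.1 hx.2).le)
  have hsmall : ∀ {x y : ℂ}, psi h φ x ∈ closedBall p η → psi h φ y ∈ closedBall p η →
      dist (psi h φ x) (psi h φ y) ≤ 2 * η := fun {x y} a b => by
    linarith [dist_triangle_right (psi h φ x) (psi h φ y) p, mem_closedBall.1 a, mem_closedBall.1 b]
  rcases isPreconnected_iff_subset_of_disjoint.1 (isPreconnected_ball_diff hη) _ _
    (H.psi_open (isOpen_ball.inter isOpen_ball) inter_subset_left)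
    (H.psi_open (isOpen_ball.inter isClosed_closedBall.isOpen_compl) inter_subset_left) hcov
    (by rw [hdis, inter_empty]) with hsub | hsub
  · refine .inr fun x hx hxd y hy hyd => hsmall ?_ ?_
    · by_contra hc
      obtain ⟨v, hv, he⟩ := hsub ⟨(H.psi_spec hx).1, hc⟩
      rw [H.psi_injOn hv.1 hx he] at hv
      linarith [mem_ball.1 hv.2]
    · by_contra hc
      obtain ⟨v, hv, he⟩ := hsub ⟨(H.psi_spec hy).1, hc⟩
      rw [H.psi_injOn hv.1 hy he] at hv
      linarith [mem_ball.1 hv.2]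
  · refine .inl fun x hx y hy => hsmall ?_ ?_
    · by_contra hc
      obtain ⟨v, hv, he⟩ := hsub ⟨(H.psi_spec hx.1).1, hc⟩
      rw [H.psi_injOn hv.1 hx.1 he] at hv
      exact hv.2 (mem_closedBall.2 ((mem_ball.1 hx.2).le.trans hr1.le))
    · by_contra hc
      obtain ⟨v, hv, he⟩ := hsub ⟨(H.psi_spec hy.1).1, hc⟩
      rw [H.psi_injOn hv.1 hy.1 he] at hv
      exact hv.2 (mem_closedBall.2 ((mem_ball.1 hy.2).le.trans hr1.le))

lemma neBot_ball {x : ℂ} (hx : ‖x‖ ≤ 1) : (𝓝[ball (0 : ℂ) 1] x).NeBot :=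
  mem_closure_iff_nhdsWithin_neBot.1
    (by rw [closure_ball _ one_ne_zero]; exact mem_closedBall_zero_iff.2 hx)

/-- A conformal map extended continuously to the closed disc. -/
structure Cext (h : ℝ → ℝ) (Φ : ℂ → ℂ) : Prop extends Cmap h Φ where
  cont : ContinuousOn Φ (closedBall 0 1)

theorem exists_cext (hh : Adm h) : ∃ Φ, Cext h Φ := by
  obtain ⟨φ, hd, hi, him⟩ := exists_conformal hh
  have H : Cmap h φ := ⟨hh, hd, hi, him⟩
  have hlim : ∀ x ∈ closedBall (0 : ℂ) 1, ∃ y, Tendsto φ (𝓝[ball 0 1] x) (𝓝 y) := by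
    intro x hx
    rcases (mem_closedBall_zero_iff.1 hx).lt_or_eq with hx1 | hx1
    · exact ⟨φ x, (hd.continuousOn x (mem_ball_zero_iff.2 hx1))⟩
    have := neBot_ball hx1.le
    refine CompleteSpace.complete (Metric.cauchy_iff.2 ⟨inferInstance, fun ε hε => ?_⟩)
    obtain ⟨η0, hη0, hT⟩ := T_modulus hε
    have h2 : (1 / 2 : ℂ) ∈ ball (0 : ℂ) 1 := by
      rw [mem_ball_zero_iff]; norm_num
    have h0 : (0 : ℂ) ∈ ball (0 : ℂ) 1 := mem_ball_self one_pos
    set d := dist (psi h φ 0) (psi h φ (1 / 2))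
    have hd0 : 0 < d := dist_pos.2 fun he => by simpa using H.psi_injOn h0 h2 he
    obtain ⟨δ, hδ, -, halt⟩ := alternative (η := min η0 d / 3) (by positivity)
      (show (0 : ℝ) < 1 / 2 by norm_num)
    rcases halt h φ H x with hsmall | hbig
    · refine ⟨φ '' (ball 0 1 ∩ ball x δ),
        image_mem_map (inter_mem_nhdsWithin _ (ball_mem_nhds x hδ)), ?_⟩
      rintro _ ⟨a, ha, rfl⟩ _ ⟨b, hb, rfl⟩
      rw [← (H.psi_spec ha.1).2, ← (H.psi_spec hb.1).2]
      refine hT h hh _ _ (mem_ball_zero_iff.1 (H.psi_spec ha.1).1).le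
        (mem_ball_zero_iff.1 (H.psi_spec hb.1).1).le ?_
      linarith [hsmall a ha b hb, min_le_left η0 d]
    · exfalso
      have e1 : (1 / 2 : ℝ) ≤ dist 0 x := by rw [dist_zero_left, hx1]; norm_num
      have e2 : (1 / 2 : ℝ) ≤ dist (1 / 2) x := by
        rw [dist_eq]
        have := norm_sub_norm_le x (1 / 2 : ℂ)
        rw [norm_sub_rev, hx1] at this
        norm_num at this ⊢
        linarith
      linarith [hbig 0 h0 e1 _ h2 e2, min_le_right η0 d]
  refine ⟨extendFrom (ball 0 1) φ, ⟨⟨hh, ?_, ?_, ?_⟩, ?_⟩⟩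
  all_goals have heq : EqOn (extendFrom (ball 0 1) φ) φ (ball 0 1) := fun x hx =>
    extendFrom_eq (subset_closure hx) (hd.continuousOn x hx)
  · exact hd.congr heq
  · exact hi.congr heq.symm
  · rw [heq.image_eq, him]
  · exact continuousOn_extendFrom (by rw [closure_ball _ one_ne_zero]) hlim

variable {Φ : ℂ → ℂ}

lemma Cext.image_closed (H : Cext h Φ) : Φ '' closedBall 0 1 = T h '' closedBall 0 1 := by
  refine Subset.antisymm ?_ ?_
  · rw [← closure_ball (0 : ℂ) one_ne_zero]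
    refine (H.cont.mono (by rw [closure_ball _ one_ne_zero])).image_closure.trans ?_
    rw [H.image]
    exact closure_minimal (image_mono subset_closure)
      ((by rw [closure_ball _ one_ne_zero]; exact
        ((isCompact_closedBall (0 : ℂ) 1).image_of_continuousOn (T_continuousOn H.adm)).isClosed))
  · have h1 := ((T_continuousOn H.adm).mono
      (by rw [closure_ball _ one_ne_zero] : closure (ball (0 : ℂ) 1) ⊆ closedBall 0 1)).image_closure
    rw [closure_ball _ one_ne_zero, ← H.image] at h1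
    exact h1.trans (closure_minimal (image_mono ball_subset_closedBall)
      ((isCompact_closedBall (0 : ℂ) 1).image_of_continuousOn H.cont).isClosed)

/-- The extension followed by the inverse shear. -/
lemma Cext.psi_closed (H : Cext h Φ) {x : ℂ} (hx : ‖x‖ ≤ 1) :
    ‖psi h Φ x‖ ≤ 1 ∧ T h (psi h Φ x) = Φ x := by
  obtain ⟨w, hw, he⟩ := H.image_closed.subset
    (mem_image_of_mem Φ (mem_closedBall_zero_iff.2 hx))
  rw [psi, ← he, S_T H.adm (mem_closedBall_zero_iff.1 hw)]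
  exact ⟨mem_closedBall_zero_iff.1 hw, rfl⟩

lemma Cext.psi_cont (H : Cext h Φ) : ContinuousOn (psi h Φ) (closedBall 0 1) :=
  (S_continuousOn H.adm).comp H.cont fun x hx => H.image_closed.subset (mem_image_of_mem Φ hx)

lemma Cext.psi_sphere (H : Cext h Φ) {x : ℂ} (hx : ‖x‖ = 1) : ‖psi h Φ x‖ = 1 := by
  refine le_antisymm (H.psi_closed hx.le).1 (not_lt.1 fun hlt => ?_)
  obtain ⟨a, ha, hae⟩ := H.psi_surj (mem_ball_zero_iff.2 hlt)
  set ρ := (1 - ‖a‖) / 3 with hρ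
  have ha1 := mem_ball_zero_iff.1 ha
  have hρ0 : 0 < ρ := by linarith
  have hO : psi h Φ '' (ball 0 1 ∩ ball a ρ) ∈ 𝓝 (psi h Φ x) := by
    rw [← hae]
    exact (H.psi_open (isOpen_ball.inter isOpen_ball) inter_subset_left).mem_nhds
      (mem_image_of_mem _ ⟨ha, mem_ball_self hρ0⟩)
  have := neBot_ball hx.le
  have hev : ∀ᶠ y in 𝓝[ball (0 : ℂ) 1] x, psi h Φ y ∈ psi h Φ '' (ball 0 1 ∩ ball a ρ) :=
    ((H.psi_cont x (mem_closedBall_zero_iff.2 hx.le)).mono_left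
      (nhdsWithin_mono x ball_subset_closedBall)).eventually hO
  have hnear : ∀ᶠ y in 𝓝[ball (0 : ℂ) 1] x, y ∈ ball x ρ :=
    nhdsWithin_le_nhds (ball_mem_nhds x hρ0)
  obtain ⟨y, ⟨b, hb, hbe⟩, hy, hyx⟩ :=
    (hev.and (eventually_mem_nhdsWithin.and hnear)).exists
  rw [H.psi_injOn hb.1 hy hbe] at hb
  have h1 := mem_ball.1 hb.2
  have h2 := mem_ball.1 hyx
  rw [dist_eq] at h1 h2
  have := norm_sub_norm_le y a
  have := norm_sub_norm_le x y
  rw [norm_sub_rev x y] at this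
  linarith

lemma sign_L {ζ₁ ζ₂ x : ℂ} (h₁ : ‖ζ₁‖ = 1) (h₂ : ‖ζ₂‖ = 1) (hne : ζ₁ ≠ ζ₂) (hx : ‖x‖ = 1)
    (h0 : ((x - ζ₁) * conj (ζ₂ - ζ₁)).im = 0) : x = ζ₁ ∨ x = ζ₂ := by
  set d := ζ₂ - ζ₁ with hd
  have hd0 : d ≠ 0 := sub_ne_zero.2 (Ne.symm hne)
  set t := ((x - ζ₁) / d).re with ht
  have hreal : (x - ζ₁) / d = (t : ℂ) := by
    refine Complex.ext rfl ?_
    rw [Complex.mul_im, Complex.conj_re, Complex.conj_im] at h0
    rw [ofReal_im, Complex.div_im]
    linear_combination (normSq d)⁻¹ * h0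
  have hxe : x = ζ₁ + (t : ℂ) * d := by
    rw [← hreal]; field_simp; ring
  have hn : ∀ v : ℂ, ‖v‖ = 1 → v.re * v.re + v.im * v.im = 1 := fun v hv => by
    rw [← normSq_apply, normSq_eq_norm_sq, hv, one_pow]
  have e1 := hn _ h₁
  have e2 := hn _ h₂
  have e3 := hn _ hx
  rw [hxe] at e3
  simp [hd] at e3
  have hnd : 0 < (ζ₂.re - ζ₁.re) ^ 2 + (ζ₂.im - ζ₁.im) ^ 2 := by
    have := normSq_pos.2 hd0
    simp [hd, normSq_apply] at this
    nlinarith
  have : (t * (t - 1)) * ((ζ₂.re - ζ₁.re) ^ 2 + (ζ₂.im - ζ₁.im) ^ 2) = 0 := by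
    linear_combination e3 - e1 - t * (e2 - e1)
  rcases mul_eq_zero.1 this with h | h
  · rcases mul_eq_zero.1 h with h | h
    · exact .inl (by rw [hxe, h]; simp)
    · exact .inr (by rw [hxe, sub_eq_zero.1 h, hd]; simp)
  · linarith

lemma exists_side {ζ₁ ζ₂ : ℂ} (h₁ : ‖ζ₁‖ = 1) (h₂ : ‖ζ₂‖ = 1) (hne : ζ₁ ≠ ζ₂) {σ : ℝ}
    (hσ : σ = 1 ∨ σ = -1) :
    ∃ x : ℂ, ‖x‖ = 1 ∧ σ * ((x - ζ₁) * conj (ζ₂ - ζ₁)).im < 0 := by
  set d := ζ₂ - ζ₁ with hd
  have hd0 : d ≠ 0 := sub_ne_zero.2 (Ne.symm hne)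
  have hdn : 0 < ‖d‖ := norm_pos_iff.2 hd0
  refine ⟨((-σ : ℝ) : ℂ) * I * d / (‖d‖ : ℂ), ?_, ?_⟩
  · rcases hσ with rfl | rfl <;> simp [hdn.ne']
  · have e : ((((-σ : ℝ) : ℂ) * I * d / (‖d‖ : ℂ) - ζ₁) * conj d).im
        = -σ * ‖d‖ - (ζ₁ * conj d).im := by
      rw [show ((((-σ : ℝ) : ℂ) * I * d / (‖d‖ : ℂ) - ζ₁) * conj d)
        = ((-σ : ℝ) : ℂ) * I * (d * conj d) / (‖d‖ : ℂ) - ζ₁ * conj d by ring, mul_conj',
        sq, ← mul_assoc, mul_div_cancel_right₀ _ (by exact_mod_cast hdn.ne')]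
      simp
    rw [e]
    have hre : (ζ₁ * conj d).re ≠ 0 := by
      intro h0
      have h2 : ‖ζ₁ + d‖ ^ 2 = ‖ζ₁‖ ^ 2 + ‖d‖ ^ 2 + 2 * (ζ₁ * conj d).re := by
        simp only [← normSq_eq_norm_sq]
        exact normSq_add ζ₁ d
      rw [hd, add_sub_cancel, h₁, h₂, ← hd, h0] at h2
      nlinarith
    have hlt : |(ζ₁ * conj d).im| < ‖ζ₁ * conj d‖ := abs_im_lt_norm.2 hre
    rw [norm_mul, norm_conj, h₁, one_mul] at hlt
    obtain ⟨hl1, hl2⟩ := abs_lt.1 hlt
    rcases hσ with rfl | rfl <;> linarith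

/-- The extension is injective on the closed disc. -/
theorem Cext.injOn_closed (H : Cext h Φ) : InjOn Φ (closedBall 0 1) := by
  have key : ∀ x y : ℂ, ‖x‖ = 1 → ‖y‖ = 1 → psi h Φ x = psi h Φ y → x = y := by
    intro ζ₁ ζ₂ h₁ h₂ hq
    by_contra hne
    set q := psi h Φ ζ₁ with hqdef
    set L : ℂ → ℝ := fun x => ((x - ζ₁) * conj (ζ₂ - ζ₁)).im with hL
    have hLc : Continuous L := by fun_prop
    set C := closedBall (0 : ℂ) 1 ∩ {x | L x = 0}
    have hCc : IsCompact (psi h Φ '' C) :=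
      ((isCompact_closedBall _ _).inter_right (isClosed_eq hLc continuous_const)).image_of_continuousOn
        (H.psi_cont.mono inter_subset_left)
    let P : ℝ → Set ℂ := fun σ => {p | ∃ r > 0, ball p r ∩ ball 0 1 ⊆
      psi h Φ '' (ball 0 1 ∩ {x | 0 < σ * L x})}
    have hPo : ∀ σ, IsOpen (P σ) := by
      intro σ
      rw [Metric.isOpen_iff]
      rintro p ⟨r, hr, hsub⟩
      refine ⟨r / 2, by positivity, fun p' hp' => ⟨r / 2, by positivity, fun w hw => hsub ⟨?_, hw.2⟩⟩⟩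
      exact mem_ball.2 (by linarith [dist_triangle w p' p, mem_ball.1 hw.1, mem_ball.1 hp'])
    have hopen : ∀ σ : ℝ, IsOpen (ball (0 : ℂ) 1 ∩ {x | 0 < σ * L x}) := fun σ =>
      isOpen_ball.inter (isOpen_lt continuous_const (continuous_const.mul hLc))
    have hCcirc : sphere (0 : ℂ) 1 \ {q} ⊆ P 1 ∪ P (-1) := by
      rintro p ⟨hp, hpq⟩
      rw [mem_sphere_zero_iff_norm] at hp
      have hpC : p ∉ psi h Φ '' C := by
        rintro ⟨x, ⟨hx, hx0⟩, rfl⟩
        have hx1 : ‖x‖ = 1 := by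
          by_contra hne1
          have := (H.psi_spec (mem_ball_zero_iff.2
            (lt_of_le_of_ne (mem_closedBall_zero_iff.1 hx) hne1))).1
          rw [mem_ball_zero_iff, hp] at this
          exact lt_irrefl _ this
        rcases sign_L h₁ h₂ hne hx1 hx0 with rfl | rfl
        · exact hpq rfl
        · exact hpq hq.symm
      obtain ⟨r, hr, hsub⟩ := Metric.isOpen_iff.1 hCc.isClosed.isOpen_compl p hpC
      have hcov : ball p r ∩ ball 0 1 ⊆ psi h Φ '' (ball 0 1 ∩ {x | 0 < (1 : ℝ) * L x}) ∪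
          psi h Φ '' (ball 0 1 ∩ {x | 0 < (-1 : ℝ) * L x}) := by
        rintro w ⟨hw1, hw2⟩
        obtain ⟨x, hx, rfl⟩ := H.psi_surj hw2
        rcases lt_trichotomy (L x) 0 with h0 | h0 | h0
        · exact .inr ⟨x, ⟨hx, by simp [h0]⟩, rfl⟩
        · exact absurd (mem_image_of_mem (psi h Φ) (show x ∈ C from ⟨ball_subset_closedBall hx, h0⟩))
            (hsub hw1)
        · exact .inl ⟨x, ⟨hx, by simp [h0]⟩, rfl⟩
      have hdis : psi h Φ '' (ball 0 1 ∩ {x | 0 < (1 : ℝ) * L x}) ∩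
          psi h Φ '' (ball 0 1 ∩ {x | 0 < (-1 : ℝ) * L x}) = ∅ := by
        rw [eq_empty_iff_forall_notMem]
        rintro w ⟨⟨x, hx, rfl⟩, y, hy, he⟩
        rw [H.psi_injOn hy.1 hx.1 he] at hy
        have a1 : 0 < (1 : ℝ) * L x := hx.2
        have a2 : 0 < (-1 : ℝ) * L x := hy.2
        linarith
      rcases isPreconnected_iff_subset_of_disjoint.1
        ((convex_ball p r).inter (convex_ball 0 1)).isPreconnected _ _
        (H.psi_open (hopen 1) inter_subset_left) (H.psi_open (hopen (-1)) inter_subset_left) hcov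
        (by rw [hdis, inter_empty]) with h0 | h0
      · exact .inl ⟨r, hr, h0⟩
      · exact .inr ⟨r, hr, h0⟩
    have hPdis : (sphere (0 : ℂ) 1 \ {q}) ∩ (P 1 ∩ P (-1)) = ∅ := by
      rw [eq_empty_iff_forall_notMem]
      rintro p ⟨⟨hp, -⟩, ⟨r, hr, h1⟩, r', hr', h2⟩
      have := neBot_ball (mem_sphere_zero_iff_norm.1 hp).le
      have hnear : ∀ᶠ w in 𝓝[ball (0 : ℂ) 1] p, w ∈ ball p r ∩ ball p r' :=
        nhdsWithin_le_nhds (inter_mem (ball_mem_nhds p hr) (ball_mem_nhds p hr'))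
      obtain ⟨w, ⟨hw, hw'⟩, hwb⟩ := (hnear.and eventually_mem_nhdsWithin).exists
      obtain ⟨x, hx, hxe⟩ := h1 ⟨hw, hwb⟩
      obtain ⟨y, hy, hye⟩ := h2 ⟨hw', hwb⟩
      rw [H.psi_injOn hy.1 hx.1 (hye.trans hxe.symm)] at hy
      have a1 : 0 < (1 : ℝ) * L x := hx.2
      have a2 : 0 < (-1 : ℝ) * L x := hy.2
      linarith
    have hconn : IsPreconnected (sphere (0 : ℂ) 1 \ {q}) := by
      have hq1 : ‖q‖ = 1 := H.psi_sphere h₁
      have : sphere (0 : ℂ) 1 \ {q} = (fun t : ℝ => q * exp ((t : ℂ) * I)) '' Ioo 0 (2 * π) := by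
        have hq0 : q ≠ 0 := by intro h; simp [h] at hq1
        ext p
        constructor
        · rintro ⟨hp, hpq⟩
          rw [mem_sphere_zero_iff_norm] at hp
          have hn : ‖-(p / q)‖ = 1 := by simp [hp, hq1]
          have he := norm_mul_exp_arg_mul_I (-(p / q))
          rw [hn, ofReal_one, one_mul] at he
          have harg : arg (-(p / q)) ≠ π := by
            intro h0
            rw [h0, exp_pi_mul_I, neg_inj] at he
            exact hpq (mem_singleton_iff.2 ((div_eq_one_iff_eq hq0).1 he.symm))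
          refine ⟨arg (-(p / q)) + π, ⟨by linarith [neg_pi_lt_arg (-(p / q))],
            by linarith [lt_of_le_of_ne (arg_le_pi (-(p / q))) harg]⟩, ?_⟩
          simp only [ofReal_add, add_mul, Complex.exp_add, he, exp_pi_mul_I]
          field_simp
        · rintro ⟨t, ht, rfl⟩
          refine ⟨by simp [hq1], fun h0 => ?_⟩
          have h1 : exp ((t : ℂ) * I) = 1 :=
            mul_left_cancel₀ hq0 (by simp only [mem_singleton_iff] at h0; rw [h0, mul_one])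
          obtain ⟨n, hn⟩ := exp_eq_one_iff.1 h1
          have hn' : t = n * (2 * π) := by
            have := congrArg Complex.im hn
            simpa using this
          have hp := Real.pi_pos
          rcases le_or_gt n 0 with hn0 | hn0
          · have : (n : ℝ) ≤ 0 := by exact_mod_cast hn0
            nlinarith [ht.1]
          · have : (1 : ℝ) ≤ n := by exact_mod_cast hn0
            nlinarith [ht.2]
      rw [this]
      exact isPreconnected_Ioo.image _ (by fun_prop : Continuous _).continuousOn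
    obtain ⟨σ, hσ, hsub⟩ : ∃ σ : ℝ, (σ = 1 ∨ σ = -1) ∧ sphere (0 : ℂ) 1 \ {q} ⊆ P σ := by
      rcases isPreconnected_iff_subset_of_disjoint.1 hconn _ _ (hPo 1) (hPo (-1)) hCcirc hPdis
        with h0 | h0
      · exact ⟨1, .inl rfl, h0⟩
      · exact ⟨-1, .inr rfl, h0⟩
    obtain ⟨ζ, hζ, hζL⟩ := exists_side h₁ h₂ hne hσ
    obtain ⟨ρ, hρ, hρsub⟩ := Metric.isOpen_iff.1
      (isOpen_lt (continuous_const.mul hLc) continuous_const : IsOpen {x | σ * L x < 0}) ζ hζL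
    refine not_const_arc H.diff H.cont H.inj hζ hρ (c := T h q) fun x hx hxd => ?_
    rw [← (H.psi_closed hx.le).2]
    congr 1
    by_contra hxq
    obtain ⟨r, hr, hr'⟩ := hsub ⟨mem_sphere_zero_iff_norm.2 (H.psi_sphere hx), hxq⟩
    have := neBot_ball hx.le
    have e1 : ∀ᶠ y in 𝓝[ball (0 : ℂ) 1] x, psi h Φ y ∈ ball (psi h Φ x) r :=
      ((H.psi_cont x (mem_closedBall_zero_iff.2 hx.le)).mono_left
        (nhdsWithin_mono x ball_subset_closedBall)).eventually (ball_mem_nhds _ hr)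
    have e2 : ∀ᶠ y in 𝓝[ball (0 : ℂ) 1] x, σ * L y < 0 :=
      nhdsWithin_le_nhds ((isOpen_lt (continuous_const.mul hLc) continuous_const).mem_nhds
        (hρsub (mem_ball.2 hxd)))
    obtain ⟨y, h1, h2, h3⟩ := (e1.and (e2.and eventually_mem_nhdsWithin)).exists
    obtain ⟨z, hz, hze⟩ := hr' ⟨h1, (H.psi_spec h3).1⟩
    rw [H.psi_injOn hz.1 h3 hze] at hz
    have : 0 < σ * L y := hz.2
    linarith
  intro x hx y hy he
  rw [mem_closedBall_zero_iff] at hx hy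
  have he' : psi h Φ x = psi h Φ y := by rw [psi, psi, he]
  rcases hx.lt_or_eq with hx1 | hx1 <;> rcases hy.lt_or_eq with hy1 | hy1
  · exact H.inj (mem_ball_zero_iff.2 hx1) (mem_ball_zero_iff.2 hy1) he
  · have := (H.psi_spec (mem_ball_zero_iff.2 hx1)).1
    rw [he', mem_ball_zero_iff, H.psi_sphere hy1] at this
    exact absurd this (lt_irrefl _)
  · have := (H.psi_spec (mem_ball_zero_iff.2 hy1)).1
    rw [← he', mem_ball_zero_iff, H.psi_sphere hx1] at this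
    exact absurd this (lt_irrefl _)
  · exact key x y hx1 hy1 he'

end Vale.Agent.P116
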