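import Vale.Agent.P116.Ext
import Vale.Agent.P116.Reflect

/-!
P116: the normalised maps: existence, uniqueness, a uniform modulus of continuity and continuous
dependence on the height.
-/

open Complex Metric Filter Set Topology
open scoped Real ComplexConjugate

namespace Vale.Agent.P116

variable {h : ℝ → ℝ} {Φ : ℂ → ℂ}

/-- The map read in the upper half plane. -/
noncomputable def fmap (Φ : ℂ → ℂ) (z : ℂ) : ℂ := kinv (Φ (kap z))

lemma Cext.mem_T (H : Cext h Φ) {x : ℂ} (hx : ‖x‖ ≤ 1) :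
    Φ x ∈ T h '' closedBall 0 1 :=
  H.image_closed.subset (mem_image_of_mem _ (mem_closedBall_zero_iff.2 hx))

lemma Cext.norm_le (H : Cext h Φ) {x : ℂ} (hx : ‖x‖ ≤ 1) : ‖Φ x‖ ≤ 1 := by
  rw [← (H.psi_closed hx).2]
  exact norm_T_le H.adm (H.psi_closed hx).1

lemma Cext.ne_one (H : Cext h Φ) (h1 : Φ 1 = 1) {z : ℂ} (hz : 0 ≤ z.im) : Φ (kap z) ≠ 1 :=
  fun he => kap_ne_one (by linarith) (H.injOn_closed
    (mem_closedBall_zero_iff.2 ((norm_kap_le_iff (by linarith)).2 hz))
    (mem_closedBall_zero_iff.2 (by simp)) (he.trans h1.symm))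

lemma Cext.kap_fmap (H : Cext h Φ) (h1 : Φ 1 = 1) {z : ℂ} (hz : 0 ≤ z.im) :
    kap (fmap Φ z) = Φ (kap z) := kap_kinv (H.ne_one h1 hz)

lemma Cext.fmap_cont (H : Cext h Φ) (h1 : Φ 1 = 1) :
    ContinuousOn (fmap Φ) {z | 0 ≤ z.im} := by
  intro z hz
  have hz0 : 0 ≤ z.im := hz
  have hm : ∀ v ∈ {z : ℂ | 0 ≤ z.im}, kap v ∈ closedBall (0 : ℂ) 1 := fun v hv =>
    mem_closedBall_zero_iff.2 ((norm_kap_le_iff (by linarith [show 0 ≤ v.im from hv])).2 hv)
  have hc : ContinuousWithinAt (Φ ∘ kap) {z : ℂ | 0 ≤ z.im} z :=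
    (H.cont _ (hm z hz)).comp (continuousAt_kap (by linarith)).continuousWithinAt hm
  exact ContinuousAt.comp_continuousWithinAt (f := Φ ∘ kap)
    (continuousAt_kinv (H.ne_one h1 hz0)) hc

lemma kap_differentiableAt {z : ℂ} (hz : -1 < z.im) : DifferentiableAt ℂ kap z := by
  unfold kap
  exact DifferentiableAt.div (by fun_prop) (by fun_prop) (add_I_ne hz)

lemma Cext.fmap_diff (H : Cext h Φ) (h1 : Φ 1 = 1) {z : ℂ} (hz : 0 < z.im) :
    DifferentiableAt ℂ (fmap Φ) z := by
  have hk : DifferentiableAt ℂ kinv (Φ (kap z)) := by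
    unfold kinv
    exact DifferentiableAt.div (by fun_prop) (by fun_prop)
      (sub_ne_zero.2 (Ne.symm (H.ne_one h1 hz.le)))
  have hΦ : DifferentiableAt ℂ Φ (kap z) := H.diff.differentiableAt
    (isOpen_ball.mem_nhds (mem_ball_zero_iff.2 ((norm_kap_lt_iff (by linarith)).2 hz)))
  exact hk.comp z (hΦ.comp z (kap_differentiableAt (by linarith)))

lemma Cext.fmap_upper (H : Cext h Φ) {z : ℂ} (hz : 0 < z.im) :
    h (fmap Φ z).re < (fmap Φ z).im :=
  ((mem_T_ball H.adm).1 (H.image.subset (mem_image_of_mem Φ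
    (mem_ball_zero_iff.2 ((norm_kap_lt_iff (by linarith)).2 hz))))).2

lemma Cext.fmap_real (H : Cext h Φ) (h1 : Φ 1 = 1) (x : ℝ) :
    (fmap Φ x).im = h (fmap Φ x).re := by
  obtain ⟨hn, he⟩ := H.psi_closed (norm_kap_real x).le
  rcases cases_sphere (H.psi_sphere (norm_kap_real x)) with hw | ⟨t, hw⟩
  · rw [hw, T_one] at he
    exact absurd he.symm (H.ne_one h1 (by simp))
  · rw [hw, T_kap H.adm (by simp)] at he
    have e : fmap Φ x = (t : ℂ) + (h t : ℂ) * I := by
      rw [fmap, ← he]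
      simpa using kinv_kap (z := (t : ℂ) + (h (t : ℂ).re : ℂ) * I)
        (by simp; linarith [H.adm.nonneg t])
    rw [e]
    simp

lemma Cext.fmap_injOn (H : Cext h Φ) (h1 : Φ 1 = 1) : InjOn (fmap Φ) {z | 0 ≤ z.im} := by
  intro z hz w hw he
  have hz0 : 0 ≤ z.im := hz
  have hw0 : 0 ≤ w.im := hw
  have e1 : Φ (kap z) = Φ (kap w) := by rw [← H.kap_fmap h1 hz0, ← H.kap_fmap h1 hw0, he]
  have e2 := H.injOn_closed (mem_closedBall_zero_iff.2 ((norm_kap_le_iff (by linarith)).2 hz0))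
    (mem_closedBall_zero_iff.2 ((norm_kap_le_iff (by linarith)).2 hw0)) e1
  rw [← kinv_kap (z := z) (by linarith), ← kinv_kap (z := w) (by linarith), e2]

lemma Cext.u_injective (H : Cext h Φ) (h1 : Φ 1 = 1) :
    Function.Injective fun x : ℝ => (fmap Φ x).re := by
  intro x y he
  have he' : (fmap Φ x).re = (fmap Φ y).re := he
  have e : fmap Φ x = fmap Φ y :=
    Complex.ext he' (by rw [H.fmap_real h1, H.fmap_real h1, he'])
  exact_mod_cast H.fmap_injOn h1 (show (0 : ℝ) ≤ ((x : ℂ)).im by simp)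
    (show (0 : ℝ) ≤ ((y : ℂ)).im by simp) e

lemma Cext.u_cont (H : Cext h Φ) (h1 : Φ 1 = 1) : Continuous fun x : ℝ => (fmap Φ x).re :=
  continuous_re.comp ((H.fmap_cont h1).comp_continuous continuous_ofReal fun x => by simp)

lemma Cext.fmap_large (H : Cext h Φ) (h1 : Φ 1 = 1) (M : ℝ) :
    ∃ R, ∀ z : ℂ, 0 ≤ z.im → R ≤ ‖z‖ → M ≤ ‖fmap Φ z‖ := by
  set ε := 1 / (|M| + 1) with hε
  have hε0 : 0 < ε := by positivity
  obtain ⟨δ, hδ, hcl⟩ := Metric.continuousWithinAt_iff.1 (H.cont 1 (by simp)) ε hε0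
  refine ⟨2 / δ + 2, fun z hz hR => ?_⟩
  have hzn : 2 / δ + 1 ≤ ‖z + I‖ := by
    have := norm_sub_le (z + I) I
    rw [add_sub_cancel_right, norm_I] at this
    linarith
  have hd : dist (kap z) 1 < δ := by
    rw [dist_comm, dist_eq, one_sub_kap (by linarith), norm_div, norm_mul, Complex.norm_two,
      norm_I, mul_one, div_lt_iff₀ (lt_of_lt_of_le (by positivity) hzn)]
    have e : δ * (2 / δ + 1) = 2 + δ := by field_simp
    nlinarith [mul_le_mul_of_nonneg_left hzn hδ.le]
  have hq := hcl (mem_closedBall_zero_iff.2 ((norm_kap_le_iff (by linarith)).2 hz)) hd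
  rw [h1, dist_eq, norm_sub_rev] at hq
  set q := Φ (kap z) with hqd
  have hq0 : 0 < ‖1 - q‖ := norm_pos_iff.2 (sub_ne_zero.2 (Ne.symm (H.ne_one h1 hz)))
  have hε1 : ε ≤ 1 := by
    rw [hε, div_le_one (by positivity)]
    linarith [abs_nonneg M]
  have htwo : 2 - ε ≤ ‖1 + q‖ := by
    have := norm_add_le (1 + q) (1 - q)
    rw [show (1 + q) + (1 - q) = 2 by ring, Complex.norm_two] at this
    linarith
  rw [fmap, kinv, norm_div, norm_mul, norm_I, one_mul, le_div_iff₀ hq0]
  calc M * ‖1 - q‖ ≤ (|M| + 1) * ε :=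
        mul_le_mul (by linarith [le_abs_self M]) hq.le (norm_nonneg _) (by positivity)
    _ = 1 := by rw [hε]; field_simp
    _ ≤ ‖1 + q‖ := by linarith

lemma kap_one : kap 1 = -I := by
  rw [kap, div_eq_iff (by simpa using add_I_ne (z := 1) (by simp))]
  linear_combination I_sq

lemma kap_neg_one : kap (-1) = I := by
  rw [kap, div_eq_iff (by simpa using add_I_ne (z := -1) (by simp))]
  linear_combination (-1 : ℂ) * I_sq

/-- With `1` fixed the boundary map is increasing. -/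
theorem Cext.u_strictMono (H : Cext h Φ) (h1 : Φ 1 = 1) :
    StrictMono fun x : ℝ => (fmap Φ x).re := by
  rcases (H.u_cont h1).strictMono_of_inj (H.u_injective h1) with hm | ha
  · exact hm
  exfalso
  obtain ⟨R, hR⟩ := H.fmap_large h1 4
  set R' := max R 0 + 1 with hR'
  have him : ∀ x : ℝ, R' ≤ x → (fmap Φ x).im = 0 := by
    intro x hx
    have hxR : R ≤ ‖(x : ℂ)‖ := by
      rw [norm_real, Real.norm_eq_abs]
      linarith [le_abs_self x, le_max_left R 0]
    have hbig := hR x (by simp) hxR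
    have hre := H.fmap_real h1 x
    rw [hre]
    apply H.adm.zero
    have := norm_le_abs_re_add_abs_im (fmap Φ x)
    rw [hre, abs_of_nonneg (H.adm.nonneg _)] at this
    linarith [H.adm.le_two (fmap Φ x).re]
  set U : Set ℂ := {z | R' < z.re}
  have hU : IsOpen U := isOpen_lt continuous_const continuous_re
  have hF : DifferentiableOn ℂ (refl (fmap Φ)) U :=
    refl_differentiableOn hU (fun z hz => by simpa [U] using hz)
      ((H.fmap_cont h1).mono inter_subset_right) (fun z _ hz => H.fmap_diff h1 hz)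
      (fun z hz h0 => by
        rw [show z = (z.re : ℂ) from Complex.ext rfl (by simp [h0])]
        exact him _ (le_of_lt hz))
  have hFx : ∀ x : ℝ, refl (fmap Φ) x = fmap Φ x := fun x => refl_of_nonneg (by simp)
  have hder : ∀ x : ℝ, R' < x →
      HasDerivAt (fun x : ℝ => (fmap Φ x).re) (deriv (refl (fmap Φ)) x).re x ∧
        0 ≤ (deriv (refl (fmap Φ)) x).re := by
    intro x hx
    have hxU : (x : ℂ) ∈ U := by simpa [U] using hx
    have hd := (hF.differentiableAt (hU.mem_nhds hxU)).hasDerivAt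
    refine ⟨?_, ?_⟩
    · simpa [hFx] using hd.real_of_complex
    · set d := deriv (refl (fmap Φ)) x
      have hγ : HasDerivAt (fun y : ℝ => (x : ℂ) + (y : ℂ) * I) I 0 := by
        simpa using ((hasDerivAt_id (0 : ℝ)).ofReal_comp.mul_const I).const_add (x : ℂ)
      have hc : HasDerivAt (fun y : ℝ => (refl (fmap Φ) ((x : ℂ) + (y : ℂ) * I)).im) (d * I).im 0 := by
        have h2 : HasDerivAt (fun y : ℝ => refl (fmap Φ) ((x : ℂ) + (y : ℂ) * I)) (d * I) 0 :=
          HasDerivAt.comp (𝕜 := ℝ) (𝕜' := ℂ) (h₂ := refl (fmap Φ)) (0 : ℝ)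
            (by simpa using hd) hγ
        exact imCLM.hasFDerivAt.comp_hasDerivAt (0 : ℝ) h2
      have hlim := (hasDerivAt_iff_tendsto_slope.1 hc).mono_left
        (nhdsWithin_mono (0 : ℝ) (fun y (hy : y ∈ Ioi (0 : ℝ)) => ne_of_gt hy))
      have hge : 0 ≤ (d * I).im := by
        refine ge_of_tendsto hlim ?_
        filter_upwards [self_mem_nhdsWithin] with y hy
        have hy0 : (0 : ℝ) < y := hy
        rw [slope_def_field]
        simp only [ofReal_zero, zero_mul, add_zero, sub_zero, hFx, him x hx.le]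
        refine div_nonneg ?_ hy0.le
        rw [refl_of_nonneg (by simp; linarith)]
        exact le_of_lt (lt_of_le_of_lt (H.adm.nonneg _) (H.fmap_upper (by simp; linarith)))
      simpa using hge
  have hmono : MonotoneOn (fun x : ℝ => (fmap Φ x).re) (Ioi R') :=
    monotoneOn_of_hasDerivWithinAt_nonneg (convex_Ioi _) (H.u_cont h1).continuousOn
      (fun x hx => by rw [interior_Ioi] at hx ⊢; exact (hder x hx).1.hasDerivWithinAt)
      (fun x hx => by rw [interior_Ioi] at hx; exact (hder x hx).2)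
  have h12 : R' + 1 < R' + 2 := by linarith
  exact absurd (ha h12) (not_lt.2 (hmono (show R' < R' + 1 by linarith)
    (show R' < R' + 2 by linarith) h12.le))

lemma Cext.u_surjective (H : Cext h Φ) (h1 : Φ 1 = 1) :
    Function.Surjective fun x : ℝ => (fmap Φ x).re := by
  intro t
  obtain ⟨w, hw, he⟩ := H.image_closed.symm.subset
    (mem_image_of_mem (T h) (mem_closedBall_zero_iff.2 (norm_kap_real t).le))
  rw [mem_closedBall_zero_iff] at hw
  have hpsi : psi h Φ w = kap (t : ℂ) := by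
    rw [psi, he, S_T H.adm (norm_kap_real t).le]
  have hw1 : ‖w‖ = 1 := by
    refine le_antisymm hw (not_lt.1 fun hlt => ?_)
    have := (H.psi_spec (mem_ball_zero_iff.2 hlt)).1
    rw [hpsi, mem_ball_zero_iff, norm_kap_real] at this
    exact lt_irrefl _ this
  rcases cases_sphere hw1 with rfl | ⟨x, rfl⟩
  · rw [h1] at he
    exact absurd he.symm (T_ne_one H.adm (by simp))
  · refine ⟨x, ?_⟩
    rw [T_kap H.adm (by simp)] at he
    change (kinv (Φ (kap x))).re = t
    rw [he, kinv_kap (by simp; linarith [H.adm.nonneg t])]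
    simp

lemma Cext.fmap_onto (H : Cext h Φ) (h1 : Φ 1 = 1) {v : ℂ} (hv : h v.re ≤ v.im) :
    ∃ z : ℂ, 0 ≤ z.im ∧ fmap Φ z = v := by
  obtain ⟨w, hw, he⟩ := H.image_closed.symm.subset (mem_T_closedBall H.adm hv)
  have hv0 : 0 ≤ v.im := le_trans (H.adm.nonneg _) hv
  rcases cases_disc (mem_closedBall_zero_iff.1 hw) with rfl | ⟨z, hz, rfl⟩
  · rw [h1] at he
    exact absurd he.symm (kap_ne_one (by linarith))
  · exact ⟨z, hz, by rw [fmap, he, kinv_kap (by linarith)]⟩

/-- The normalised maps fix `1`, `I` and `-I`. -/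
structure Nmap (h : ℝ → ℝ) (Φ : ℂ → ℂ) : Prop extends Cext h Φ where
  fix_one : Φ 1 = 1
  fix_I : Φ I = I
  fix_neg_I : Φ (-I) = -I

lemma T_mark (hh : Adm h) : T h 1 = 1 ∧ T h I = I ∧ T h (-I) = -I := by
  refine ⟨T_one h, ?_, ?_⟩
  · rw [← kap_neg_one, T_kap hh (by simp)]
    simp [hh.zero (-1) (by simp)]
  · rw [← kap_one, T_kap hh (by simp)]
    simp [hh.zero 1 (by simp)]

lemma Nmap.psi_mark (H : Nmap h Φ) :
    psi h Φ 1 = 1 ∧ psi h Φ I = I ∧ psi h Φ (-I) = -I := by
  obtain ⟨a, b, c⟩ := T_mark H.adm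
  refine ⟨?_, ?_, ?_⟩
  · rw [psi, H.fix_one]; nth_rewrite 1 [← a]; exact S_T H.adm (by simp)
  · rw [psi, H.fix_I]; nth_rewrite 1 [← b]; exact S_T H.adm (by simp)
  · rw [psi, H.fix_neg_I]; nth_rewrite 1 [← c]; exact S_T H.adm (by simp)

/-- A modulus of continuity uniform over all normalised maps. -/
theorem Nmap_modulus {ε : ℝ} (hε : 0 < ε) : ∃ δ > 0, ∀ h Φ, Nmap h Φ →
    ∀ x y : ℂ, ‖x‖ ≤ 1 → ‖y‖ ≤ 1 → dist x y < δ → dist (Φ x) (Φ y) ≤ ε := by
  obtain ⟨η0, hη0, hT⟩ := T_modulus hε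
  set η := min η0 1 / 3 with hη
  have hη' : 0 < η := by positivity
  obtain ⟨δ, hδ, -, halt⟩ := alternative hη' (show (0 : ℝ) < 1 / 2 by norm_num)
  refine ⟨δ, hδ, fun h Φ H => ?_⟩
  have hfar : ∀ ζ : ℂ, ¬ (∀ x ∈ ball (0 : ℂ) 1, 1 / 2 ≤ dist x ζ → ∀ y ∈ ball (0 : ℂ) 1,
      1 / 2 ≤ dist y ζ → dist (psi h Φ x) (psi h Φ y) ≤ 2 * η) := by
    intro ζ hb
    have key : ∀ a b : ℂ, ‖a‖ = 1 → ‖b‖ = 1 → 1 / 2 < dist a ζ → 1 / 2 < dist b ζ →
        dist (psi h Φ a) (psi h Φ b) ≤ 2 * η := by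
      intro a b ha hb' hda hdb
      have := neBot_ball ha.le
      have := neBot_ball hb'.le
      have la := (H.psi_cont a (mem_closedBall_zero_iff.2 ha.le)).mono_left
        (nhdsWithin_mono a ball_subset_closedBall)
      have lb := (H.psi_cont b (mem_closedBall_zero_iff.2 hb'.le)).mono_left
        (nhdsWithin_mono b ball_subset_closedBall)
      refine le_of_tendsto ((la.comp tendsto_fst).dist (lb.comp tendsto_snd)) ?_
      have ea : ∀ᶠ x in 𝓝[ball (0 : ℂ) 1] a, x ∈ ball (0 : ℂ) 1 ∧ 1 / 2 < dist x ζ :=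
        eventually_mem_nhdsWithin.and (nhdsWithin_le_nhds
          ((isOpen_lt continuous_const (continuous_id.dist continuous_const)).mem_nhds hda))
      have eb : ∀ᶠ x in 𝓝[ball (0 : ℂ) 1] b, x ∈ ball (0 : ℂ) 1 ∧ 1 / 2 < dist x ζ :=
        eventually_mem_nhdsWithin.and (nhdsWithin_le_nhds
          ((isOpen_lt continuous_const (continuous_id.dist continuous_const)).mem_nhds hdb))
      filter_upwards [ea.prod_mk eb] with p hp
      exact hb p.1 hp.1.1 hp.1.2.le p.2 hp.2.1 hp.2.2.le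
    have sep : ∀ a b : ℂ, 1 < dist a b → 1 / 2 < dist a ζ ∨ 1 / 2 < dist b ζ := by
      intro a b hab
      by_contra hc
      push Not at hc
      linarith [dist_triangle_right a b ζ]
    have hη1 : 2 * η < 1 := by linarith [min_le_right η0 1]
    have d1 : 1 < dist (1 : ℂ) I := by
      rw [dist_eq, ← one_lt_sq_iff₀ (norm_nonneg _), ← normSq_eq_norm_sq]
      simp [normSq_apply] <;> norm_num
    have d2 : 1 < dist (1 : ℂ) (-I) := by
      rw [dist_eq, ← one_lt_sq_iff₀ (norm_nonneg _), ← normSq_eq_norm_sq]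
      simp [normSq_apply] <;> norm_num
    have d3 : 1 < dist (I : ℂ) (-I) := by
      rw [dist_eq, ← one_lt_sq_iff₀ (norm_nonneg _), ← normSq_eq_norm_sq]
      simp [normSq_apply] <;> norm_num
    obtain ⟨e1, e2, e3⟩ := H.psi_mark
    by_cases c1 : 1 / 2 < dist (1 : ℂ) ζ
    · rcases sep I (-I) d3 with c | c
      · have := key 1 I (by simp) (by simp) c1 c
        rw [e1, e2] at this
        linarith
      · have := key 1 (-I) (by simp) (by simp) c1 c
        rw [e1, e3] at this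
        linarith
    · have := key I (-I) (by simp) (by simp) ((sep 1 I d1).resolve_left c1)
        ((sep 1 (-I) d2).resolve_left c1)
      rw [e2, e3] at this
      linarith
  have hin : ∀ x ∈ ball (0 : ℂ) 1, ∀ y ∈ ball (0 : ℂ) 1, dist x y < δ →
      dist (Φ x) (Φ y) ≤ ε := by
    intro x hx y hy hxy
    have hs := (halt h Φ H.toCmap x).resolve_right (hfar x)
    rw [← (H.psi_spec hx).2, ← (H.psi_spec hy).2]
    refine (hT h H.adm _ _ (mem_ball_zero_iff.1 (H.psi_spec hx).1).le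
      (mem_ball_zero_iff.1 (H.psi_spec hy).1).le ?_).le
    have := hs x ⟨hx, mem_ball_self hδ⟩ y ⟨hy, by rwa [mem_ball, dist_comm]⟩
    linarith [min_le_left η0 1]
  intro x y hx hy hxy
  have := neBot_ball hx
  have := neBot_ball hy
  refine le_of_tendsto ((((H.cont x (mem_closedBall_zero_iff.2 hx)).mono_left
      (nhdsWithin_mono x ball_subset_closedBall)).comp tendsto_fst).dist
    (((H.cont y (mem_closedBall_zero_iff.2 hy)).mono_left
      (nhdsWithin_mono y ball_subset_closedBall)).comp tendsto_snd)) ?_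
  have e : ∀ᶠ p : ℂ × ℂ in 𝓝[ball (0 : ℂ) 1] x ×ˢ 𝓝[ball (0 : ℂ) 1] y, dist p.1 p.2 < δ :=
    ((tendsto_fst.mono_right nhdsWithin_le_nhds).dist
      (tendsto_snd.mono_right nhdsWithin_le_nhds)).eventually_lt_const hxy
  filter_upwards [e, eventually_mem_nhdsWithin.prod_mk eventually_mem_nhdsWithin] with p hd hp
  exact hin p.1 hp.1 p.2 hp.2 hd

/-- Inverse of a continuous injection of a compact set. -/
lemma continuousOn_invFunOn {K : Set ℂ} (hK : IsCompact K) {f : ℂ → ℂ} (hf : ContinuousOn f K)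
    (hi : InjOn f K) : ContinuousOn (Function.invFunOn f K) (f '' K) := by
  rw [continuousOn_iff_isClosed]
  intro t ht
  refine ⟨f '' (K ∩ t),
    ((hK.inter_right ht).image_of_continuousOn (hf.mono inter_subset_left)).isClosed, ?_⟩
  ext y
  constructor
  · rintro ⟨hy, x, hx, rfl⟩
    refine ⟨⟨x, ⟨hx, ?_⟩, rfl⟩, mem_image_of_mem f hx⟩
    have : Function.invFunOn f K (f x) ∈ t := hy
    rwa [hi.leftInvOn_invFunOn hx] at this
  · rintro ⟨⟨x, ⟨hx, hxt⟩, rfl⟩, hy⟩
    refine ⟨?_, hy⟩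
    rw [mem_preimage, hi.leftInvOn_invFunOn hx]
    exact hxt

/-- The normalised map is unique. -/
theorem Nmap_unique {Φ₁ Φ₂ : ℂ → ℂ} (H₁ : Nmap h Φ₁) (H₂ : Nmap h Φ₂) {x : ℂ} (hx : ‖x‖ ≤ 1) :
    Φ₁ x = Φ₂ x := by
  set σ : ℂ → ℂ := fun x => Function.invFunOn Φ₁ (closedBall 0 1) (Φ₂ x) with hσ
  have him : Φ₂ '' closedBall 0 1 = Φ₁ '' closedBall 0 1 := by
    rw [H₁.image_closed, H₂.image_closed]
  have hσc : ContinuousOn σ (closedBall 0 1) :=
    (continuousOn_invFunOn (isCompact_closedBall _ _) H₁.cont H₁.injOn_closed).comp H₂.cont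
      fun y hy => him.subset (mem_image_of_mem _ hy)
  have hσe : ∀ y ∈ closedBall (0 : ℂ) 1,
      σ y ∈ closedBall (0 : ℂ) 1 ∧ Φ₁ (σ y) = Φ₂ y := fun y hy =>
    ⟨Function.invFunOn_mem (him.subset (mem_image_of_mem _ hy)),
      Function.invFunOn_eq (him.subset (mem_image_of_mem _ hy))⟩
  have hσu : ∀ y ∈ closedBall (0 : ℂ) 1, ∀ v ∈ closedBall (0 : ℂ) 1, Φ₁ v = Φ₂ y → σ y = v :=
    fun y hy v hv he => H₁.injOn_closed (hσe y hy).1 hv ((hσe y hy).2.trans he.symm)
  have hσb : ∀ y ∈ ball (0 : ℂ) 1, σ y ∈ ball (0 : ℂ) 1 := by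
    intro y hy
    obtain ⟨v, hv, he⟩ := (H₁.image.trans H₂.image.symm).symm.subset (mem_image_of_mem Φ₂ hy)
    rw [hσu y (ball_subset_closedBall hy) v (ball_subset_closedBall hv) he]
    exact hv
  set τ : ℂ → ℂ := fun x => Function.invFunOn Φ₂ (ball 0 1) (Φ₁ x) with hτ
  have hτd : DifferentiableOn ℂ τ (ball 0 1) := by
    refine (inv_differentiableOn isOpen_ball H₂.diff H₂.inj fun y hy =>
      H₂.inj.leftInvOn_invFunOn hy).comp H₁.diff fun y hy => ?_
    rw [H₂.image, ← H₁.image]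
    exact mem_image_of_mem _ hy
  have hσd : DifferentiableOn ℂ σ (ball 0 1) := by
    have hd : DifferentiableOn ℂ (Function.invFunOn Φ₁ (closedBall 0 1)) (Φ₁ '' ball 0 1) :=
      inv_differentiableOn isOpen_ball H₁.diff H₁.inj fun y hy =>
        H₁.injOn_closed.leftInvOn_invFunOn (ball_subset_closedBall hy)
    refine hd.comp H₂.diff fun y hy => ?_
    rw [H₁.image, ← H₂.image]
    exact mem_image_of_mem _ hy
  have hτb : ∀ y ∈ ball (0 : ℂ) 1, τ y ∈ ball (0 : ℂ) 1 := fun y hy =>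
    Function.invFunOn_mem ((H₁.image.trans H₂.image.symm).subset (mem_image_of_mem Φ₁ hy))
  have hτσ : ∀ y ∈ ball (0 : ℂ) 1, τ (σ y) = y := fun y hy => by
    rw [hτ]
    simp only [(hσe y (ball_subset_closedBall hy)).2]
    exact H₂.inj.leftInvOn_invFunOn hy
  set b := σ 0 with hb
  have hb1 : ‖b‖ < 1 := mem_ball_zero_iff.1 (hσb 0 (mem_ball_self one_pos))
  have hb1' : ‖-b‖ < 1 := by rwa [norm_neg]
  set M : ℂ → ℂ := fun y => mob b (σ y) with hM
  set N : ℂ → ℂ := fun y => τ (mob (-b) y) with hN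
  have hM0 : M 0 = 0 := by simp [hM, mob, ← hb]
  have hN0 : N 0 = 0 := by
    simp only [hN, mob, zero_sub, neg_neg, mul_zero, sub_zero, div_one]
    exact hτσ 0 (mem_ball_self one_pos)
  have hMd : DifferentiableOn ℂ M (ball 0 1) := (mob_differentiableOn hb1).comp hσd hσb
  have hMm : MapsTo M (ball 0 1) (ball 0 1) := fun y hy => mob_mapsTo hb1 (hσb y hy)
  have hNd : DifferentiableOn ℂ N (ball 0 1) :=
    hτd.comp (mob_differentiableOn hb1') (mob_mapsTo hb1')
  have hNm : MapsTo N (ball 0 1) (ball 0 1) := fun y hy => hτb _ (mob_mapsTo hb1' hy)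
  have hNM : ∀ y ∈ ball (0 : ℂ) 1, N (M y) = y := by
    intro y hy
    have hv := hσb y hy
    have e : mob (-b) (mob b (σ y)) = σ y := by
      have d1 := mob_den hb1 (mem_ball_zero_iff.1 hv).le
      have d2 := mob_den hb1' (norm_mob_lt hb1 (mem_ball_zero_iff.1 hv)).le
      set v := σ y with hvd
      set q := mob b v with hq
      have hqe : q * (1 - conj b * v) = v - b := by
        rw [hq, mob, div_mul_cancel₀ _ d1]
      rw [mob, div_eq_iff d2, map_neg]
      linear_combination hqe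
    simp only [hN, hM, e, hτσ y hy]
  set x0 : ℂ := 1 / 2 with hx0
  have hx0b : x0 ∈ ball (0 : ℂ) 1 := by rw [mem_ball_zero_iff, hx0]; norm_num
  have heq : ‖M x0‖ = ‖x0‖ := by
    refine le_antisymm (norm_le_norm_of_mapsTo_ball hMd
      (hMm.mono_right ball_subset_closedBall) hM0 (mem_ball_zero_iff.1 hx0b)) ?_
    have := norm_le_norm_of_mapsTo_ball hNd (hNm.mono_right ball_subset_closedBall) hN0
      (mem_ball_zero_iff.1 (hMm hx0b))
    rwa [hNM x0 hx0b] at this
  have hslope : ‖dslope M 0 x0‖ = 1 / 1 := by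
    have hne : x0 ≠ 0 := by rw [hx0]; norm_num
    rw [dslope_of_ne _ hne, slope_def_field, hM0, sub_zero, sub_zero, norm_div, heq, div_one,
      div_self (norm_ne_zero_iff.2 hne)]
  obtain ⟨a, -, ha⟩ := affine_of_mapsTo_ball_of_exists_norm_dslope_eq_div' hMd
    (by rw [hM0]; exact hMm.mono_right ball_subset_closedBall) ⟨x0, hx0b, hslope⟩
  have hlin : ∀ y ∈ ball (0 : ℂ) 1, σ y - b = a * y * (1 - conj b * σ y) := by
    intro y hy
    have h2 := ha hy
    simp only [hM0, zero_add, sub_zero, smul_eq_mul, hM, mob] at h2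
    rw [div_eq_iff (mob_den hb1 (mem_ball_zero_iff.1 (hσb y hy)).le)] at h2
    linear_combination h2
  have hlin' : ∀ y ∈ closedBall (0 : ℂ) 1, σ y - b = a * y * (1 - conj b * σ y) := by
    have : EqOn (fun y => σ y - b) (fun y => a * y * (1 - conj b * σ y)) (closedBall 0 1) :=
      Set.EqOn.of_subset_closure (fun y hy => hlin y hy) (hσc.sub continuousOn_const)
        ((continuousOn_const.mul continuousOn_id).mul
          (continuousOn_const.sub (continuousOn_const.mul hσc)))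
        ball_subset_closedBall (by rw [closure_ball _ one_ne_zero])
    exact fun y hy => this hy
  have hmark : ∀ m : ℂ, ‖m‖ ≤ 1 → Φ₁ m = m → Φ₂ m = m → σ m = m := fun m hm e1 e2 =>
    hσu m (mem_closedBall_zero_iff.2 hm) m (mem_closedBall_zero_iff.2 hm) (e1.trans e2.symm)
  have p1 := hlin' 1 (by simp)
  have p2 := hlin' I (by simp)
  have p3 := hlin' (-I) (by simp)
  rw [hmark 1 (by simp) H₁.fix_one H₂.fix_one] at p1
  rw [hmark I (by simp) H₁.fix_I H₂.fix_I] at p2
  rw [hmark (-I) (by simp) H₁.fix_neg_I H₂.fix_neg_I] at p3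
  have ha1 : a = 1 := by
    have : (2 * I) * (1 - a) = 0 := by linear_combination p2 - p3
    rcases mul_eq_zero.1 this with h0 | h0
    · exact absurd h0 (by simp)
    · exact (sub_eq_zero.1 h0).symm
  subst ha1
  have q1 : conj b - b = 0 := by linear_combination p1
  have q2 : -b - conj b = 0 := by linear_combination p2 + (-conj b) * I_sq
  have hb0 : b = 0 := by linear_combination (-1 / 2 : ℂ) * q1 + (-1 / 2 : ℂ) * q2
  have := hlin' x (mem_closedBall_zero_iff.2 hx)
  simp only [hb0, map_zero, zero_mul, sub_zero, mul_one, one_mul] at this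
  have he := (hσe x (mem_closedBall_zero_iff.2 hx)).2
  rwa [this] at he

/-- A normalised map exists. -/
theorem exists_nmap (hh : Adm h) : ∃ Φ, Nmap h Φ := by
  obtain ⟨Φ₀, H₀⟩ := exists_cext hh
  obtain ⟨ω, hω, hωe⟩ : ∃ ω : ℂ, ‖ω‖ = 1 ∧ Φ₀ ω = 1 := by
    obtain ⟨w, hw, he⟩ := H₀.image_closed.symm.subset
      (mem_image_of_mem (T h) (show (1 : ℂ) ∈ closedBall 0 1 by simp))
    rw [T_one] at he
    refine ⟨w, le_antisymm (mem_closedBall_zero_iff.1 hw) (not_lt.1 fun hlt => ?_), he⟩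
    have h2 := (mem_T_ball hh).1 (H₀.image.subset (mem_image_of_mem _ (mem_ball_zero_iff.2 hlt)))
    rw [he] at h2
    simp at h2
  have hω0 : ω ≠ 0 := by intro h0; simp [h0] at hω
  have hrb : MapsTo (fun x => ω * x) (ball (0 : ℂ) 1) (ball 0 1) := fun x hx => by
    simpa [hω] using hx
  have hrc : MapsTo (fun x => ω * x) (closedBall (0 : ℂ) 1) (closedBall 0 1) := fun x hx => by
    simpa [hω] using hx
  have hrimg : (fun x => ω * x) '' ball (0 : ℂ) 1 = ball 0 1 :=
    Subset.antisymm hrb.image_subset fun y hy =>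
      ⟨ω⁻¹ * y, by simpa [hω] using hy, by field_simp⟩
  set Φ₁ : ℂ → ℂ := fun x => Φ₀ (ω * x) with hΦ₁
  have H₁ : Cext h Φ₁ :=
    ⟨⟨hh, H₀.diff.comp (differentiable_id.const_mul ω).differentiableOn hrb,
      H₀.inj.comp (fun x _ y _ hxy => mul_left_cancel₀ hω0 hxy) hrb,
      by rw [show Φ₁ '' ball 0 1 = Φ₀ '' ((fun x => ω * x) '' ball 0 1) by
          rw [image_image], hrimg, H₀.image]⟩,
      H₀.cont.comp (continuous_const.mul continuous_id).continuousOn hrc⟩
  have h11 : Φ₁ 1 = 1 := by simp [hΦ₁, hωe]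
  obtain ⟨xp, hxp⟩ := H₁.u_surjective h11 1
  obtain ⟨xm, hxm⟩ := H₁.u_surjective h11 (-1)
  have hxp' : (fmap Φ₁ xp).re = 1 := hxp
  have hxm' : (fmap Φ₁ xm).re = -1 := hxm
  have hlt : xm < xp := (H₁.u_strictMono h11).lt_iff_lt.1
    (show (fmap Φ₁ xm).re < (fmap Φ₁ xp).re by rw [hxp', hxm']; norm_num)
  set α : ℝ := (xp - xm) / 2 with hα
  set β : ℝ := (xp + xm) / 2 with hβ
  have hα0 : 0 < α := by linarith
  set m : ℂ → ℂ := fun w => ((α : ℂ) * I * (1 + w) + ((β : ℂ) - I) * (1 - w)) /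
    ((α : ℂ) * I * (1 + w) + ((β : ℂ) + I) * (1 - w)) with hm
  have him : ∀ z : ℂ, 0 ≤ z.im → -1 < ((α : ℂ) * z + β).im := fun z hz => by
    simp
    nlinarith [mul_nonneg hα0.le hz]
  have hm1 : m 1 = 1 := by
    simp only [hm, sub_self, mul_zero, add_zero]
    exact div_self (mul_ne_zero (mul_ne_zero (by exact_mod_cast hα0.ne') I_ne_zero) (by norm_num))
  have hmk : ∀ z : ℂ, 0 ≤ z.im → m (kap z) = kap ((α : ℂ) * z + β) := by
    intro z hz
    have hd := add_I_ne (z := z) (by linarith)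
    have hd' := add_I_ne (him z hz)
    have e1 : 1 + kap z = 2 * z / (z + I) := by rw [kap]; field_simp; ring
    simp only [hm, e1, one_sub_kap (z := z) (by linarith)]
    rw [kap, show (α : ℂ) * I * (2 * z / (z + I)) + ((β : ℂ) - I) * (2 * I / (z + I))
        = 2 * I / (z + I) * ((α : ℂ) * z + β - I) by ring,
      show (α : ℂ) * I * (2 * z / (z + I)) + ((β : ℂ) + I) * (2 * I / (z + I))
        = 2 * I / (z + I) * ((α : ℂ) * z + β + I) by ring,
      mul_div_mul_left _ _ (div_ne_zero (by simp) hd)]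
  have hden : ∀ w : ℂ, ‖w‖ ≤ 1 → (α : ℂ) * I * (1 + w) + ((β : ℂ) + I) * (1 - w) ≠ 0 := by
    intro w hw
    rcases cases_disc hw with rfl | ⟨z, hz, rfl⟩
    · simp [hα0.ne']
    · have hd := add_I_ne (z := z) (by linarith)
      have hd' := add_I_ne (him z hz)
      have e1 : 1 + kap z = 2 * z / (z + I) := by rw [kap]; field_simp; ring
      rw [e1, one_sub_kap (z := z) (by linarith)]
      intro h0
      apply hd'
      field_simp at h0
      have h2 : (2 * I) * ((α : ℂ) * z + β + I) = 0 := by linear_combination h0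
      exact (mul_eq_zero.1 h2).resolve_left (by simp)
  have hmd : DifferentiableOn ℂ m (closedBall 0 1) := fun w hw =>
    (DifferentiableAt.div
      (c := fun w => (α : ℂ) * I * (1 + w) + ((β : ℂ) - I) * (1 - w))
      (d := fun w => (α : ℂ) * I * (1 + w) + ((β : ℂ) + I) * (1 - w)) (by fun_prop) (by fun_prop)
      (hden w (mem_closedBall_zero_iff.1 hw))).differentiableWithinAt
  have hmc : MapsTo m (closedBall 0 1) (closedBall 0 1) := by
    intro w hw
    rcases cases_disc (mem_closedBall_zero_iff.1 hw) with rfl | ⟨z, hz, rfl⟩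
    · rw [hm1]; simp
    · rw [hmk z hz, mem_closedBall_zero_iff]
      exact (norm_kap_le_iff (him z hz)).2 (by simp; positivity)
  have hmb : MapsTo m (ball 0 1) (ball 0 1) := by
    intro w hw
    rw [mem_ball_zero_iff] at hw ⊢
    rcases cases_disc hw.le with rfl | ⟨z, hz, rfl⟩
    · simp at hw
    · rw [hmk z hz]
      have := (norm_kap_lt_iff (z := z) (by linarith)).1 hw
      exact (norm_kap_lt_iff (him z hz)).2 (by simp; positivity)
  have hmi : InjOn m (closedBall 0 1) := by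
    intro w hw v hv he
    rcases cases_disc (mem_closedBall_zero_iff.1 hw) with rfl | ⟨z, hz, rfl⟩ <;>
      rcases cases_disc (mem_closedBall_zero_iff.1 hv) with rfl | ⟨y, hy, rfl⟩
    · rfl
    · rw [hm1, hmk y hy] at he
      exact absurd he.symm (kap_ne_one (him y hy))
    · rw [hm1, hmk z hz] at he
      exact absurd he (kap_ne_one (him z hz))
    · rw [hmk z hz, hmk y hy] at he
      have he' := congrArg kinv he
      rw [kinv_kap (him z hz), kinv_kap (him y hy)] at he'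
      have : z = y := mul_left_cancel₀ (by exact_mod_cast hα0.ne') (add_right_cancel he')
      rw [this]
  have hmimg : m '' ball 0 1 = ball 0 1 := by
    refine Subset.antisymm hmb.image_subset fun w hw => ?_
    rw [mem_ball_zero_iff] at hw
    rcases cases_disc hw.le with rfl | ⟨z, hz, rfl⟩
    · simp at hw
    · have hzp := (norm_kap_lt_iff (z := z) (by linarith)).1 hw
      set v : ℂ := (z - β) / (α : ℂ) with hv
      have hvim : 0 < v.im := by
        rw [hv, div_ofReal_im]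
        simp
        positivity
      refine ⟨kap v, mem_ball_zero_iff.2 ((norm_kap_lt_iff (by linarith)).2 hvim), ?_⟩
      rw [hmk v hvim.le, hv]
      congr 1
      have : (α : ℂ) ≠ 0 := by exact_mod_cast hα0.ne'
      field_simp
      ring
  refine ⟨Φ₁ ∘ m, ⟨⟨hh, H₁.diff.comp (hmd.mono ball_subset_closedBall) hmb,
      H₁.inj.comp (hmi.mono ball_subset_closedBall) hmb,
      by rw [image_comp, hmimg, H₁.image]⟩,
      H₁.cont.comp hmd.continuousOn hmc⟩, ?_, ?_, ?_⟩
  · simp [hm1, h11]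
  · have e : ((α : ℂ) * (-1) + β) = (xm : ℂ) := by
      rw [hα, hβ]; push_cast; ring
    rw [Function.comp_apply, ← kap_neg_one, hmk (-1) (by simp), e, ← H₁.kap_fmap h11 (by simp)]
    congr 1
    refine Complex.ext ?_ ?_
    · simpa using hxm'
    · rw [H₁.fmap_real h11, hxm', hh.zero (-1) (by simp)]; simp
  · have e : ((α : ℂ) * 1 + β) = (xp : ℂ) := by
      rw [hα, hβ]; push_cast; ring
    rw [Function.comp_apply, ← kap_one, hmk 1 (by simp), e, ← H₁.kap_fmap h11 (by simp)]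
    congr 1
    refine Complex.ext ?_ ?_
    · simpa using hxp'
    · rw [H₁.fmap_real h11, hxp', hh.zero 1 (by simp)]; simp

/-- A choice of the normalised map. -/
noncomputable def nm (h : ℝ → ℝ) : ℂ → ℂ := Classical.epsilon (Nmap h)

lemma nm_spec (hh : Adm h) : Nmap h (nm h) := Classical.epsilon_spec (exists_nmap hh)

end Vale.Agent.P116
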