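import Mathlib
import Vale.Agent.P371.Lift.ExistsZero

/-!
P116: the Poincare-Miranda theorem on the unit cube, read off from the lattice lemma of P371.
-/

namespace Vale.Agent.P116

open Vale.Agent.P371.Lift

/-- Poincare-Miranda on `[0,1]^n`. -/
theorem poincare_miranda {n : ℕ} (F : Fin n → (Fin n → ℝ) → ℝ)
    (hc : ∀ r, ContinuousOn (F r) {x | ∀ i, x i ∈ Set.Icc (0 : ℝ) 1})
    (h0 : ∀ x : Fin n → ℝ, (∀ i, x i ∈ Set.Icc (0 : ℝ) 1) → ∀ r, x r = 0 → 0 ≤ F r x)
    (h1 : ∀ x : Fin n → ℝ, (∀ i, x i ∈ Set.Icc (0 : ℝ) 1) → ∀ r, x r = 1 → F r x ≤ 0) :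
    ∃ x : Fin n → ℝ, (∀ i, x i ∈ Set.Icc (0 : ℝ) 1) ∧ ∀ r, F r x = 0 := by
  let proj : (Crd (n + 1) → ℝ) → (Fin n → ℝ) := fun p r => p (.inr r)
  have hproj : Continuous proj := continuous_pi fun r => continuous_apply _
  let h : Idx (n + 1) → (Crd (n + 1) → ℝ) → ℝ := fun e p =>
    match e with
    | .inl _ => 0
    | .inr r => F r (proj p)
  obtain ⟨p, hp, hz⟩ := exists_zero (N := n + 1) h
    (fun e => by
      rcases e with q | r
      · exact continuousOn_const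
      · exact (hc r).comp hproj.continuousOn fun p hp i => hp.2.2 i)
    (fun g p _ q => by simp [h])
    (fun g p _ r => rfl)
    (fun p hp r hr => h0 (proj p) (fun i => hp.2.2 i) r hr)
    (fun p hp r hr => h1 (proj p) (fun i => hp.2.2 i) r hr)
  exact ⟨proj p, fun i => hp.2.2 i, fun r => hz (.inr r)⟩

end Vale.Agent.P116
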