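import Vale.Agent.P116.Dep
import Vale.Agent.P116.PM

/-!
P116: finitely many intervals with prescribed end points go to half discs.
-/

open Complex Metric Filter Set Topology
open scoped Real

namespace Vale.Agent.P116

/-- The half circle over `[a, b]`, extended by zero. -/
noncomputable def semi (a b y : ℝ) : ℝ := √(max 0 ((y - a) * (b - y)))

lemma sqrt_sub_le {p q : ℝ} (hp : 0 ≤ p) (hq : 0 ≤ q) : |√p - √q| ≤ √|p - q| := by
  rw [Real.le_sqrt (abs_nonneg _) (abs_nonneg _), sq_abs]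
  have hp' := Real.mul_self_sqrt hp
  have hq' := Real.mul_self_sqrt hq
  rcases le_total q p with h | h
  · rw [abs_of_nonneg (sub_nonneg.2 h)]
    nlinarith [Real.sqrt_nonneg q, Real.sqrt_le_sqrt h]
  · rw [abs_of_nonpos (sub_nonpos.2 h)]
    nlinarith [Real.sqrt_nonneg p, Real.sqrt_le_sqrt h]

lemma semi_zero {a b y : ℝ} (hab : a ≤ b) (h : y ≤ a ∨ b ≤ y) : semi a b y = 0 := by
  rw [semi, max_eq_left, Real.sqrt_zero]
  rcases h with h | h <;> nlinarith

lemma semi_clamp {a b : ℝ} (hab : a ≤ b) (y : ℝ) :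
    max 0 ((y - a) * (b - y)) = (max a (min b y) - a) * (b - max a (min b y)) := by
  rcases le_or_gt y a with h | h
  · rw [min_eq_right (h.trans hab), max_eq_left h, max_eq_left (by nlinarith)]
    ring
  rcases le_or_gt b y with h' | h'
  · rw [min_eq_left h', max_eq_right hab, max_eq_left (by nlinarith)]
    ring
  · rw [min_eq_right h'.le, max_eq_right h.le, max_eq_right (by nlinarith)]

lemma adm_semi {a b : ℝ} (ha : -1 ≤ a) (hab : a ≤ b) (hb : b ≤ 1) : Adm (semi a b) := by
  refine ⟨fun x y => ?_, fun x => Real.sqrt_nonneg _, fun x => ?_, fun x hx => ?_⟩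
  · refine (sqrt_sub_le (le_max_left _ _) (le_max_left _ _)).trans ?_
    rw [semi_clamp hab, semi_clamp hab]
    set c := max a (min b x)
    set d := max a (min b y)
    have hcd : |c - d| ≤ |x - y| := by
      refine (abs_max_sub_max_le_max a (min b x) a (min b y)).trans ?_
      rw [sub_self, abs_zero]
      refine max_le (abs_nonneg _) ((abs_min_sub_min_le_max b x b y).trans ?_)
      rw [sub_self, abs_zero, max_eq_right (abs_nonneg _)]
    have hc : c ∈ Icc a b := ⟨le_max_left _ _, max_le hab (min_le_left _ _)⟩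
    have hd : d ∈ Icc a b := ⟨le_max_left _ _, max_le hab (min_le_left _ _)⟩
    have h2 : |(c - a) * (b - c) - (d - a) * (b - d)| ≤ 4 * |x - y| := by
      rw [show (c - a) * (b - c) - (d - a) * (b - d) = (c - d) * (a + b - c - d) by ring, abs_mul,
        mul_comm (4 : ℝ)]
      refine mul_le_mul hcd (abs_le.2 ?_) (abs_nonneg _) (abs_nonneg _)
      constructor <;> linarith [hc.1, hc.2, hd.1, hd.2]
    refine (Real.sqrt_le_sqrt h2).trans ?_
    rw [Real.sqrt_mul (by norm_num), show (4 : ℝ) = 2 ^ 2 by norm_num,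
      Real.sqrt_sq (by norm_num)]
  · rw [semi, Real.sqrt_le_left (by norm_num)]
    refine max_le (by norm_num) ?_
    nlinarith [sq_nonneg (a + b - 2 * x)]
  · refine semi_zero hab ?_
    rcases le_abs.1 hx with h | h
    · exact .inr (by linarith)
    · exact .inl (by linarith)

lemma semi_param {a b a' b' : ℝ} (ha : -1 ≤ a) (hab : a ≤ b) (hb : b ≤ 1) (ha' : -1 ≤ a')
    (hab' : a' ≤ b') (hb' : b' ≤ 1) (y : ℝ) :
    |semi a b y - semi a' b' y| ≤ √(2 * (|a - a'| + |b - b'|)) := by
  by_cases hy : |y| ≤ 1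
  · refine (sqrt_sub_le (le_max_left _ _) (le_max_left _ _)).trans (Real.sqrt_le_sqrt ?_)
    refine (abs_max_sub_max_le_max _ _ _ _).trans (max_le (by simp; positivity) ?_)
    rw [show (y - a) * (b - y) - (y - a') * (b' - y)
      = (a' - a) * (b - y) + (y - a') * (b - b') by ring]
    refine (abs_add_le _ _).trans ?_
    rw [abs_mul, abs_mul, abs_sub_comm a' a, mul_add]
    obtain ⟨hy1, hy2⟩ := abs_le.1 hy
    have e1 : |b - y| ≤ 2 := abs_le.2 ⟨by linarith, by linarith⟩
    have e2 : |y - a'| ≤ 2 := abs_le.2 ⟨by linarith, by linarith⟩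
    nlinarith [mul_le_mul_of_nonneg_left e1 (abs_nonneg (a - a')),
      mul_le_mul_of_nonneg_right e2 (abs_nonneg (b - b'))]
  · rw [(adm_semi ha hab hb).zero y (le_of_lt (not_le.1 hy)),
      (adm_semi ha' hab' hb').zero y (le_of_lt (not_le.1 hy)), sub_self, abs_zero]
    exact Real.sqrt_nonneg _

/-- The height made of half circles over the runs of `R`. -/
noncomputable def runsH (x : ℕ → ℝ) : List (ℕ × ℕ) → ℝ → ℝ
  | [] => fun _ => 0
  | p :: R => fun y => max (semi (x p.1) (x p.2) y) (runsH x R y)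

lemma adm_runsH {x : ℕ → ℝ} (hm : Monotone x) (hx : ∀ k, x k ∈ Icc (-1 : ℝ) 1) :
    ∀ {R : List (ℕ × ℕ)}, (∀ p ∈ R, p.1 ≤ p.2) → Adm (runsH x R)
  | [], _ => adm_zero
  | p :: R, hR => by
    have h1 := adm_semi (hx p.1).1 (hm (hR p (by simp))) (hx p.2).2
    have h2 := adm_runsH hm hx (R := R) fun q hq => hR q (by simp [hq])
    refine ⟨fun u v => ?_, fun u => le_max_of_le_left (h1.nonneg u),
      fun u => max_le (h1.le_two u) (h2.le_two u), fun u hu => ?_⟩
    · exact (abs_max_sub_max_le_max _ _ _ _).trans (max_le (h1.hold u v) (h2.hold u v))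
    · simp [runsH, h1.zero u hu, h2.zero u hu]

lemma runsH_tendsto {ι : Type*} {l : Filter ι} {xs : ι → ℕ → ℝ} {x : ℕ → ℝ}
    (hm : ∀ i, Monotone (xs i)) (hxs : ∀ i k, xs i k ∈ Icc (-1 : ℝ) 1) (hm' : Monotone x)
    (hx : ∀ k, x k ∈ Icc (-1 : ℝ) 1) (hlim : ∀ k, Tendsto (fun i => xs i k) l (𝓝 (x k))) :
    ∀ {R : List (ℕ × ℕ)}, (∀ p ∈ R, p.1 ≤ p.2) →
      TendstoUniformly (fun i => runsH (xs i) R) (runsH x R) l
  | [], _ => Metric.tendstoUniformly_iff.2 fun ε hε => .of_forall fun i y => by simpa [runsH] using hε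
  | p :: R, hR => by
    have ih := runsH_tendsto hm hxs hm' hx hlim (R := R) fun q hq => hR q (by simp [hq])
    refine Metric.tendstoUniformly_iff.2 fun ε hε => ?_
    have hs : Tendsto (fun i => √(2 * (|x p.1 - xs i p.1| + |x p.2 - xs i p.2|))) l (𝓝 0) := by
      have e := ((((tendsto_const_nhds (x := x p.1)).sub (hlim p.1)).abs.add
        ((tendsto_const_nhds (x := x p.2)).sub (hlim p.2)).abs).const_mul (2 : ℝ)).sqrt
      simpa using e
    filter_upwards [Metric.tendstoUniformly_iff.1 ih ε hε, hs.eventually_lt_const hε]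
      with i h1 h2 y
    rw [Real.dist_eq]
    refine (abs_max_sub_max_le_max _ _ _ _).trans_lt (max_lt ?_ ?_)
    · exact lt_of_le_of_lt (semi_param (hx _).1 (hm' (hR p (by simp))) (hx _).2 (hxs i _).1
        (hm i (hR p (by simp))) (hxs i _).2 y) h2
    · have := h1 y
      rwa [Real.dist_eq] at this

lemma runsH_eq_zero {x : ℕ → ℝ} {y : ℝ} : ∀ {R : List (ℕ × ℕ)},
    (∀ p ∈ R, semi (x p.1) (x p.2) y = 0) → runsH x R y = 0
  | [], _ => rfl
  | p :: R, hR => by
    simp [runsH, hR p (by simp), runsH_eq_zero (R := R) fun q hq => hR q (by simp [hq])]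

lemma runsH_eq_semi {x : ℕ → ℝ} {y : ℝ} {p : ℕ × ℕ} : ∀ {R : List (ℕ × ℕ)}, p ∈ R →
    (∀ q ∈ R, q ≠ p → semi (x q.1) (x q.2) y = 0) → runsH x R y = semi (x p.1) (x p.2) y
  | [], hp, _ => by simp at hp
  | q :: R, hp, hR => by
    by_cases hq : q = p
    · subst hq
      by_cases hmem : q ∈ R
      · simp [runsH, runsH_eq_semi (R := R) hmem fun r hr => hR r (by simp [hr])]
      · simp only [runsH]
        rw [runsH_eq_zero (R := R) fun r hr => hR r (by simp [hr]) fun e => hmem (e ▸ hr)]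
        exact max_eq_left (Real.sqrt_nonneg _)
    · have hmem : p ∈ R := by
        rcases List.mem_cons.1 hp with e | e
        · exact absurd e.symm hq
        · exact e
      simp only [runsH]
      rw [runsH_eq_semi (R := R) hmem fun r hr => hR r (by simp [hr]), hR q (by simp) hq]
      exact max_eq_right (Real.sqrt_nonneg _)

/-- Stick breaking: the gap parameters. -/
noncomputable def ext1 {n : ℕ} (s : Fin n → ℝ) (j : ℕ) : ℝ := if hj : j < n then s ⟨j, hj⟩ else 1

/-- Stick breaking: the nodes. -/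
noncomputable def stick {n : ℕ} (s : Fin n → ℝ) (k : ℕ) : ℝ :=
  1 - 2 * ∏ j ∈ Finset.range k, (1 - ext1 s j)

lemma stick_zero {n : ℕ} (s : Fin n → ℝ) : stick s 0 = -1 := by simp [stick]; norm_num

lemma stick_succ {n : ℕ} (s : Fin n → ℝ) (k : ℕ) :
    stick s (k + 1) = stick s k + ext1 s k * (1 - stick s k) := by
  rw [stick, stick, Finset.prod_range_succ]
  ring

lemma stick_mem {n : ℕ} {s : Fin n → ℝ} (hs : ∀ i, s i ∈ Icc (0 : ℝ) 1) (k : ℕ) :
    stick s k ∈ Icc (-1 : ℝ) 1 ∧ 0 ≤ ext1 s k ∧ ext1 s k ≤ 1 := by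
  have h : ∀ j, 0 ≤ ext1 s j ∧ ext1 s j ≤ 1 := fun j => by
    rw [ext1]
    split
    · exact hs _
    · exact ⟨zero_le_one, le_rfl⟩
  have h0 : 0 ≤ ∏ j ∈ Finset.range k, (1 - ext1 s j) :=
    Finset.prod_nonneg fun j _ => by linarith [(h j).2]
  have h1 : ∏ j ∈ Finset.range k, (1 - ext1 s j) ≤ 1 :=
    Finset.prod_le_one (fun j _ => by linarith [(h j).2]) fun j _ => by linarith [(h j).1]
  exact ⟨⟨by rw [stick]; linarith, by rw [stick]; linarith⟩, h k⟩

lemma stick_mono {n : ℕ} {s : Fin n → ℝ} (hs : ∀ i, s i ∈ Icc (0 : ℝ) 1) : Monotone (stick s) :=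
  monotone_nat_of_le_succ fun k => by
    obtain ⟨⟨-, h1⟩, h2, -⟩ := stick_mem hs k
    rw [stick_succ]
    nlinarith

lemma stick_last {n : ℕ} (s : Fin n → ℝ) : stick s (n + 1) = 1 := by
  rw [stick_succ]
  simp [ext1]

lemma stick_cont {n : ℕ} (k : ℕ) : Continuous fun s : Fin n → ℝ => stick s k := by
  refine continuous_const.sub (continuous_const.mul (continuous_finsetProd _ fun j _ => ?_))
  by_cases hj : j < n <;> simp [ext1, hj] <;> fun_prop

/-- Finitely many runs between prescribed nodes go to half discs. -/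
theorem finite_runs {n : ℕ} {t : ℕ → ℝ} (ht0 : t 0 = -1) (htn : t (n + 1) = 1)
    (htm : ∀ k ≤ n, t k < t (k + 1)) {R : List (ℕ × ℕ)} (hR : ∀ p ∈ R, p.1 ≤ p.2) :
    ∃ x : ℕ → ℝ, Monotone x ∧ (∀ k, x k ∈ Icc (-1 : ℝ) 1) ∧
      ∀ k ≤ n + 1, uh (runsH x R) (t k) = x k := by
  set B : Set (Fin n → ℝ) := {s | ∀ i, s i ∈ Icc (0 : ℝ) 1} with hB
  let H : (Fin n → ℝ) → ℝ → ℝ := fun s => runsH (stick s) R
  have hA : ∀ s ∈ B, Adm (H s) := fun s hs =>
    adm_runsH (stick_mono hs) (fun k => (stick_mem hs k).1) hR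
  let τ : ℕ → (Fin n → ℝ) → ℝ := fun k s => Function.invFun (uh (H s)) (stick s k)
  have hτe : ∀ k, ∀ s ∈ B, uh (H s) (τ k s) = stick s k := fun k s hs =>
    Function.invFun_eq (uh_surjective (hA s hs) _)
  have hτI : ∀ k, ∀ s ∈ B, τ k s ∈ Icc (-1 : ℝ) 1 := by
    intro k s hs
    have hmono := uh_strictMono (hA s hs)
    obtain ⟨⟨a, b⟩, -⟩ := stick_mem hs k
    constructor <;> rw [← hmono.le_iff_le, hτe k s hs]
    · rwa [uh_neg_one (hA s hs)]
    · rwa [uh_one (hA s hs)]
  have hτc : ∀ k, ContinuousOn (τ k) B := by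
    intro k s hs
    rw [ContinuousWithinAt, tendsto_iff_seq_tendsto]
    intro ss hss
    rw [tendsto_nhdsWithin_iff] at hss
    obtain ⟨hss1, hss2⟩ := hss
    obtain ⟨N, hN⟩ := eventually_atTop.1 hss2
    rw [← tendsto_add_atTop_iff_nat N]
    have hin : ∀ i, ss (i + N) ∈ B := fun i => hN _ (Nat.le_add_left N i)
    refine tendsto_of_subseq_tendsto fun ns hns => ?_
    obtain ⟨v, -, φ, hφ, hv⟩ := (isCompact_Icc (a := (-1 : ℝ)) (b := 1)).tendsto_subseq
      (x := fun i => τ k (ss (ns i + N))) (fun i => hτI k _ (hin _))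
    refine ⟨φ, ?_⟩
    have hss' : Tendsto (fun i => ss (ns (φ i) + N)) atTop (𝓝 s) :=
      hss1.comp ((tendsto_add_atTop_nat N).comp (hns.comp hφ.tendsto_atTop))
    have hst : ∀ j, Tendsto (fun i => stick (ss (ns (φ i) + N)) j) atTop (𝓝 (stick s j)) :=
      fun j => ((stick_cont j).tendsto s).comp hss'
    have h1 := tendsto_uh (hA s hs) (fun i => hA _ (hin (ns (φ i))))
      (runsH_tendsto (fun i => stick_mono (hin _)) (fun i j => (stick_mem (hin _) j).1)
        (stick_mono hs) (fun j => (stick_mem hs j).1) hst hR) hv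
    have h2 : uh (H s) v = stick s k :=
      tendsto_nhds_unique h1 ((hst k).congr fun i => (hτe k _ (hin _)).symm)
    have h3 : τ k s = v := (uh_strictMono (hA s hs)).injective ((hτe k s hs).trans h2.symm)
    rw [h3]
    exact hv
  let σ : ℕ → ℝ := fun j => (t (j + 1) - t j) / (1 - t j)
  have ht1 : ∀ d j, j + d = n + 1 → t j ≤ 1 ∧ (d ≠ 0 → t j < 1) := by
    intro d
    induction d with
    | zero => intro j hj; rw [add_zero] at hj; rw [hj, htn]; simp
    | succ d ih =>
      intro j hj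
      have h1 := htm j (by omega)
      have h2 := (ih (j + 1) (by omega)).1
      exact ⟨by linarith, fun _ => by linarith⟩
  have hlt : ∀ j ≤ n, t j < 1 := fun j hj => (ht1 (n + 1 - j) j (by omega)).2 (by omega)
  have hσ : ∀ j ≤ n, 0 ≤ σ j ∧ σ j ≤ 1 := by
    intro j hj
    have h0 := hlt j hj
    have h1 := htm j hj
    have h2 := (ht1 (n - j) (j + 1) (by omega)).1
    exact ⟨div_nonneg (by linarith) (by linarith), (div_le_one (by linarith)).2 (by linarith)⟩
  let F : Fin n → (Fin n → ℝ) → ℝ := fun r s =>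
    σ r * (1 - τ r s) - (τ (r + 1) s - τ r s)
  obtain ⟨s, hs, hz⟩ := poincare_miranda F
    (fun r => (continuousOn_const.mul (continuousOn_const.sub (hτc r))).sub
      ((hτc (r + 1)).sub (hτc r)))
    (fun s hs r hr => by
      have e : τ (r + 1) s = τ r s := by
        simp only [τ]
        rw [stick_succ]
        simp [ext1, hr]
      simp only [F, e, sub_self, sub_zero]
      exact mul_nonneg (hσ r r.2.le).1 (by linarith [(hτI r s hs).2]))
    (fun s hs r hr => by
      have e : τ (r + 1) s = 1 := by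
        apply (uh_strictMono (hA s hs)).injective
        rw [hτe _ s hs, uh_one (hA s hs), stick_succ]
        simp [ext1, hr]
      simp only [F, e]
      nlinarith [(hσ r r.2.le).2, (hτI r s hs).2])
  have hall : ∀ k ≤ n, τ k s = t k := by
    intro k
    induction k with
    | zero =>
      intro _
      apply (uh_strictMono (hA s hs)).injective
      rw [hτe 0 s hs, ht0, uh_neg_one (hA s hs), stick_zero]
    | succ k ih =>
      intro hk
      have h0 := hz ⟨k, by omega⟩
      simp only [F, ih (by omega)] at h0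
      have h1 := hlt k (by omega)
      have e : σ k * (1 - t k) = t (k + 1) - t k := div_mul_cancel₀ _ (by linarith)
      linarith
  refine ⟨stick s, stick_mono hs, fun k => (stick_mem hs k).1, fun k hk => ?_⟩
  rcases Nat.lt_or_ge k (n + 1) with h | h
  · rw [← hall k (by omega)]
    exact hτe k s hs
  · rw [show k = n + 1 by omega, htn, uh_one (adm_runsH (stick_mono hs)
      (fun j => (stick_mem hs j).1) hR), stick_last]

end Vale.Agent.P116
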