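import Vale.Agent.P116.Finite

/-!
P116: exhaustion of a compact subset of the line by finitely many grid runs, and the limit map onto
the complement of a union of discs and points.
-/

open Complex Metric Filter Set Topology
open scoped Real ComplexConjugate

namespace Vale.Agent.P116

/-- Grid nodes. -/
noncomputable def node (n k : ℕ) : ℝ := -1 + 2 * k / (n + 1)

lemma node_mono (n : ℕ) : StrictMono (node n) := fun i j h => by
  have : (i : ℝ) < j := by exact_mod_cast h
  unfold node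
  gcongr

lemma node_zero (n : ℕ) : node n 0 = -1 := by simp [node]

lemma node_last (n : ℕ) : node n (n + 1) = 1 := by
  rw [node]
  push_cast
  field_simp
  ring

lemma node_succ (n k : ℕ) : node n (k + 1) = node n k + 2 / (n + 1) := by
  rw [node, node]
  push_cast
  ring

lemma exists_cell (n : ℕ) {x : ℝ} (hx : x ∈ Ioo (-1 : ℝ) 1) :
    ∃ k ≤ n, node n k ≤ x ∧ x ≤ node n (k + 1) := by
  have hpos : (0 : ℝ) < n + 1 := by positivity
  set q := (x + 1) * (n + 1) / 2 with hq
  have hq0 : 0 ≤ q := div_nonneg (mul_nonneg (by linarith [hx.1]) hpos.le) two_pos.le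
  have h1 := Nat.floor_le hq0
  have h2 := Nat.lt_floor_add_one q
  have hlt : ⌊q⌋₊ < n + 1 := by
    rw [Nat.floor_lt hq0, hq, div_lt_iff₀ two_pos]
    push_cast
    nlinarith [hx.2]
  refine ⟨⌊q⌋₊, by omega, ?_, ?_⟩
  · rw [node, ← sub_nonneg, show x - (-1 + 2 * (⌊q⌋₊ : ℝ) / (n + 1))
      = 2 * (q - ⌊q⌋₊) / (n + 1) by rw [hq]; field_simp; ring]
    exact div_nonneg (by linarith) hpos.le
  · rw [node, ← sub_nonneg, show (-1 + 2 * ((⌊q⌋₊ + 1 : ℕ) : ℝ) / (n + 1)) - x
      = 2 * ((⌊q⌋₊ : ℝ) + 1 - q) / (n + 1) by rw [hq]; push_cast; field_simp; ring]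
    exact div_nonneg (by linarith) hpos.le

/-- A cell meeting `K`. -/
def Sel (K : Set ℝ) (n k : ℕ) : Prop := ∃ y ∈ K, y ∈ Icc (node n k) (node n (k + 1))

/-- A maximal run of selected cells. -/
def IsRun (K : Set ℝ) (n : ℕ) (p : ℕ × ℕ) : Prop :=
  p.1 < p.2 ∧ p.2 ≤ n + 1 ∧ (∀ k, p.1 ≤ k → k < p.2 → Sel K n k) ∧
    (p.1 = 0 ∨ ¬Sel K n (p.1 - 1)) ∧ (p.2 = n + 1 ∨ ¬Sel K n p.2)

open Classical in
/-- The list of maximal runs. -/
noncomputable def runs (K : Set ℝ) (n : ℕ) : List (ℕ × ℕ) :=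
  ((Finset.range (n + 2) ×ˢ Finset.range (n + 2)).filter (IsRun K n)).toList

lemma mem_runs {K : Set ℝ} {n : ℕ} {p : ℕ × ℕ} : p ∈ runs K n ↔ IsRun K n p := by
  classical
  simp only [runs, Finset.mem_toList, Finset.mem_filter, Finset.mem_product, Finset.mem_range]
  exact ⟨fun h => h.2, fun h => ⟨⟨by have := h.1; have := h.2.1; omega,
    by have := h.2.1; omega⟩, h⟩⟩

lemma runs_disjoint {K : Set ℝ} {n : ℕ} {p q : ℕ × ℕ} (hp : IsRun K n p) (hq : IsRun K n q)
    (hne : q ≠ p) : q.2 ≤ p.1 ∨ p.2 ≤ q.1 := by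
  obtain ⟨p0, p1, p2, p3, p4⟩ := hp
  obtain ⟨q0, q1, q2, q3, q4⟩ := hq
  by_contra h
  push Not at h
  have e1 : p.1 = q.1 := by
    rcases lt_trichotomy p.1 q.1 with hl | hl | hl
    · exact absurd (p2 (q.1 - 1) (by omega) (by omega)) (q3.resolve_left (by omega))
    · exact hl
    · exact absurd (q2 (p.1 - 1) (by omega) (by omega)) (p3.resolve_left (by omega))
  have e2 : p.2 = q.2 := by
    rcases lt_trichotomy p.2 q.2 with hl | hl | hl
    · exact absurd (q2 p.2 (by omega) hl) (p4.resolve_left (by omega))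
    · exact hl
    · exact absurd (p2 q.2 (by omega) hl) (q4.resolve_left (by omega))
  exact hne (Prod.ext e1.symm e2.symm)

lemma exists_run {K : Set ℝ} {n k : ℕ} (hk : k ≤ n) (hs : Sel K n k) :
    ∃ p, IsRun K n p ∧ p.1 ≤ k ∧ k < p.2 := by
  classical
  have hex1 : ∃ i, i ≤ k ∧ ∀ m, i ≤ m → m ≤ k → Sel K n m :=
    ⟨k, le_rfl, fun m h1 h2 => by rwa [show m = k by omega]⟩
  have hex2 : ∃ j, k < j ∧ (j = n + 1 ∨ ¬Sel K n j) := ⟨n + 1, by omega, .inl rfl⟩
  obtain ⟨i1, i2⟩ := Nat.find_spec hex1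
  obtain ⟨j1, j2⟩ := Nat.find_spec hex2
  have hj : Nat.find hex2 ≤ n + 1 := Nat.find_le ⟨by omega, .inl rfl⟩
  refine ⟨(Nat.find hex1, Nat.find hex2), ⟨by simp only; omega, hj, fun m hm1 hm2 => ?_, ?_, j2⟩,
    i1, j1⟩
  · rcases le_or_gt m k with h | h
    · exact i2 m hm1 h
    · by_contra hc
      exact Nat.find_min hex2 hm2 ⟨h, .inr hc⟩
  · by_contra hc
    push Not at hc
    obtain ⟨h0, h1⟩ := hc
    refine Nat.find_min hex1 (show Nat.find hex1 - 1 < Nat.find hex1 by simp only at h0; omega)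
      ⟨by omega, fun m hm1 hm2 => ?_⟩
    rcases eq_or_ne m (Nat.find hex1 - 1) with rfl | hm
    · exact h1
    · exact i2 m (by omega) hm2

lemma near_of_sel {K : Set ℝ} {n k : ℕ} {x : ℝ} (hs : Sel K n k)
    (hx : x ∈ Icc (node n k) (node n (k + 1))) : ∃ y ∈ K, |y - x| ≤ 2 / (n + 1) := by
  obtain ⟨y, hy, hy'⟩ := hs
  rw [node_succ] at hx hy'
  exact ⟨y, hy, abs_le.2 ⟨by linarith [hx.2, hy'.1], by linarith [hx.1, hy'.2]⟩⟩

lemma no_run_across {K : Set ℝ} {x δ : ℝ} (hfar : ∀ y ∈ K, δ ≤ |y - x|) {n : ℕ}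
    (hn : 2 / ((n : ℝ) + 1) < δ) {p : ℕ × ℕ} (hp : IsRun K n p)
    (h1 : node n p.1 < x) (h2 : x < node n p.2) : False := by
  have hx : x ∈ Ioo (-1 : ℝ) 1 := by
    refine ⟨lt_of_le_of_lt ?_ h1, lt_of_lt_of_le h2 ?_⟩
    · rw [← node_zero n]; exact (node_mono n).monotone (Nat.zero_le _)
    · rw [← node_last n]; exact (node_mono n).monotone hp.2.1
  obtain ⟨k, -, hk1, hk2⟩ := exists_cell n hx
  have a1 : p.1 < k + 1 := (node_mono n).lt_iff_lt.1 (lt_of_lt_of_le h1 hk2)
  have a2 : k < p.2 := (node_mono n).lt_iff_lt.1 (lt_of_le_of_lt hk1 h2)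
  obtain ⟨y, hy, hy'⟩ := near_of_sel (hp.2.2.1 k (by omega) a2) ⟨hk1, hk2⟩
  linarith [hfar y hy]

lemma far_of_notMem {K : Set ℝ} (hK : IsCompact K) {x : ℝ} (hx : x ∉ K) :
    ∃ δ > 0, ∀ y ∈ K, δ ≤ |y - x| := by
  obtain ⟨δ, hδ, hsub⟩ := Metric.isOpen_iff.1 hK.isClosed.isOpen_compl x hx
  exact ⟨δ, hδ, fun y hy => not_lt.1 fun h => hsub (by rwa [mem_ball, Real.dist_eq]) hy⟩

/-- A component of `K`. -/
structure Comp (K : Set ℝ) (a b : ℝ) : Prop where
  le : a ≤ b
  sub : Icc a b ⊆ K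
  left : ∀ ε > 0, ∃ y, y ∉ K ∧ a - ε < y ∧ y < a
  right : ∀ ε > 0, ∃ y, y ∉ K ∧ b < y ∧ y < b + ε

lemma exists_comp {K : Set ℝ} (hK : IsCompact K) {x : ℝ} (hx : x ∈ K) :
    ∃ a b, Comp K a b ∧ x ∈ Icc a b := by
  set C := connectedComponentIn K x
  have hC : IsConnected C := ⟨⟨x, mem_connectedComponentIn hx⟩, isPreconnected_connectedComponentIn⟩
  have hsub : C ⊆ K := connectedComponentIn_subset K x
  have hCcl : IsClosed C := by
    refine closure_subset_iff_isClosed.1 (IsPreconnected.subset_connectedComponentIn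
      hC.isPreconnected.closure (subset_closure (mem_connectedComponentIn hx))
      (closure_minimal hsub hK.isClosed))
  have hCc : IsCompact C := hK.of_isClosed_subset hCcl hsub
  have he := eq_Icc_of_connected_compact hC hCc
  set a := sInf C
  set b := sSup C
  have hxab : x ∈ Icc a b := he ▸ mem_connectedComponentIn hx
  have hab : a ≤ b := hxab.1.trans hxab.2
  refine ⟨a, b, ⟨hab, he ▸ hsub, fun ε hε => ?_, fun ε hε => ?_⟩, hxab⟩
  · by_contra hc
    push Not at hc
    have hK' : Icc (a - ε / 2) b ⊆ K := by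
      intro y hy
      rcases lt_or_ge y a with h | h
      · by_contra hy'
        linarith [hc y hy' (by linarith [hy.1])]
      · exact hsub (he ▸ ⟨h, hy.2⟩)
    have h2 : Icc (a - ε / 2) b ⊆ C :=
      isPreconnected_Icc.subset_connectedComponentIn ⟨by linarith [hxab.1], hxab.2⟩ hK'
    have h3 := h2 (left_mem_Icc.2 (by linarith))
    rw [he] at h3
    linarith [h3.1]
  · by_contra hc
    push Not at hc
    have hK' : Icc a (b + ε / 2) ⊆ K := by
      intro y hy
      rcases le_or_gt y b with h | h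
      · exact hsub (he ▸ ⟨hy.1, h⟩)
      · by_contra hy'
        linarith [hc y hy' h, hy.2]
    have h2 : Icc a (b + ε / 2) ⊆ C :=
      isPreconnected_Icc.subset_connectedComponentIn ⟨hxab.1, by linarith [hxab.2]⟩ hK'
    have h3 := h2 (right_mem_Icc.2 (by linarith))
    rw [he] at h3
    linarith [h3.2]

/-- The limit height: zero over the gaps, a half circle over every component. -/
theorem exists_height {K : Set ℝ} (hK : IsCompact K) (hK1 : K ⊆ Ioo (-1 : ℝ) 1) :
    ∃ h, Adm h ∧ (∀ x ∉ K, h (uh h x) = 0) ∧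
      ∀ a b, Comp K a b → ∀ x ∈ Icc a b,
        h (uh h x) = semi (uh h a) (uh h b) (uh h x) := by
  have hex : ∀ n, ∃ x : ℕ → ℝ, Monotone x ∧ (∀ k, x k ∈ Icc (-1 : ℝ) 1) ∧
      ∀ k ≤ n + 1, uh (runsH x (runs K n)) (node n k) = x k := fun n =>
    finite_runs (node_zero n) (node_last n) (fun k _ => node_mono n (Nat.lt_succ_self k))
      fun p hp => (mem_runs.1 hp).1.le
  choose xs hxm hxI hxe using hex
  have hA : ∀ n, Adm (runsH (xs n) (runs K n)) := fun n =>
    adm_runsH (hxm n) (hxI n) fun p hp => (mem_runs.1 hp).1.le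
  obtain ⟨φ, h, hφ, hh, hu⟩ := adm_subseq hA
  have hmesh : Tendsto (fun n => 2 / ((φ n : ℝ) + 1)) atTop (𝓝 0) := by
    have := (tendsto_one_div_add_atTop_nhds_zero_nat.comp hφ.tendsto_atTop).const_mul (2 : ℝ)
    simpa [Function.comp_def, mul_one_div, div_eq_mul_inv] using this
  have hconv : ∀ x, Tendsto (fun n => runsH (xs (φ n)) (runs K (φ n))
      (uh (runsH (xs (φ n)) (runs K (φ n))) x)) atTop (𝓝 (h (uh h x))) := fun x =>
    hu.tendsto_comp hh.continuous.continuousAt
      (tendsto_uh hh (fun n => hA (φ n)) hu tendsto_const_nhds)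
  refine ⟨h, hh, fun x hx => ?_, fun a b hab x hx => ?_⟩
  · obtain ⟨δ, hδ, hfar⟩ := far_of_notMem hK hx
    refine tendsto_nhds_unique (hconv x) (tendsto_const_nhds.congr' ?_)
    filter_upwards [hmesh.eventually_lt_const hδ] with n hn
    refine (runsH_eq_zero fun p hp => ?_).symm
    have hr := mem_runs.1 hp
    have hmono := uh_strictMono (hA (φ n))
    have e1 := hxe (φ n) p.1 (by have := hr.1; have := hr.2.1; omega)
    have e2 := hxe (φ n) p.2 hr.2.1
    refine semi_zero (hxm (φ n) hr.1.le) ?_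
    by_contra hc
    push Not at hc
    rw [← e1, ← e2] at hc
    exact no_run_across hfar hn hr (hmono.lt_iff_lt.1 hc.1) (hmono.lt_iff_lt.1 hc.2)
  · have hxK : x ∈ K := hab.sub hx
    have ha1 : -1 < a := (hK1 (hab.sub (left_mem_Icc.2 hab.le))).1
    have hb1 : b < 1 := (hK1 (hab.sub (right_mem_Icc.2 hab.le))).2
    have hp : ∀ n, ∃ p, IsRun K (φ n) p ∧ node (φ n) p.1 ≤ a ∧ b ≤ node (φ n) p.2 := by
      intro n
      obtain ⟨k, hk, hk1, hk2⟩ := exists_cell (φ n) (hK1 hxK)
      obtain ⟨p, hp, hp1, hp2⟩ := exists_run hk ⟨x, hxK, hk1, hk2⟩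
      refine ⟨p, hp, ?_, ?_⟩
      · by_contra hc
        push Not at hc
        have hle : node (φ n) p.1 ≤ x := ((node_mono _).monotone hp1).trans hk1
        have hi0 : p.1 ≠ 0 := fun h0 => by
          rw [h0, node_zero] at hc
          linarith
        refine (hp.2.2.2.1.resolve_left hi0)
          ⟨node (φ n) p.1, hab.sub ⟨hc.le, hle.trans hx.2⟩, (node_mono _).monotone (Nat.sub_le _ _),
            ?_⟩
        rw [Nat.sub_add_cancel (Nat.pos_of_ne_zero hi0)]
      · by_contra hc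
        push Not at hc
        have hle : x ≤ node (φ n) p.2 :=
          hk2.trans ((node_mono _).monotone (Nat.succ_le_of_lt hp2))
        have hj : p.2 ≠ φ n + 1 := fun h0 => by
          rw [h0, node_last] at hc
          linarith
        exact (hp.2.2.2.2.resolve_left hj) ⟨node (φ n) p.2, hab.sub ⟨hx.1.trans hle, hc.le⟩,
          le_rfl, (node_mono _).monotone (Nat.le_succ _)⟩
    choose p hp hpa hpb using hp
    have hta : Tendsto (fun n => node (φ n) (p n).1) atTop (𝓝 a) := by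
      refine Metric.tendsto_nhds.2 fun ε hε => ?_
      obtain ⟨y, hyK, hy1, hy2⟩ := hab.left ε hε
      obtain ⟨δ, hδ, hfar⟩ := far_of_notMem hK hyK
      filter_upwards [hmesh.eventually_lt_const hδ] with n hn
      have : y ≤ node (φ n) (p n).1 := not_lt.1 fun hc =>
        no_run_across hfar hn (hp n) hc (lt_of_lt_of_le (lt_of_lt_of_le hy2 hab.le) (hpb n))
      rw [Real.dist_eq, abs_lt]
      constructor <;> linarith [hpa n]
    have htb : Tendsto (fun n => node (φ n) (p n).2) atTop (𝓝 b) := by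
      refine Metric.tendsto_nhds.2 fun ε hε => ?_
      obtain ⟨y, hyK, hy1, hy2⟩ := hab.right ε hε
      obtain ⟨δ, hδ, hfar⟩ := far_of_notMem hK hyK
      filter_upwards [hmesh.eventually_lt_const hδ] with n hn
      have : node (φ n) (p n).2 ≤ y := not_lt.1 fun hc =>
        no_run_across hfar hn (hp n) (lt_of_le_of_lt ((hpa n).trans hab.le) hy1) hc
      rw [Real.dist_eq, abs_lt]
      constructor <;> linarith [hpb n]
    have l1 := tendsto_uh hh (fun n => hA (φ n)) hu hta
    have l2 := tendsto_uh hh (fun n => hA (φ n)) hu htb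
    have l3 := tendsto_uh hh (fun n => hA (φ n)) hu (tendsto_const_nhds (x := x))
    have l4 := (((tendsto_const_nhds (x := (0 : ℝ))).max
      ((l3.sub l1).mul (l2.sub l3)))).sqrt
    refine tendsto_nhds_unique (hconv x) (l4.congr fun n => ?_)
    have hr := hp n
    have hmono := uh_strictMono (hA (φ n))
    have e1 := hxe (φ n) (p n).1 (by have := hr.1; have := hr.2.1; omega)
    have e2 := hxe (φ n) (p n).2 hr.2.1
    rw [runsH_eq_semi (p := p n) (mem_runs.2 hr), semi, ← e1, ← e2]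
    intro q hq hne
    have hq' := mem_runs.1 hq
    have f1 := hxe (φ n) q.1 (by have := hq'.1; have := hq'.2.1; omega)
    have f2 := hxe (φ n) q.2 hq'.2.1
    refine semi_zero (hxm (φ n) hq'.1.le) ?_
    rw [← f1, ← f2]
    rcases runs_disjoint hr hq' hne with hd | hd
    · exact .inr (hmono.monotone ((((node_mono _).monotone hd).trans (hpa n)).trans hx.1))
    · exact .inl (hmono.monotone ((hx.2.trans (hpb n)).trans ((node_mono _).monotone hd)))

lemma mem_ball_iff {p q : ℝ} (hpq : p ≤ q) {v : ℂ} :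
    v ∈ closedBall (((p + q) / 2 : ℝ) : ℂ) ((q - p) / 2) ↔
      v.re ∈ Icc p q ∧ |v.im| ≤ semi p q v.re := by
  rw [mem_closedBall, dist_eq, ← sq_le_sq₀ (norm_nonneg _) (by linarith), ← normSq_eq_norm_sq,
    normSq_apply, semi, Real.le_sqrt (abs_nonneg _) (le_max_left _ _), sq_abs]
  simp only [sub_re, sub_im, ofReal_re, ofReal_im, sub_zero, mem_Icc]
  constructor
  · intro h
    have h1 : p ≤ v.re ∧ v.re ≤ q := by
      constructor <;> nlinarith [mul_self_nonneg v.im]
    exact ⟨h1, le_max_of_le_right (by nlinarith)⟩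
  · rintro ⟨⟨h1, h2⟩, h3⟩
    rw [max_eq_right (mul_nonneg (by linarith) (by linarith))] at h3
    nlinarith

/-- Koebe's conjecture for Denjoy domains, normalised to the interval. -/
theorem denjoy_unit {K : Set ℝ} (hK : IsCompact K) (hK1 : K ⊆ Ioo (-1 : ℝ) 1) :
    ∃ (E : Set ℂ) (F : ℂ → ℂ), IsCompact E ∧
      DifferentiableOn ℂ F {z : ℂ | z.im = 0 ∧ z.re ∈ K}ᶜ ∧
      BijOn F {z : ℂ | z.im = 0 ∧ z.re ∈ K}ᶜ Eᶜ ∧
      Tendsto F (cocompact ℂ) (cocompact ℂ) ∧
      ∀ w ∈ E, ∃ (c : ℂ) (r : ℝ), 0 ≤ r ∧ connectedComponentIn E w = closedBall c r := by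
  obtain ⟨h, hh, hgap, hcomp⟩ := exists_height hK hK1
  set u := uh h with hu
  have H : Cext h (nm h) := (nm_spec hh).toCext
  have h1 : nm h 1 = 1 := (nm_spec hh).fix_one
  have humono : StrictMono u := uh_strictMono hh
  have hreal : ∀ x : ℝ, fh h x = ⟨u x, h (u x)⟩ := fun x =>
    Complex.ext rfl (H.fmap_real h1 x)
  set E : Set ℂ := {w | w.re ∈ u '' K ∧ |w.im| ≤ h w.re} with hE
  set Z : Set ℂ := {z : ℂ | z.im = 0 ∧ z.re ∈ K}
  have huK : IsCompact (u '' K) := hK.image (uh_continuous hh)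
  have hEc : IsCompact E := by
    refine Metric.isCompact_of_isClosed_isBounded
      ((huK.isClosed.preimage continuous_re).inter
        (isClosed_le continuous_im.abs (hh.continuous.comp continuous_re))) ?_
    obtain ⟨M, hM⟩ := huK.isBounded.exists_norm_le
    refine isBounded_iff_forall_norm_le.2 ⟨M + 2, fun w hw => ?_⟩
    have h1' := hM w.re hw.1
    rw [Real.norm_eq_abs] at h1'
    linarith [norm_le_abs_re_add_abs_im w, hw.2, hh.le_two w.re]
  have hcont : ContinuousOn (fh h) {z | 0 ≤ z.im} := H.fmap_cont h1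
  have hzero : ∀ z ∈ Zᶜ, z.im = 0 → fh h z = (u z.re : ℂ) ∧ u z.re ∉ u '' K := by
    intro z hz h0
    have hx : z.re ∉ K := fun hx => hz ⟨h0, hx⟩
    refine ⟨?_, fun ⟨y, hy, he⟩ => hx (humono.injective he ▸ hy)⟩
    rw [show z = (z.re : ℂ) from Complex.ext rfl (by simp [h0]), hreal]
    exact Complex.ext (by simp) (by simp [hgap _ hx])
  have hpos : ∀ z : ℂ, 0 < z.im → h (fh h z).re < (fh h z).im := fun z hz => H.fmap_upper hz
  have hsym : ∀ z ∈ Zᶜ, conj z ∈ Zᶜ := fun z hz hc => hz (by simpa [Z] using hc)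
  have hZo : IsOpen Zᶜ :=
    ((isClosed_eq continuous_im continuous_const).inter
      (hK.isClosed.preimage continuous_re)).isOpen_compl
  have hsign : ∀ z ∈ Zᶜ, (0 < z.im → 0 < (refl (fh h) z).im) ∧
      (z.im = 0 → (refl (fh h) z).im = 0) ∧ (z.im < 0 → (refl (fh h) z).im < 0) := by
    intro z hz
    refine ⟨fun hp => ?_, fun h0 => ?_, fun hn => ?_⟩
    · rw [refl_of_nonneg hp.le]
      exact lt_of_le_of_lt (hh.nonneg _) (hpos z hp)
    · rw [refl_of_nonneg h0.ge, (hzero z hz h0).1, ofReal_im]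
    · rw [refl_of_neg hn, conj_im, neg_lt_zero]
      exact lt_of_le_of_lt (hh.nonneg _) (hpos _ (by simpa using hn))
  refine ⟨E, refl (fh h), hEc, refl_differentiableOn hZo hsym (hcont.mono inter_subset_right)
    (fun z _ hz => H.fmap_diff h1 hz) (fun z hz h0 => by rw [(hzero z hz h0).1, ofReal_im]),
    ⟨?_, ?_, ?_⟩, ?_, ?_⟩
  · intro z hz
    rcases lt_trichotomy z.im 0 with hn | h0 | hp
    · rw [refl_of_neg hn]
      rintro ⟨-, him⟩
      rw [conj_re, conj_im, abs_neg] at him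
      linarith [hpos (conj z) (by simpa using hn), le_abs_self (fh h (conj z)).im]
    · rw [refl_of_nonneg h0.ge]
      rintro ⟨hre, -⟩
      rw [(hzero z hz h0).1, ofReal_re] at hre
      exact (hzero z hz h0).2 hre
    · rw [refl_of_nonneg hp.le]
      rintro ⟨-, him⟩
      linarith [hpos z hp, le_abs_self (fh h z).im]
  · intro z hz w hw he
    obtain ⟨a1, a2, a3⟩ := hsign z hz
    obtain ⟨b1, b2, b3⟩ := hsign w hw
    have he' := congrArg Complex.im he
    rcases lt_or_ge z.im 0 with hn | hn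
    · have hn' : w.im < 0 := by
        rcases lt_trichotomy w.im 0 with q | q | q
        · exact q
        · linarith [a3 hn, b2 q]
        · linarith [a3 hn, b1 q]
      rw [refl_of_neg hn, refl_of_neg hn'] at he
      have := H.fmap_injOn h1 (show 0 ≤ (conj z).im by simp; linarith)
        (show 0 ≤ (conj w).im by simp; linarith) ((starRingEnd ℂ).injective he)
      exact (starRingEnd ℂ).injective this
    · have hn' : 0 ≤ w.im := by
        by_contra q
        push Not at q
        rcases hn.lt_or_eq with r | r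
        · linarith [a1 r, b3 q]
        · linarith [a2 r.symm, b3 q]
      rw [refl_of_nonneg hn, refl_of_nonneg hn'] at he
      exact H.fmap_injOn h1 hn hn' he
  · intro w hw
    have up : ∀ v : ℂ, 0 < v.im → v ∉ E → ∃ z : ℂ, 0 < z.im ∧ fh h z = v := by
      intro v hv hvE
      obtain ⟨x, hx⟩ := uh_surjective hh v.re
      have hlt : h v.re < v.im := by
        by_cases hxK : x ∈ K
        · exact not_le.1 fun hle => hvE ⟨⟨x, hxK, hx⟩, by rwa [abs_of_pos hv]⟩
        · rw [← hx, hgap x hxK]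
          exact hv
      obtain ⟨z, hz, he⟩ := H.fmap_onto h1 hlt.le
      refine ⟨z, lt_of_le_of_ne hz fun h0 => ?_, he⟩
      have e := H.fmap_real h1 z.re
      rw [show (z.re : ℂ) = z from Complex.ext rfl (by simp [← h0]), he] at e
      exact hlt.ne e.symm
    rcases lt_trichotomy w.im 0 with hn | h0 | hp
    · obtain ⟨z, hz, he⟩ := up (conj w) (by simpa using hn) fun hc =>
        hw (by simpa [hE] using hc)
      refine ⟨conj z, fun hc => hz.ne' (by simpa [Z] using hc.1), ?_⟩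
      rw [refl_of_neg (by simpa using hz), Complex.conj_conj, he, Complex.conj_conj]
    · obtain ⟨x, hx⟩ := uh_surjective hh w.re
      have hxK : x ∉ K := fun hxK => hw ⟨⟨x, hxK, hx⟩, by simp [h0, hh.nonneg]⟩
      refine ⟨x, fun hc => hxK (by simpa [Z] using hc), ?_⟩
      rw [refl_of_nonneg (by simp), hreal]
      exact Complex.ext hx (by simp [h0, hgap x hxK])
    · obtain ⟨z, hz, he⟩ := up w hp hw
      exact ⟨z, fun hc => hz.ne' hc.1, by rw [refl_of_nonneg hz.le, he]⟩
  · rw [← Metric.cobounded_eq_cocompact, ← tendsto_norm_atTop_iff_cobounded,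
      Filter.tendsto_atTop]
    intro M
    obtain ⟨R, hR⟩ := H.fmap_large h1 M
    filter_upwards [tendsto_norm_cobounded_atTop.eventually_ge_atTop R] with z hz
    rcases le_or_gt 0 z.im with hp | hn
    · rw [refl_of_nonneg hp]
      exact hR z hp hz
    · rw [refl_of_neg hn, norm_conj]
      exact hR _ (by simp; linarith) (by rwa [norm_conj])
  · intro w hw
    obtain ⟨⟨x, hxK, hx⟩, him⟩ := hw
    obtain ⟨a, b, hab, hxab⟩ := exists_comp hK hxK
    have hle : u a ≤ u b := humono.monotone hab.le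
    refine ⟨(((u a + u b) / 2 : ℝ) : ℂ), (u b - u a) / 2, by linarith, Subset.antisymm ?_ ?_⟩
    · intro v hv
      have hvE : v ∈ E := connectedComponentIn_subset E w hv
      obtain ⟨⟨y, hyK, hy⟩, hvim⟩ := hvE
      have hC : IsPreconnected (re '' connectedComponentIn E w) :=
        isPreconnected_connectedComponentIn.image _ continuous_re.continuousOn
      have hbetween : uIcc x y ⊆ K := by
        intro z hz
        have hwC : w ∈ connectedComponentIn E w :=
          mem_connectedComponentIn ⟨⟨x, hxK, hx⟩, him⟩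
        have m1 : u x ∈ re '' connectedComponentIn E w := ⟨w, hwC, hx.symm⟩
        have m2 : u y ∈ re '' connectedComponentIn E w := ⟨v, hv, hy.symm⟩
        have hz' : u z ∈ uIcc (u x) (u y) := humono.monotone.mapsTo_uIcc hz
        obtain ⟨q, hq, hqe⟩ := hC.ordConnected.uIcc_subset m1 m2 hz'
        obtain ⟨y', hy', he⟩ := (connectedComponentIn_subset E w hq).1
        exact humono.injective (he.trans hqe) ▸ hy'
      have hya : y ∈ Icc a b := by
        constructor
        · by_contra hc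
          push Not at hc
          obtain ⟨z, hzK, hz1, hz2⟩ := hab.left (a - y) (by linarith)
          exact hzK (hbetween (mem_uIcc.2 (.inr ⟨by linarith, by linarith [hxab.1]⟩)))
        · by_contra hc
          push Not at hc
          obtain ⟨z, hzK, hz1, hz2⟩ := hab.right (y - b) (by linarith)
          exact hzK (hbetween (mem_uIcc.2 (.inl ⟨by linarith [hxab.2], by linarith⟩)))
      rw [mem_ball_iff hle, ← hy]
      refine ⟨⟨humono.monotone hya.1, humono.monotone hya.2⟩, ?_⟩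
      rw [← hcomp a b hab y hya]
      rwa [← hy] at hvim
    · have hsub : closedBall (((u a + u b) / 2 : ℝ) : ℂ) ((u b - u a) / 2) ⊆ E := by
        intro v hv
        obtain ⟨hre, hvim⟩ := (mem_ball_iff hle).1 hv
        obtain ⟨y, hy⟩ := uh_surjective hh v.re
        change u y = v.re at hy
        rw [← hy] at hre hvim
        have hya : y ∈ Icc a b := ⟨humono.le_iff_le.1 hre.1, humono.le_iff_le.1 hre.2⟩
        refine ⟨⟨y, hab.sub hya, hy⟩, ?_⟩
        rw [← hy, hcomp a b hab y hya]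
        exact hvim
      refine (convex_closedBall _ _).isPreconnected.subset_connectedComponentIn ?_ hsub
      rw [mem_ball_iff hle, ← hx]
      refine ⟨⟨humono.monotone hxab.1, humono.monotone hxab.2⟩, ?_⟩
      rw [← hcomp a b hab x hxab]
      rwa [← hx] at him

/-- Koebe's conjecture for every Denjoy domain. -/
theorem denjoy {K : Set ℂ} (hK : IsCompact K) (hreal : ∀ z ∈ K, z.im = 0) :
    ∃ (E : Set ℂ) (F : ℂ → ℂ), IsCompact E ∧ DifferentiableOn ℂ F Kᶜ ∧ BijOn F Kᶜ Eᶜ ∧
      Tendsto F (cocompact ℂ) (cocompact ℂ) ∧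
      ∀ w ∈ E, ∃ (c : ℂ) (r : ℝ), 0 ≤ r ∧ connectedComponentIn E w = closedBall c r := by
  obtain ⟨M, hM⟩ := hK.isBounded.exists_norm_le
  set R : ℝ := max M 0 + 1 with hR
  have hR0 : 0 < R := by positivity
  have hRc : (R : ℂ) ≠ 0 := by exact_mod_cast hR0.ne'
  set Kr : Set ℝ := {x | ((R * x : ℝ) : ℂ) ∈ K}
  have hsub : Kr ⊆ Ioo (-1 : ℝ) 1 := by
    intro x hx
    have := hM _ hx
    rw [norm_real, Real.norm_eq_abs, abs_mul, abs_of_pos hR0] at this
    have hlt : |x| < 1 := by
      by_contra hc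
      nlinarith [le_max_left M 0]
    exact abs_lt.1 hlt
  have hKr : IsCompact Kr := by
    refine Metric.isCompact_of_isClosed_isBounded (hK.isClosed.preimage (by fun_prop))
      ((Metric.isBounded_Ioo (-1 : ℝ) 1).subset hsub)
  obtain ⟨E, F, hE, hFd, hFb, hFt, hcomp⟩ := denjoy_unit hKr hsub
  have hiff : ∀ z : ℂ, z ∈ K ↔ (z / (R : ℂ)) ∈ {v : ℂ | v.im = 0 ∧ v.re ∈ Kr} := by
    intro z
    have e1 : (z / (R : ℂ)).im = z.im / R := div_ofReal_im z R
    have e2 : (z / (R : ℂ)).re = z.re / R := div_ofReal_re z R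
    constructor
    · intro hz
      refine ⟨by rw [e1, hreal z hz, zero_div], ?_⟩
      change ((R * (z / (R : ℂ)).re : ℝ) : ℂ) ∈ K
      rw [e2, mul_div_cancel₀ _ hR0.ne',
        show (z.re : ℂ) = z from Complex.ext rfl (by simp [hreal z hz])]
      exact hz
    · rintro ⟨h0, hz⟩
      rw [e1, div_eq_zero_iff] at h0
      have hz' : ((R * (z / (R : ℂ)).re : ℝ) : ℂ) ∈ K := hz
      rw [e2, mul_div_cancel₀ _ hR0.ne'] at hz'
      rwa [show z = (z.re : ℂ) from Complex.ext rfl (by simp [h0.resolve_right hR0.ne'])]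
  refine ⟨E, fun z => F (z / (R : ℂ)), hE,
    hFd.comp (differentiable_id.div_const _).differentiableOn fun z hz hc => hz ((hiff z).2 hc),
    ⟨fun z hz => hFb.mapsTo fun hc => hz ((hiff z).2 hc), fun z hz w hw he => ?_, fun v hv => ?_⟩,
    ?_, hcomp⟩
  · have := hFb.injOn (fun hc => hz ((hiff z).2 hc)) (fun hc => hw ((hiff w).2 hc)) he
    exact (div_left_inj' hRc).1 this
  · obtain ⟨z, hz, he⟩ := hFb.surjOn hv
    refine ⟨z * (R : ℂ), fun hc => hz ?_, ?_⟩
    · have := (hiff _).1 hc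
      rwa [mul_div_cancel_right₀ _ hRc] at this
    · simp [mul_div_cancel_right₀ _ hRc, he]
  · refine hFt.comp ?_
    have := (Homeomorph.mulRight₀ (R : ℂ) hRc).symm.map_cocompact
    exact this.le

end Vale.Agent.P116
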