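import Vale.Agent.P116.Exact

/-!
P116: primitives and square roots on an open set with connected complement reaching far down.
-/

open Complex Metric Filter Set Topology
open scoped Real Interval

namespace Vale.Agent.P116

variable {U : Set ℂ} {F : ℂ → ℂ}

lemma cellInt_eq_zero (hF : DifferentiableOn ℂ F U) {k : ℕ} {i j : ℤ}
    (hsub : rct (lat k (i, j)) (lat k (i + 1, j + 1)) ⊆ U) : cellInt F k i j = 0 := by
  have := integral_boundary_rect_eq_zero_of_differentiableOn F (lat k (i, j))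
    (lat k (i + 1, j + 1)) (hF.mono hsub)
  simp only [cellInt, wedgeIntegral, lat, intervalIntegral.integral_same, smul_zero, add_zero,
    zero_add, smul_eq_mul] at this ⊢
  linear_combination this

lemma eventually_floor (x : ℝ) :
    ∀ᶠ y in 𝓝 x, (⌊y⌋ : ℝ) ≤ x ∧ x ≤ ⌊y⌋ + 1 := by
  have h1 : (⌈x⌉ : ℝ) - 1 < x := by linarith [Int.ceil_lt_add_one x]
  filter_upwards [Ioo_mem_nhds h1 (Int.lt_floor_add_one x)] with y hy
  constructor
  · have : ⌊y⌋ ≤ ⌊x⌋ := Int.lt_add_one_iff.1 (Int.floor_lt.2 (by push_cast; exact hy.2))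
    exact le_trans (by exact_mod_cast this) (Int.floor_le x)
  · have : ⌈x⌉ ≤ ⌊y⌋ + 1 := by
      have : ((⌈x⌉ - 1 : ℤ) : ℝ) ≤ y := by push_cast; linarith [hy.1]
      linarith [Int.le_floor.2 this]
    calc x ≤ (⌈x⌉ : ℝ) := Int.le_ceil x
      _ ≤ _ := by exact_mod_cast this

/-- The integral along a closed lattice walk vanishes. -/
theorem loop_zero (hF : DifferentiableOn ℂ F U) (hconn : IsPreconnected Uᶜ)
    (hlow : ∀ M : ℝ, ∃ p ∈ Uᶜ, p.im < M) {k : ℕ} {a : ℤ × ℤ} {v : ℂ} (h : Lnk U F k a a v) :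
    v = 0 := by
  obtain ⟨n, M₀, hM, hh, hv⟩ := h.turns
  obtain ⟨hsupp, hval⟩ := hM M₀ le_rfl
  rw [sub_self, add_zero] at hval
  set t : ℝ := 2 ^ k with ht
  have ht0 : 0 < t := by positivity
  have hmem : ∀ {i j i' j' : ℤ} {p : ℂ}, i ≤ i' → j ≤ j' → (i : ℝ) ≤ p.re * t →
      p.re * t ≤ i' → (j : ℝ) ≤ p.im * t → p.im * t ≤ j' →
      p ∈ rct (lat k (i, j)) (lat k (i', j')) := by
    intro i j i' j' p _ _ h1 h2 h3 h4
    refine ⟨mem_uIcc.2 (.inl ⟨?_, ?_⟩), mem_uIcc.2 (.inl ⟨?_, ?_⟩)⟩ <;>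
      simp only [lat, ← ht]
    · rwa [div_le_iff₀ ht0]
    · rwa [le_div_iff₀ ht0]
    · rwa [div_le_iff₀ ht0]
    · rwa [le_div_iff₀ ht0]
  set N : ℂ → ℤ := fun p => n ⌊p.re * t⌋ ⌊p.im * t⌋
  have hsame : ∀ p ∈ Uᶜ, ∀ i j : ℤ, (i : ℝ) ≤ p.re * t → p.re * t ≤ i + 1 →
      (j : ℝ) ≤ p.im * t → p.im * t ≤ j + 1 → n i j = N p := by
    intro p hp i j hi1 hi2 hj1 hj2
    have hfi := Int.floor_le (p.re * t)
    have hfi' := Int.lt_floor_add_one (p.re * t)
    have hfj := Int.floor_le (p.im * t)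
    have hfj' := Int.lt_floor_add_one (p.im * t)
    have step1 : n i j = n ⌊p.re * t⌋ j := by
      rcases eq_or_lt_of_le (Int.le_floor.2 hi1) with e | e
      · rw [e]
      · have hfl : ⌊p.re * t⌋ = i + 1 := by
          have : ⌊p.re * t⌋ ≤ i + 1 := by
            have : (⌊p.re * t⌋ : ℝ) ≤ ((i + 1 : ℤ) : ℝ) := by push_cast; linarith
            exact_mod_cast this
          omega
        have heq : p.re * t = ((i + 1 : ℤ) : ℝ) :=
          le_antisymm (by push_cast; linarith) (hfl ▸ hfi)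
        have := hv (i + 1) j fun hc => hp (hc (hmem le_rfl (by omega) heq.ge heq.le hj1
          (by push_cast; linarith)))
        rw [sub_self, add_sub_cancel_right, sub_eq_zero] at this
        rw [hfl]
        exact this
    rw [step1]
    rcases eq_or_lt_of_le (Int.le_floor.2 hj1) with e | e
    · simp only [N, ← e]
    · have hfl : ⌊p.im * t⌋ = j + 1 := by
        have : ⌊p.im * t⌋ ≤ j + 1 := by
          have : (⌊p.im * t⌋ : ℝ) ≤ ((j + 1 : ℤ) : ℝ) := by push_cast; linarith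
          exact_mod_cast this
        omega
      have heq : p.im * t = ((j + 1 : ℤ) : ℝ) :=
        le_antisymm (by push_cast; linarith) (hfl ▸ hfj)
      have := hh ⌊p.re * t⌋ (j + 1) fun hc => hp (hc (hmem (by omega) le_rfl hfi
        (by push_cast; linarith) heq.ge heq.le))
      rw [add_sub_cancel_right] at this
      simp only [N, hfl, this]
  have hNc : ContinuousOn N Uᶜ := by
    intro p hp
    have e1 : ∀ᶠ q : ℂ in 𝓝 p, (⌊q.re * t⌋ : ℝ) ≤ p.re * t ∧ p.re * t ≤ ⌊q.re * t⌋ + 1 :=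
      ((by fun_prop : Continuous fun q : ℂ => q.re * t).tendsto p).eventually
        (eventually_floor (p.re * t))
    have e2 : ∀ᶠ q : ℂ in 𝓝 p, (⌊q.im * t⌋ : ℝ) ≤ p.im * t ∧ p.im * t ≤ ⌊q.im * t⌋ + 1 :=
      ((by fun_prop : Continuous fun q : ℂ => q.im * t).tendsto p).eventually
        (eventually_floor (p.im * t))
    refine continuousWithinAt_const.congr_of_eventuallyEq
      (nhdsWithin_le_nhds (a := p) (s := Uᶜ) ?_) rfl
    filter_upwards [e1, e2] with q h1 h2
    exact hsame p hp _ _ h1.1 h1.2 h2.1 h2.2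
  obtain ⟨p₀, hp₀, hlow₀⟩ := hlow ((-(M₀ : ℝ) - 1) / t)
  have hN0 : N p₀ = 0 := by
    refine hsupp _ _ (.inr (.inr ?_))
    rw [lt_div_iff₀ ht0] at hlow₀
    rw [Int.floor_lt]
    push_cast
    linarith
  have hN : ∀ p ∈ Uᶜ, N p = 0 := fun p hp => (hconn.constant hNc hp hp₀).trans hN0
  rw [hval]
  refine Finset.sum_eq_zero fun i _ => Finset.sum_eq_zero fun j _ => ?_
  by_cases hn : n i j = 0
  · simp [hn]
  · rw [cellInt_eq_zero hF, mul_zero]
    intro p hp
    by_contra hpU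
    apply hn
    obtain ⟨⟨h1, h2⟩, h3, h4⟩ := hp
    have ei : ((i : ℝ) / t) ≤ ((i + 1 : ℤ) : ℝ) / t := by
      gcongr; push_cast; linarith
    have ej : ((j : ℝ) / t) ≤ ((j + 1 : ℤ) : ℝ) / t := by
      gcongr; push_cast; linarith
    simp only [lat, ← ht, min_eq_left ei, max_eq_right ei, min_eq_left ej, max_eq_right ej]
      at h1 h2 h3 h4
    rw [div_le_iff₀ ht0] at h1 h3
    rw [le_div_iff₀ ht0] at h2 h4
    push_cast at h2 h4
    rw [hsame p hpU i j h1 h2 h3 h4]
    exact hN p hpU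

/-- Value of the integral from a base lattice point. -/
def Val (U : Set ℂ) (F : ℂ → ℂ) (z₀ z v : ℂ) : Prop :=
  ∃ k a b, lat k a = z₀ ∧ lat k b = z ∧ Lnk U F k a b v

lemma val_unique (hF : DifferentiableOn ℂ F U) (hconn : IsPreconnected Uᶜ)
    (hlow : ∀ M : ℝ, ∃ p ∈ Uᶜ, p.im < M) {z₀ z v v' : ℂ} (h : Val U F z₀ z v)
    (h' : Val U F z₀ z v') : v = v' := by
  obtain ⟨k, a, b, ha, hb, hl⟩ := h
  obtain ⟨k', a', b', ha', hb', hl'⟩ := h'
  have L := hl.refine_add hF.continuousOn k'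
  have L' := hl'.refine_add hF.continuousOn k
  rw [add_comm k' k] at L'
  have ea : (2 ^ k' * a.1, 2 ^ k' * a.2) = (2 ^ k * a'.1, 2 ^ k * a'.2) :=
    lat_inj (k + k') (by rw [lat_pow, ha, add_comm k k', lat_pow, ha'])
  have eb : (2 ^ k' * b.1, 2 ^ k' * b.2) = (2 ^ k * b'.1, 2 ^ k * b'.2) :=
    lat_inj (k + k') (by rw [lat_pow, hb, add_comm k k', lat_pow, hb'])
  rw [← ea, ← eb] at L'
  have := loop_zero hF hconn hlow (L.trans L'.symm)
  linear_combination this

/-- The square about `z` of half side `r`. -/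
def sq (z : ℂ) (r : ℝ) : Set ℂ := Icc (z.re - r) (z.re + r) ×ℂ Icc (z.im - r) (z.im + r)

lemma sq_subset_ball {z : ℂ} {r : ℝ} (hr : 0 < r) : sq z (r / 4) ⊆ ball z r := by
  intro p hp
  obtain ⟨⟨h1, h2⟩, h3, h4⟩ := hp
  rw [mem_ball, dist_eq]
  have e1 : |(p - z).re| ≤ r / 4 := by rw [sub_re]; exact abs_le.2 ⟨by linarith, by linarith⟩
  have e2 : |(p - z).im| ≤ r / 4 := by rw [sub_im]; exact abs_le.2 ⟨by linarith, by linarith⟩
  linarith [norm_le_abs_re_add_abs_im (p - z)]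

/-- Straight lattice walks in a square. -/
lemma lnk_square {z : ℂ} {r : ℝ} {G : ℂ → ℂ} (hc : ContinuousOn F U) (hU : sq z r ⊆ U)
    (hG : ∀ p ∈ sq z r, HasDerivAt G (F p) p) (k : ℕ) {a b : ℤ × ℤ}
    (ha : lat k a ∈ sq z r) (hb : lat k b ∈ sq z r) :
    Lnk U F k a b (G (lat k b) - G (lat k a)) := by
  have key : ∀ (N : ℕ) (b : ℤ × ℤ), lat k b ∈ sq z r →
      (b.1 - a.1).natAbs + (b.2 - a.2).natAbs = N →
      Lnk U F k a b (G (lat k b) - G (lat k a)) := by
    intro N
    induction N with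
    | zero =>
      intro b _ hN
      obtain rfl : b = a := Prod.ext (by omega) (by omega)
      simpa using Lnk.refl
    | succ N ih =>
      intro b hb hN
      obtain ⟨c, hc1, hc2, hc3, hc4⟩ : ∃ c : ℤ × ℤ,
          (c.2 = b.2 ∧ |c.1 - b.1| = 1 ∨ c.1 = b.1 ∧ |c.2 - b.2| = 1) ∧
          (a.1 ≤ c.1 ∧ c.1 ≤ b.1 ∨ b.1 ≤ c.1 ∧ c.1 ≤ a.1) ∧
          (a.2 ≤ c.2 ∧ c.2 ≤ b.2 ∨ b.2 ≤ c.2 ∧ c.2 ≤ a.2) ∧
          (c.1 - a.1).natAbs + (c.2 - a.2).natAbs = N := by
        rcases lt_trichotomy b.1 a.1 with h | h | h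
        · exact ⟨(b.1 + 1, b.2), .inl ⟨rfl, by simp⟩, by simp only; omega, by simp only; omega,
            by simp only; omega⟩
        · rcases lt_trichotomy b.2 a.2 with h' | h' | h'
          · exact ⟨(b.1, b.2 + 1), .inr ⟨rfl, by simp⟩, by simp only; omega, by simp only; omega,
              by simp only; omega⟩
          · omega
          · exact ⟨(b.1, b.2 - 1), .inr ⟨rfl, by simp⟩, by simp only; omega, by simp only; omega,
              by simp only; omega⟩
        · exact ⟨(b.1 - 1, b.2), .inl ⟨rfl, by simp⟩, by simp only; omega, by simp only; omega,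
            by simp only; omega⟩
      have ht0 : (0 : ℝ) < 2 ^ k := by positivity
      have hcm : lat k c ∈ sq z r := by
        obtain ⟨⟨a1, a2⟩, a3, a4⟩ := ha
        obtain ⟨⟨b1, b2⟩, b3, b4⟩ := hb
        simp only [lat] at a1 a2 a3 a4 b1 b2 b3 b4
        refine ⟨?_, ?_⟩
        · simp only [lat, mem_preimage, mem_Icc]
          rcases hc2 with ⟨u, w⟩ | ⟨u, w⟩
          · exact ⟨a1.trans (by gcongr), le_trans (by gcongr) b2⟩
          · exact ⟨b1.trans (by gcongr), le_trans (by gcongr) a2⟩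
        · simp only [lat, mem_preimage, mem_Icc]
          rcases hc3 with ⟨u, w⟩ | ⟨u, w⟩
          · exact ⟨a3.trans (by gcongr), le_trans (by gcongr) b4⟩
          · exact ⟨b3.trans (by gcongr), le_trans (by gcongr) a4⟩
      have hrct : rct (lat k c) (lat k b) ⊆ sq z r := fun p hp =>
        ⟨uIcc_subset_Icc hcm.1 hb.1 hp.1, uIcc_subset_Icc hcm.2 hb.2 hp.2⟩
      have hw : wedgeIntegral (lat k c) (lat k b) F = G (lat k b) - G (lat k c) := by
        rcases hc1 with ⟨e, -⟩ | ⟨e, -⟩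
        · have e1 : (lat k c).im = (lat k b).im := by simp [lat, e]
          set p := lat k c
          set q := lat k b
          simp only [wedgeIntegral, e1, intervalIntegral.integral_same, smul_zero, add_zero]
          have hd : ∀ x ∈ [[p.re, q.re]], HasDerivAt (fun x : ℝ => G (x + q.im * I))
              (F (x + q.im * I)) x := fun x hx => by
            have hm : (x : ℂ) + q.im * I ∈ rct p q := ⟨by simpa using hx, by simp⟩
            have hl : HasDerivAt (fun x : ℝ => (x : ℂ) + q.im * I) 1 x := by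
              simpa using ((hasDerivAt_id x).ofReal_comp).add_const ((q.im : ℂ) * I)
            exact ((hG _ (hrct hm)).comp x hl).congr_deriv (mul_one _)
          rw [intervalIntegral.integral_eq_sub_of_hasDerivAt hd
            ((hc.comp (by fun_prop : Continuous fun x : ℝ => (x : ℂ) + q.im * I).continuousOn
              fun x hx => hU (hrct ⟨by simpa using hx, by simp⟩)).intervalIntegrable),
            re_add_im, ← e1, re_add_im]
        · have e1 : (lat k c).re = (lat k b).re := by simp [lat, e]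
          set p := lat k c
          set q := lat k b
          simp only [wedgeIntegral, e1, intervalIntegral.integral_same, zero_add]
          have hd : ∀ y ∈ [[p.im, q.im]], HasDerivAt (fun y : ℝ => G (q.re + y * I))
              (I • F (q.re + y * I)) y := fun y hy => by
            have hm : (q.re : ℂ) + y * I ∈ rct p q := ⟨by simp, by simpa using hy⟩
            have hl : HasDerivAt (fun y : ℝ => (q.re : ℂ) + y * I) I y := by
              simpa using (((hasDerivAt_id y).ofReal_comp).mul_const I).const_add (q.re : ℂ)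
            exact ((hG _ (hrct hm)).comp y hl).congr_deriv (by rw [smul_eq_mul, mul_comm])
          rw [← intervalIntegral.integral_smul, intervalIntegral.integral_eq_sub_of_hasDerivAt hd
            (((hc.comp (by fun_prop : Continuous fun y : ℝ => (q.re : ℂ) + y * I).continuousOn
              fun y hy => hU (hrct ⟨by simp, by simpa using hy⟩)).const_smul I).intervalIntegrable),
            re_add_im, ← e1, re_add_im]
      have := (ih c hcm hc4).step hc1 (hrct.trans hU)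
      rwa [hw, show G (lat k c) - G (lat k a) + (G (lat k b) - G (lat k c))
        = G (lat k b) - G (lat k a) by ring] at this
  exact key _ b hb rfl

lemma exists_lat {z : ℂ} {r : ℝ} (hr : 0 < r) : ∃ k b, lat k b ∈ sq z r := by
  obtain ⟨k, hk⟩ := exists_pow_lt_of_lt_one hr (show (1 / 2 : ℝ) < 1 by norm_num)
  have h2 : (0 : ℝ) < 2 ^ k := by positivity
  rw [one_div, inv_pow, inv_lt_iff_one_lt_mul₀ h2] at hk
  refine ⟨k, (⌊z.re * 2 ^ k⌋, ⌊z.im * 2 ^ k⌋), ⟨?_, ?_⟩, ?_, ?_⟩ <;> simp only [lat]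
  · rw [le_div_iff₀ h2]; nlinarith [Int.sub_one_lt_floor (z.re * 2 ^ k)]
  · rw [div_le_iff₀ h2]; nlinarith [Int.floor_le (z.re * 2 ^ k)]
  · rw [le_div_iff₀ h2]; nlinarith [Int.sub_one_lt_floor (z.im * 2 ^ k)]
  · rw [div_le_iff₀ h2]; nlinarith [Int.floor_le (z.im * 2 ^ k)]

/-- Cauchy's theorem: a primitive exists. -/
theorem exists_primitive (hU : IsOpen U) (hp : IsPreconnected U) (hconn : IsPreconnected Uᶜ)
    (hlow : ∀ M : ℝ, ∃ p ∈ Uᶜ, p.im < M) (hF : DifferentiableOn ℂ F U) : IsExactOn F U := by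
  classical
  rcases U.eq_empty_or_nonempty with rfl | ⟨w, hw⟩
  · exact ⟨0, fun z hz => absurd hz (notMem_empty z)⟩
  obtain ⟨rw0, hrw0, hsubw⟩ := Metric.isOpen_iff.1 hU w hw
  obtain ⟨k₀, a₀, ha₀⟩ := exists_lat (z := w) (show 0 < rw0 / 4 by positivity)
  set z₀ := lat k₀ a₀ with hz₀
  have hz₀U : z₀ ∈ U := hsubw (sq_subset_ball hrw0 ha₀)
  -- local primitives and spreading of values inside a square
  have spread : ∀ {z : ℂ} {r : ℝ}, 0 < r → ball z r ⊆ U → ∀ {G : ℂ → ℂ},
      (∀ p ∈ ball z r, HasDerivAt G (F p) p) → ∀ {k k' : ℕ} {b b' : ℤ × ℤ} {v : ℂ},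
      lat k b ∈ sq z (r / 4) → lat k' b' ∈ sq z (r / 4) → Val U F z₀ (lat k b) v →
      Val U F z₀ (lat k' b') (v + (G (lat k' b') - G (lat k b))) := by
    intro z r hr hsub G hG k k' b b' v hb hb' hval
    obtain ⟨l, a, c, ha, hc, hl⟩ := hval
    have L1 := hl.refine_add hF.continuousOn (k + k')
    have hc' : lat (l + (k + k')) (2 ^ (k + k') * c.1, 2 ^ (k + k') * c.2) = lat k b := by
      rw [lat_pow, hc]
    have hb2 : lat (l + (k + k')) (2 ^ (l + k) * b'.1, 2 ^ (l + k) * b'.2) = lat k' b' := by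
      rw [show l + (k + k') = k' + (l + k) by ring, lat_pow]
    have L2 := lnk_square hF.continuousOn ((sq_subset_ball hr).trans hsub)
      (fun p hp => hG p (sq_subset_ball hr hp)) (l + (k + k'))
      (hc'.symm ▸ hb) (hb2.symm ▸ hb')
    rw [hc', hb2] at L2
    exact ⟨_, _, _, by rw [lat_pow, ha], hb2, L1.trans L2⟩
  set S : Set ℂ := {z | ∃ r > 0, ball z r ⊆ U ∧ ∃ k b v, lat k b ∈ sq z (r / 4) ∧
    Val U F z₀ (lat k b) v}
  have hprim : ∀ z ∈ U, ∃ r > 0, ball z r ⊆ U ∧ ∃ G : ℂ → ℂ,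
      ∀ p ∈ ball z r, HasDerivAt G (F p) p := by
    intro z hz
    obtain ⟨r, hr, hsub⟩ := Metric.isOpen_iff.1 hU z hz
    exact ⟨r, hr, hsub, (hF.mono hsub).isExactOn_ball⟩
  -- every point of U is reached
  have hreach : ∀ z ∈ U, ∀ r, 0 < r → ball z r ⊆ U → ∀ k b, lat k b ∈ sq z (r / 4) →
      ∃ v, Val U F z₀ (lat k b) v := by
    set A : Set ℂ := {z | z ∈ U ∧ ∃ r > 0, ball z r ⊆ U ∧ ∀ k b, lat k b ∈ sq z r →
      ∃ v, Val U F z₀ (lat k b) v}
    set B : Set ℂ := {z | z ∈ U ∧ ∃ r > 0, ball z r ⊆ U ∧ ∀ k b, lat k b ∈ sq z r →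
      ¬∃ v, Val U F z₀ (lat k b) v}
    have hsqm : ∀ {z z' : ℂ} {r : ℝ}, dist z' z < r / 2 → sq z' (r / 2) ⊆ sq z r := by
      intro z z' r hd p hp
      rw [dist_eq] at hd
      have e1 := abs_le.1 ((Complex.abs_re_le_norm (z' - z)).trans hd.le)
      have e2 := abs_le.1 ((Complex.abs_im_le_norm (z' - z)).trans hd.le)
      rw [sub_re] at e1
      rw [sub_im] at e2
      obtain ⟨⟨h1, h2⟩, h3, h4⟩ := hp
      exact ⟨⟨by linarith, by linarith⟩, by linarith, by linarith⟩
    have hAo : IsOpen A := by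
      rw [Metric.isOpen_iff]
      rintro z ⟨hz, r, hr, hsub, hall⟩
      refine ⟨r / 2, by positivity, fun z' hz' => ⟨hsub (ball_subset_ball (by linarith) hz'),
        r / 2, by positivity, fun p hp => hsub ?_, fun k b hb => hall k b (hsqm hz' hb)⟩⟩
      rw [mem_ball] at hp hz' ⊢
      linarith [dist_triangle p z' z]
    have hBo : IsOpen B := by
      rw [Metric.isOpen_iff]
      rintro z ⟨hz, r, hr, hsub, hall⟩
      refine ⟨r / 2, by positivity, fun z' hz' => ⟨hsub (ball_subset_ball (by linarith) hz'),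
        r / 2, by positivity, fun p hp => hsub ?_, fun k b hb => hall k b (hsqm hz' hb)⟩⟩
      rw [mem_ball] at hp hz' ⊢
      linarith [dist_triangle p z' z]
    have hdic : ∀ z ∈ U, ∀ r, 0 < r → ball z r ⊆ U → (∃ k b v, lat k b ∈ sq z (r / 4) ∧
        Val U F z₀ (lat k b) v) → ∀ k b, lat k b ∈ sq z (r / 4) →
        ∃ v, Val U F z₀ (lat k b) v := by
      rintro z hz r hr hsub ⟨k, b, v, hb, hv⟩ k' b' hb'
      obtain ⟨G, hG⟩ := (hF.mono hsub).isExactOn_ball
      exact ⟨_, spread hr hsub hG hb hb' hv⟩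
    have hcov : U ⊆ A ∪ B := by
      intro z hz
      obtain ⟨r, hr, hsub⟩ := Metric.isOpen_iff.1 hU z hz
      by_cases hex : ∃ k b v, lat k b ∈ sq z (r / 4) ∧ Val U F z₀ (lat k b) v
      · exact .inl ⟨hz, r / 4, by positivity, (ball_subset_ball (by linarith)).trans hsub,
          hdic z hz r hr hsub hex⟩
      · exact .inr ⟨hz, r / 4, by positivity, (ball_subset_ball (by linarith)).trans hsub,
          fun k b hb ⟨v, hv⟩ => hex ⟨k, b, v, hb, hv⟩⟩
    have hdisj : U ∩ (A ∩ B) = ∅ := by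
      rw [eq_empty_iff_forall_notMem]
      rintro z ⟨-, ⟨-, r, hr, -, h1⟩, -, r', hr', -, h2⟩
      obtain ⟨k, b, hb⟩ := exists_lat (z := z) (lt_min hr hr')
      have hm : ∀ {s : ℝ}, min r r' ≤ s → lat k b ∈ sq z s := fun {s} hs => by
        obtain ⟨⟨u1, u2⟩, u3, u4⟩ := hb
        exact ⟨⟨by linarith, by linarith⟩, by linarith, by linarith⟩
      exact h2 k b (hm (min_le_right _ _)) (h1 k b (hm (min_le_left _ _)))
    have hUA : U ⊆ A := by
      rcases isPreconnected_iff_subset_of_disjoint.1 hp A B hAo hBo hcov hdisj with h | h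
      · exact h
      · exfalso
        obtain ⟨-, r, hr, -, hall⟩ := h hz₀U
        refine hall k₀ a₀ ⟨⟨?_, ?_⟩, ?_, ?_⟩ ⟨0, k₀, a₀, a₀, rfl, rfl, .refl⟩ <;>
          (simp only [z₀]; linarith)
    intro z hz r hr hsub
    refine hdic z hz r hr hsub ?_
    obtain ⟨-, r', hr', -, hall⟩ := hUA hz
    obtain ⟨k, b, hb⟩ := exists_lat (z := z) (lt_min hr' (show 0 < r / 4 by positivity))
    obtain ⟨⟨u1, u2⟩, u3, u4⟩ := hb
    have m1 := min_le_left r' (r / 4)
    have m2 := min_le_right r' (r / 4)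
    obtain ⟨v, hv⟩ := hall k b ⟨⟨by linarith, by linarith⟩, by linarith, by linarith⟩
    exact ⟨k, b, v, ⟨⟨by linarith, by linarith⟩, by linarith, by linarith⟩, hv⟩
  -- normalised local primitives
  have hloc : ∀ z ∈ U, ∃ r > 0, ball z r ⊆ U ∧ ∃ G : ℂ → ℂ,
      (∀ p ∈ ball z r, HasDerivAt G (F p) p) ∧
      ∀ k b v, lat k b ∈ sq z (r / 4) → Val U F z₀ (lat k b) v → G (lat k b) = v := by
    intro z hz
    obtain ⟨r, hr, hsub, G, hG⟩ := hprim z hz
    obtain ⟨k, b, hb⟩ := exists_lat (z := z) (show 0 < r / 4 by positivity)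
    obtain ⟨v, hv⟩ := hreach z hz r hr hsub k b hb
    refine ⟨r, hr, hsub, fun p => G p + (v - G (lat k b)), fun p hp => (hG p hp).add_const _,
      fun k' b' v' hb' hv' => ?_⟩
    rw [val_unique hF hconn hlow hv' (spread hr hsub hG hb hb' hv)]
    ring
  choose! rad hrad hsub G hG hGv using hloc
  refine ⟨fun z => G z z, fun z hz => ?_⟩
  refine (hG z hz z (mem_ball_self (hrad z hz))).congr_of_eventuallyEq ?_
  filter_upwards [ball_mem_nhds z (show 0 < rad z / 16 from div_pos (hrad z hz) (by norm_num))] with y hy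
  have hyz : dist y z < rad z / 16 := hy
  have hyU : y ∈ U := hsub z hz (ball_subset_ball (by linarith [hrad z hz]) hy)
  have hr0 := hrad z hz
  have hry := hrad y hyU
  have c1 : ContinuousAt (G y) y := (hG y hyU y (mem_ball_self hry)).continuousAt
  have c2 : ContinuousAt (G z) y :=
    (hG z hz y (ball_subset_ball (by linarith) hy)).continuousAt
  by_contra hne
  obtain ⟨ρ, hρ, hρd⟩ := Metric.eventually_nhds_iff.1 ((c1.tendsto.sub c2.tendsto).eventually_ne
    (sub_ne_zero.2 hne))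
  obtain ⟨k, b, hb⟩ := exists_lat (z := y)
    (lt_min (show 0 < ρ / 4 by positivity) (lt_min (show 0 < rad y / 4 by positivity)
      (show 0 < rad z / 16 by positivity)))
  obtain ⟨⟨u1, u2⟩, u3, u4⟩ := hb
  have m1 := min_le_left (ρ / 4) (min (rad y / 4) (rad z / 16))
  have m2 := (min_le_right (ρ / 4) (min (rad y / 4) (rad z / 16))).trans (min_le_left _ _)
  have m3 := (min_le_right (ρ / 4) (min (rad y / 4) (rad z / 16))).trans (min_le_right _ _)
  have e1 := abs_le.1 ((Complex.abs_re_le_norm (y - z)).trans (dist_eq y z ▸ hyz.le))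
  have e2 := abs_le.1 ((Complex.abs_im_le_norm (y - z)).trans (dist_eq y z ▸ hyz.le))
  rw [sub_re] at e1
  rw [sub_im] at e2
  have hby : lat k b ∈ sq y (rad y / 4) := ⟨⟨by linarith, by linarith⟩, by linarith, by linarith⟩
  have hbz : lat k b ∈ sq z (rad z / 4) := ⟨⟨by linarith, by linarith⟩, by linarith, by linarith⟩
  have hnear : lat k b ∈ sq y (ρ / 4) := ⟨⟨by linarith, by linarith⟩, by linarith, by linarith⟩
  obtain ⟨v, hv⟩ := hreach y hyU (rad y) hry (hsub y hyU) k b hby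
  refine hρd (mem_ball.1 (sq_subset_ball hρ hnear)) ?_
  rw [hGv y hyU k b v hby hv, hGv z hz k b v hbz hv, sub_self]

/-- Nonvanishing holomorphic functions have holomorphic square roots. -/
theorem exists_sqrt_hol (hU : IsOpen U) (hp : IsPreconnected U) (hconn : IsPreconnected Uᶜ)
    (hlow : ∀ M : ℝ, ∃ p ∈ Uᶜ, p.im < M) {g : ℂ → ℂ} (hg : DifferentiableOn ℂ g U)
    (hne : ∀ z ∈ U, g z ≠ 0) : ∃ s : ℂ → ℂ, DifferentiableOn ℂ s U ∧ ∀ z ∈ U, s z ^ 2 = g z := by
  have hd : DifferentiableOn ℂ (fun z => deriv g z / g z) U :=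
    (hg.deriv hU).div hg hne
  obtain ⟨L, hL⟩ := exists_primitive hU hp hconn hlow hd
  have hder : ∀ z ∈ U, HasDerivAt (fun z => g z * exp (-L z)) 0 z := by
    intro z hz
    refine ((hg.differentiableAt (hU.mem_nhds hz)).hasDerivAt.mul
      (hL z hz).neg.cexp).congr_deriv ?_
    field_simp [hne z hz]
    ring
  obtain ⟨c, hc⟩ := hU.exists_eq_add_of_deriv_eq hp
    (fun z hz => (hder z hz).differentiableAt.differentiableWithinAt)
    (differentiableOn_const (0 : ℂ)) (fun z hz => by rw [(hder z hz).deriv, deriv_const])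
  refine ⟨fun z => c ^ (1 / 2 : ℂ) * exp (L z / 2),
    fun z hz => (((hL z hz).div_const 2).cexp.differentiableAt.const_mul _).differentiableWithinAt,
    fun z hz => ?_⟩
  have h1 : g z * exp (-L z) = c := by simpa using hc hz
  have h2 : (c ^ (1 / 2 : ℂ)) ^ 2 = c := by
    rw [show (1 / 2 : ℂ) = ((2 : ℕ) : ℂ)⁻¹ by norm_num, cpow_nat_inv_pow c two_ne_zero]
  rw [mul_pow, h2, ← exp_nat_mul, ← h1, mul_assoc, ← exp_add]
  rw [show -L z + ((2 : ℕ) : ℂ) * (L z / 2) = 0 by push_cast; ring, exp_zero, mul_one]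

end Vale.Agent.P116
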