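import Vale.Agent.P116.Primitive
import Vale.Agent.P116.Boundary
import Vale.Agent.P116.Limit

/-!
P116: a domain symmetric in the line, all of whose complementary components meet the line, is
conformally a Denjoy domain.
-/

open Complex Metric Filter Set Topology
open scoped Real ComplexConjugate

namespace Vale.Agent.P116

variable {K : Set ℂ}

lemma upperPart_isOpen (hK : IsCompact K) : IsOpen (upper \ K) :=
  isOpen_upper.sdiff hK.isClosed

lemma upperPart_preconnected (hK : IsCompact K) (hsym : ∀ z ∈ K, conj z ∈ K)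
    (hG : IsConnected Kᶜ) : IsPreconnected (upper \ K) := by
  set Q : Set ℂ := {z | 0 ≤ z.im} \ K
  have hfold : IsPreconnected Q := by
    have : Q = (fun z : ℂ => (z.re : ℂ) + (|z.im| : ℝ) * I) '' Kᶜ := by
      ext z
      constructor
      · rintro ⟨h0, hz⟩
        refine ⟨z, hz, ?_⟩
        simp only [abs_of_nonneg (show 0 ≤ z.im from h0), re_add_im]
      · rintro ⟨w, hw, rfl⟩
        refine ⟨by simp, fun hc => hw ?_⟩
        rcases le_total 0 w.im with h | h
        · simp only [abs_of_nonneg h, re_add_im] at hc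
          exact hc
        · have := hsym _ hc
          simp only [abs_of_nonpos h] at this
          convert this using 1
          exact Complex.ext (by simp) (by simp)
    rw [this]
    exact hG.isPreconnected.image _ (by fun_prop : Continuous _).continuousOn
  rw [isPreconnected_iff_subset_of_disjoint]
  intro A B hA hB hcov hdis
  let P : Set ℂ → Set ℂ := fun A =>
    {z | ∃ r > 0, ball z r ⊆ Kᶜ ∧ ball z r ∩ upper ⊆ A}
  have hP : ∀ A, IsOpen (P A) := by
    intro A
    rw [Metric.isOpen_iff]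
    rintro z ⟨r, hr, h1, h2⟩
    refine ⟨r / 2, half_pos hr, fun w hw => ⟨r / 2, half_pos hr, ?_, ?_⟩⟩
    · exact (ball_subset_ball' (by linarith [mem_ball.1 hw])).trans h1
    · exact (inter_subset_inter_left _ (ball_subset_ball' (by linarith [mem_ball.1 hw]))).trans h2
  have hcovQ : Q ⊆ P A ∪ P B := by
    rintro z ⟨-, hzK⟩
    obtain ⟨r, hr, hsub⟩ := Metric.isOpen_iff.1 hK.isClosed.isOpen_compl z hzK
    have hU : ball z r ∩ upper ⊆ upper \ K := fun w hw => ⟨hw.2, hsub hw.1⟩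
    rcases isPreconnected_iff_subset_of_disjoint.1 ((convex_ball z r).inter convex_upper).isPreconnected
      A B hA hB (hU.trans hcov) (subset_empty_iff.1 fun w hw => by
        rw [← hdis]; exact ⟨hU hw.1, hw.2⟩) with h | h
    · exact .inl ⟨r, hr, hsub, h⟩
    · exact .inr ⟨r, hr, hsub, h⟩
  have hdisQ : Q ∩ (P A ∩ P B) = ∅ := by
    rw [eq_empty_iff_forall_notMem]
    rintro z ⟨⟨hz0, -⟩, ⟨r, hr, hs, h1⟩, r', hr', -, h2⟩
    obtain ⟨p, hp, hpz⟩ := mem_closure_upper (z := z) hz0 (lt_min hr hr')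
    have hpK : p ∈ upper \ K := ⟨hp, hs (ball_subset_ball (min_le_left _ _) hpz)⟩
    exact (eq_empty_iff_forall_notMem.1 hdis) p ⟨hpK,
      h1 ⟨ball_subset_ball (min_le_left _ _) hpz, hp⟩,
      h2 ⟨ball_subset_ball (min_le_right _ _) hpz, hp⟩⟩
  rcases isPreconnected_iff_subset_of_disjoint.1 hfold _ _ (hP A) (hP B) hcovQ hdisQ with h | h
  · exact .inl fun z hz => by
      obtain ⟨r, hr, -, h1⟩ := h (show z ∈ Q from ⟨le_of_lt (show (0 : ℝ) < z.im from hz.1), hz.2⟩)
      exact h1 ⟨mem_ball_self hr, hz.1⟩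
  · exact .inr fun z hz => by
      obtain ⟨r, hr, -, h1⟩ := h (show z ∈ Q from ⟨le_of_lt (show (0 : ℝ) < z.im from hz.1), hz.2⟩)
      exact h1 ⟨mem_ball_self hr, hz.1⟩

lemma upperPart_compl_preconnected
    (hmeet : ∀ z ∈ K, ∃ x ∈ connectedComponentIn K z, x.im = 0) :
    IsPreconnected (upper \ K)ᶜ := by
  set L : Set ℂ := {z | z.im ≤ 0}
  have hL : IsPreconnected L := (convex_halfSpace_im_le 0).isPreconnected
  have e : (upper \ K)ᶜ = L ∪ K := by
    ext z
    simp [upper, L, imp_iff_not_or]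
  rw [e]
  refine isPreconnected_of_forall (0 : ℂ) fun z hz => ?_
  rcases hz with h | h
  · exact ⟨L, subset_union_left, by simp [L], h, hL⟩
  · obtain ⟨x, hx, hx0⟩ := hmeet z h
    exact ⟨L ∪ connectedComponentIn K z,
      union_subset_union_right _ (connectedComponentIn_subset K z), .inl (by simp [L]),
      .inr (mem_connectedComponentIn h),
      hL.union x (show x.im ≤ 0 from hx0.le) hx isPreconnected_connectedComponentIn⟩

lemma upperPart_umap (hK : IsCompact K) (hsym : ∀ z ∈ K, conj z ∈ K) (hG : IsConnected Kᶜ)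
    (hmeet : ∀ z ∈ K, ∃ x ∈ connectedComponentIn K z, x.im = 0) :
    ∃ f, Umap (upper \ K) f := by
  set U := upper \ K
  have hU : IsOpen U := upperPart_isOpen hK
  have hUp := upperPart_preconnected hK hsym hG
  have hkd : DifferentiableOn ℂ kap U := fun z hz =>
    (by
      have : (0 : ℝ) < z.im := hz.1
      exact (show DifferentiableAt ℂ kap z by
        unfold kap
        exact DifferentiableAt.div (by fun_prop) (by fun_prop)
          (add_I_ne (by linarith))).differentiableWithinAt)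
  have hki : InjOn kap U := fun z hz w hw he => by
    have h1 : (0 : ℝ) < z.im := hz.1
    have h2 : (0 : ℝ) < w.im := hw.1
    rw [← kinv_kap (z := z) (by linarith), ← kinv_kap (z := w) (by linarith), he]
  set V := kap '' U
  have hV : IsOpen V := isOpen_image_inj hU hkd hki hU subset_rfl
  have hVB : V ⊆ ball 0 1 := by
    rintro _ ⟨z, hz, rfl⟩
    have h1 : (0 : ℝ) < z.im := hz.1
    exact mem_ball_zero_iff.2 ((norm_kap_lt_iff (by linarith)).2 h1)
  obtain ⟨M, hM⟩ := hK.isBounded.exists_norm_le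
  have hne : ((|M| + 1 : ℝ) : ℂ) * I ∈ U := by
    refine ⟨show (0 : ℝ) < (((|M| + 1 : ℝ) : ℂ) * I).im by simp; positivity, fun hc => ?_⟩
    have := hM _ hc
    rw [norm_mul, norm_I, norm_real, Real.norm_of_nonneg (by positivity)] at this
    linarith [le_abs_self M]
  have hlow : ∀ N : ℝ, ∃ p ∈ Uᶜ, p.im < N := fun N =>
    ⟨((-|N| - 1 : ℝ) : ℂ) * I, fun hc => by
      have h0 : (0 : ℝ) < (((-|N| - 1 : ℝ) : ℂ) * I).im := hc.1
      simp at h0
      linarith [abs_nonneg N], by simp; linarith [neg_abs_le N]⟩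
  obtain ⟨φ, hφd, hφi, hφim⟩ := riemann_core hV hVB (hUp.image kap hkd.continuousOn)
    (mem_image_of_mem kap hne) (fun g hg hne0 => by
      obtain ⟨s, hsd, hs⟩ := exists_sqrt_hol hU hUp (upperPart_compl_preconnected hmeet) hlow
        (hg.comp hkd (mapsTo_image kap U)) fun z hz => hne0 _ (mem_image_of_mem kap hz)
      refine ⟨s ∘ kinv, hsd.comp ?_ ?_, ?_⟩
      · rintro _ ⟨z, hz, rfl⟩
        have h1 : (0 : ℝ) < z.im := hz.1
        unfold kinv
        exact (DifferentiableAt.div (by fun_prop) (by fun_prop)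
          (sub_ne_zero.2 (Ne.symm (kap_ne_one (by linarith))))).differentiableWithinAt
      · rintro _ ⟨z, hz, rfl⟩
        have h1 : (0 : ℝ) < z.im := hz.1
        rwa [kinv_kap (by linarith)]
      · rintro _ ⟨z, hz, rfl⟩
        have h1 : (0 : ℝ) < z.im := hz.1
        simp only [Function.comp_apply, kinv_kap (z := z) (by linarith), hs z hz])
  set ψ := Function.invFunOn φ (ball 0 1)
  have hψ : DifferentiableOn ℂ ψ V := hφim ▸
    inv_differentiableOn isOpen_ball hφd hφi fun x hx => hφi.leftInvOn_invFunOn hx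
  refine ⟨ψ ∘ kap, hU, fun z hz => hz.1, hψ.comp hkd (mapsTo_image kap U), ?_, ?_⟩
  · intro z hz w hw he
    refine hki hz hw ?_
    have e1 : φ (ψ (kap z)) = kap z :=
      Function.invFunOn_eq (hφim.symm.subset (mem_image_of_mem kap hz))
    have e2 : φ (ψ (kap w)) = kap w :=
      Function.invFunOn_eq (hφim.symm.subset (mem_image_of_mem kap hw))
    rw [← e1, ← e2]
    exact congrArg φ he
  · rw [image_comp, show kap '' U = V from rfl, ← hφim]
    exact hφi.invFunOn_image subset_rfl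

/-- The inversion preserving the upper half plane. -/
noncomputable def Jinv (z : ℂ) : ℂ := -z⁻¹

lemma Jinv_Jinv (z : ℂ) : Jinv (Jinv z) = z := by simp [Jinv, inv_neg]

lemma Jinv_im_pos {z : ℂ} : 0 < (Jinv z).im ↔ 0 < z.im := by
  rw [Jinv, neg_im, Complex.inv_im, neg_div, neg_neg]
  constructor
  · intro h
    by_contra hc
    linarith [div_nonpos_of_nonpos_of_nonneg (not_lt.1 hc) (normSq_nonneg z)]
  · intro h
    exact div_pos h (normSq_pos.2 fun h0 => by simp [h0] at h)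

/-- The data of a symmetric domain and the conformal map of its upper part. -/
structure Sdata (K : Set ℂ) (f : ℂ → ℂ) (R : ℝ) : Prop where
  comp : IsCompact K
  sym : ∀ z ∈ K, conj z ∈ K
  map : Umap (upper \ K) f
  pos : 0 < R
  bound : ∀ z ∈ K, ‖z‖ < R

/-- The upper part seen from infinity. -/
def winv (K : Set ℂ) : Set ℂ := upper ∩ {z | Jinv z ∈ upper \ K}

/-- The boundary extension. -/
noncomputable def fext (K : Set ℂ) (f : ℂ → ℂ) : ℂ → ℂ := extendFrom (upper \ K) f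

/-- The value at infinity. -/
noncomputable def finf (K : Set ℂ) (f : ℂ → ℂ) : ℂ :=
  extendFrom (winv K) (f ∘ Jinv) ((0 : ℝ) : ℂ)

variable {f : ℂ → ℂ} {R : ℝ}

lemma Sdata.umap_inv (S : Sdata K f R) : Umap (winv K) (f ∘ Jinv) := by
  have H := S.map
  set U := upper \ K
  set W' := winv K with hW'
  have hJd : ∀ z ∈ W', DifferentiableAt ℂ Jinv z := fun z hz => by
    have h1 : (0 : ℝ) < z.im := hz.1
    exact (differentiableAt_inv fun h => by simp [h] at h1).neg
  refine ⟨?_, inter_subset_left, ?_, ?_, ?_⟩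
  · refine ContinuousOn.isOpen_inter_preimage (f := Jinv) ?_ isOpen_upper H.isOpen
    intro z hz
    have h1 : (0 : ℝ) < z.im := hz
    exact ((continuousAt_inv₀ fun h => by simp [h] at h1).neg).continuousWithinAt
  · exact H.diff.comp (fun z hz => (hJd z hz).differentiableWithinAt) fun z hz => hz.2
  · intro z hz w hw he
    rw [← Jinv_Jinv z, ← Jinv_Jinv w, H.inj hz.2 hw.2 he]
  · refine Subset.antisymm ?_ ?_
    · rintro _ ⟨z, hz, rfl⟩
      exact H.image.subset (mem_image_of_mem f hz.2)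
    · intro v hv
      obtain ⟨z, hz, rfl⟩ := H.image.symm.subset hv
      exact ⟨Jinv z, ⟨Jinv_im_pos.2 hz.1, show Jinv (Jinv z) ∈ U by rw [Jinv_Jinv]; exact hz⟩,
        by simp [Jinv_Jinv]⟩

lemma Sdata.far (S : Sdata K f R) {z : ℂ} (hz : R ≤ ‖z‖) : z ∉ K :=
  fun hc => absurd (S.bound z hc) (not_lt.2 hz)

lemma Sdata.jfar (S : Sdata K f R) {z : ℂ} (hz : z ≠ 0) (hlt : ‖z‖ < 1 / R) : R < ‖Jinv z‖ := by
  rw [Jinv, norm_neg, norm_inv, ← one_div, lt_one_div S.pos (norm_pos_iff.2 hz)]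
  exact hlt

lemma Sdata.sub_inv (S : Sdata K f R) : ball ((0 : ℝ) : ℂ) (1 / R) ∩ upper ⊆ winv K := by
  rintro z ⟨hz, hzu⟩
  have h1 : (0 : ℝ) < z.im := hzu
  rw [ofReal_zero, mem_ball_zero_iff] at hz
  exact ⟨hzu, Jinv_im_pos.2 hzu, S.far (S.jfar (fun h => by simp [h] at h1) hz).le⟩

lemma Sdata.loc (S : Sdata K f R) (x : ℝ) (hx : (x : ℂ) ∉ K) :
    ∃ r > 0, ball (x : ℂ) r ⊆ Kᶜ ∧ ball (x : ℂ) r ∩ upper ⊆ upper \ K := by
  obtain ⟨r, hr, hs⟩ := Metric.isOpen_iff.1 S.comp.isClosed.isOpen_compl _ hx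
  exact ⟨r, hr, hs, fun z hz => ⟨hz.2, hs hz.1⟩⟩

lemma Sdata.sep (S : Sdata K f R) : ∀ x r : ℝ, 0 < r → ball (x : ℂ) r ∩ upper ⊆ upper \ K →
    ∀ y s : ℝ, 0 < s → ball (y : ℂ) s ∩ upper ⊆ upper \ K →
    Disjoint (ball (x : ℂ) r) (ball (y : ℂ) s) → fext K f x ≠ fext K f y := by
  have H := S.map
  unfold fext
  set U := upper \ K
  set F := extendFrom U f with hF
  intro x r hr hs y s hs0 hs' hd he
  obtain ⟨ε, hε, h1, -⟩ := H.boundary_open hr hs
  obtain ⟨ε', hε', h1', -⟩ := H.boundary_open hs0 hs'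
  have hn := (H.ext_norm hr hs).1
  obtain ⟨v, hv, hvd⟩ := Metric.mem_closure_iff.1
    (show F x ∈ closure (ball (0 : ℂ) 1) by
      rw [closure_ball _ one_ne_zero, mem_closedBall_zero_iff]; exact hn.le)
    (min ε ε') (lt_min hε hε')
  rw [dist_comm] at hvd
  rw [mem_ball_zero_iff] at hv
  obtain ⟨a, ha, hae⟩ := h1 v (mem_ball.2 (hvd.trans_le (min_le_left _ _))) hv
  obtain ⟨b, hb, hbe⟩ := h1' v (by
    rw [mem_ball]
    exact (he ▸ hvd).trans_le (min_le_right _ _)) hv
  rw [H.inj (hs ha) (hs' hb) (hae.trans hbe.symm)] at ha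
  exact disjoint_left.1 hd ha.1 hb.1

lemma Sdata.ne_inf (S : Sdata K f R) : ∀ x : ℝ, (x : ℂ) ∉ K → fext K f x ≠ finf K f := by
  have H := S.map
  have H' := S.umap_inv
  have hR0 := S.pos
  have hloc := S.loc
  have hsub' := S.sub_inv
  unfold fext finf
  set U := upper \ K
  set W' := winv K
  set F := extendFrom U f with hF
  intro x hx he
  obtain ⟨r, hr, -, hs⟩ := hloc x hx
  obtain ⟨ε, hε, h1, -⟩ := H.boundary_open hr hs
  set s : ℝ := 1 / (|x| + r + R) with hs0
  have hspos : 0 < s := by positivity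
  have hsle : s ≤ 1 / R := one_div_le_one_div_of_le hR0 (by linarith [abs_nonneg x])
  obtain ⟨ε', hε', h1', -⟩ := H'.boundary_open hspos
    ((inter_subset_inter_left _ (ball_subset_ball hsle)).trans hsub')
  obtain ⟨v, hv, hvd⟩ := Metric.mem_closure_iff.1
    (show F x ∈ closure (ball (0 : ℂ) 1) by
      rw [closure_ball _ one_ne_zero, mem_closedBall_zero_iff]; exact (H.ext_norm hr hs).1.le)
    (min ε ε') (lt_min hε hε')
  rw [dist_comm] at hvd
  rw [mem_ball_zero_iff] at hv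
  obtain ⟨a, ha, hae⟩ := h1 v (mem_ball.2 (hvd.trans_le (min_le_left _ _))) hv
  obtain ⟨b, hb, hbe⟩ := h1' v (by
    rw [mem_ball]
    exact (he ▸ hvd).trans_le (min_le_right _ _)) hv
  have hbW : b ∈ W' := hsub' ⟨ball_subset_ball hsle hb.1, hb.2⟩
  have e := H.inj (hs ha) hbW.2 (hae.trans hbe.symm)
  have hb0 : b ≠ 0 := fun h => by
    have h0 : (0 : ℝ) < b.im := hb.2
    simp [h] at h0
  have hbn : ‖b‖ < s := by
    have := hb.1
    rwa [ofReal_zero, mem_ball_zero_iff] at this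
  have h3 : |x| + r + R < ‖Jinv b‖ := by
    rw [Jinv, norm_neg, norm_inv, ← one_div, lt_one_div (by positivity) (norm_pos_iff.2 hb0)]
    exact hbn
  rw [← e] at h3
  have h4 := ha.1
  rw [mem_ball, dist_eq] at h4
  have := norm_le_norm_add_norm_sub' a (x : ℂ)
  rw [norm_real, Real.norm_eq_abs] at this
  linarith

lemma Sdata.missing (S : Sdata K f R) (hKne : K.Nonempty) :
    ∃ y : ℂ, ‖y‖ = 1 ∧ (∀ x : ℝ, (x : ℂ) ∉ K → y ≠ fext K f x) ∧ y ≠ finf K f := by
  have H := S.map
  have H' := S.umap_inv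
  have hR0 := S.pos
  have hKR := S.bound
  have hK := S.comp
  have hsym := S.sym
  have hloc := S.loc
  have hsub' := S.sub_inv
  have hJfar : ∀ z : ℂ, z ≠ 0 → ‖z‖ < 1 / R → R < ‖Jinv z‖ := fun z => S.jfar
  unfold fext finf
  set U := upper \ K
  set W' := winv K
  set F := extendFrom U f with hF
  set qi := extendFrom W' (f ∘ Jinv) ((0 : ℝ) : ℂ) with hqi
  obtain ⟨a, haK, hamax⟩ := hK.exists_isMaxOn hKne continuous_im.continuousOn
  have ha0 : 0 ≤ a.im := by
    have := hamax (hsym a haK)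
    simp at this
    linarith
  set zs : ℕ → ℂ := fun n => a + ((1 / (n + 1) : ℝ) : ℂ) * I with hzs
  have hzim : ∀ n, (zs n).im = a.im + 1 / (n + 1) := fun n => by
    simp only [hzs, add_im, mul_im, ofReal_re, ofReal_im, I_re, I_im, mul_one, mul_zero, add_zero]
  have hzU : ∀ n, zs n ∈ U := fun n => by
    have hpos : (0 : ℝ) < 1 / (n + 1) := by positivity
    refine ⟨show (0 : ℝ) < (zs n).im by rw [hzim]; linarith, fun hc => ?_⟩
    have : (zs n).im ≤ a.im := hamax hc
    rw [hzim] at this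
    linarith
  have hzlim : Tendsto zs atTop (𝓝 a) := by
    have := (((continuous_ofReal.tendsto 0).comp
      tendsto_one_div_add_atTop_nhds_zero_nat).mul_const I).const_add a
    simpa [hzs, Function.comp_def] using this
  obtain ⟨y, hy, σ, hσ, hyl⟩ := (isCompact_closedBall (0 : ℂ) 1).tendsto_subseq
    (x := fun n => f (zs n)) (fun n => mem_closedBall_zero_iff.2 (H.norm_lt (hzU n)).le)
  rw [mem_closedBall_zero_iff] at hy
  have hzσ : Tendsto (fun n => zs (σ n)) atTop (𝓝 a) := hzlim.comp hσ.tendsto_atTop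
  have hy1 : ‖y‖ = 1 := by
    refine le_antisymm hy (not_lt.1 fun hlt => ?_)
    obtain ⟨w, hw, rfl⟩ := H.image.symm.subset (mem_ball_zero_iff.2 hlt)
    obtain ⟨r, hr, hsubr⟩ := Metric.isOpen_iff.1 H.isOpen w hw
    have hev : ∀ᶠ n in atTop, f (zs (σ n)) ∈ f '' ball w (r / 2) :=
      hyl.eventually (image_mem_nhds H.diff H.inj (H.isOpen.mem_nhds hw)
        (ball_mem_nhds w (half_pos hr)))
    have : a ∈ closedBall w (r / 2) := by
      refine isClosed_closedBall.mem_of_tendsto hzσ (hev.mono fun n hn => ?_)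
      obtain ⟨v, hv, he⟩ := hn
      rw [← H.inj (hsubr (ball_subset_ball (by linarith) hv)) (hzU _) he]
      exact ball_subset_closedBall hv
    exact (hsubr (closedBall_subset_ball (by linarith) this)).2 haK
  have hyF : ∀ x : ℝ, (x : ℂ) ∉ K → y ≠ F x := by
    intro x hx he
    obtain ⟨r, hr, hsK, hs⟩ := hloc x hx
    have hs2 : ball (x : ℂ) (r / 2) ∩ upper ⊆ U :=
      (inter_subset_inter_left _ (ball_subset_ball (by linarith))).trans hs
    obtain ⟨ε, hε, h1, -⟩ := H.boundary_open (half_pos hr) hs2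
    have hev : ∀ᶠ n in atTop, f (zs (σ n)) ∈ ball (F x) ε :=
      hyl.eventually (he ▸ ball_mem_nhds y hε)
    have : a ∈ closedBall (x : ℂ) (r / 2) := by
      refine isClosed_closedBall.mem_of_tendsto hzσ (hev.mono fun n hn => ?_)
      obtain ⟨v, hv, hve⟩ := h1 _ hn (H.norm_lt (hzU _))
      rw [← H.inj (hs2 hv) (hzU _) hve]
      exact ball_subset_closedBall hv.1
    exact hsK (closedBall_subset_ball (by linarith) this) haK
  have hyqi : y ≠ qi := by
    intro he
    obtain ⟨ε, hε, h1, -⟩ := H'.boundary_open (one_div_pos.2 hR0) hsub'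
    have hev : ∀ᶠ n in atTop, f (zs (σ n)) ∈ ball qi ε :=
      hyl.eventually (he ▸ ball_mem_nhds y hε)
    have : R ≤ ‖a‖ := by
      refine ge_of_tendsto hzσ.norm (hev.mono fun n hn => ?_)
      obtain ⟨v, hv, hve⟩ := h1 _ hn (H.norm_lt (hzU _))
      rw [← H.inj (hsub' hv).2 (hzU _) hve]
      have hv0 : v ≠ 0 := fun h => by
        have h0 : (0 : ℝ) < v.im := hv.2
        simp [h] at h0
      refine (hJfar v hv0 ?_).le
      have := hv.1
      rwa [ofReal_zero, mem_ball_zero_iff] at this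
    linarith [hKR a haK]
  exact ⟨y, hy1, hyF, hyqi⟩

lemma Sdata.ext_inv (S : Sdata K f R)
    (hFc : ContinuousOn (fext K f) ({z | 0 ≤ z.im} \ K)) :
    ∀ t : ℂ, t ∈ ball ((0 : ℝ) : ℂ) (1 / R) → 0 ≤ t.im → t ≠ 0 →
      Jinv t ∈ {z : ℂ | 0 ≤ z.im} \ K ∧
        extendFrom (winv K) (f ∘ Jinv) t = fext K f (Jinv t) := by
  have H := S.map
  have H' := S.umap_inv
  have hsub' := S.sub_inv
  have hJfar : ∀ z : ℂ, z ≠ 0 → ‖z‖ < 1 / R → R < ‖Jinv z‖ := fun z => S.jfar
  have hfar : ∀ z : ℂ, R ≤ ‖z‖ → z ∉ K := fun z => S.far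
  unfold fext at hFc ⊢
  set U := upper \ K
  set W' := winv K
  set F := extendFrom U f with hF
  set Q : Set ℂ := {z | 0 ≤ z.im} \ K with hQ
  have hQU : ∀ z ∈ U, z ∈ Q := fun z hz => ⟨le_of_lt (show (0 : ℝ) < z.im from hz.1), hz.2⟩
  have hFU : ∀ z ∈ U, F z = f z := fun z hz => H.ext_eq hz
  intro t ht ht0 htne
  have hlt : ‖t‖ < 1 / R := by rwa [ofReal_zero, mem_ball_zero_iff] at ht
  have hQt : Jinv t ∈ Q := by
    refine ⟨?_, hfar _ (hJfar t htne hlt).le⟩
    show 0 ≤ (Jinv t).im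
    rw [Jinv, neg_im, Complex.inv_im, neg_div, neg_neg]
    exact div_nonneg ht0 (normSq_nonneg t)
  refine ⟨hQt, extendFrom_eq (H'.closure_mem hsub' ht ht0) ?_⟩
  have hc : ContinuousAt Jinv t := (continuousAt_inv₀ htne).neg
  have hlim : Tendsto Jinv (𝓝[W'] t) (𝓝[Q] Jinv t) :=
    tendsto_nhdsWithin_iff.2 ⟨hc.mono_left nhdsWithin_le_nhds,
      Filter.eventually_of_mem self_mem_nhdsWithin fun v hv => hQU _ hv.2⟩
  exact ((hFc _ hQt).tendsto.comp hlim).congr'
    (Filter.eventually_of_mem self_mem_nhdsWithin fun v hv => hFU _ hv.2)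

/-- A symmetric domain whose complementary components meet the line is a Denjoy domain. -/
theorem symm_to_denjoy (hK : IsCompact K) (hKne : K.Nonempty) (hsym : ∀ z ∈ K, conj z ∈ K)
    (hG : IsConnected Kᶜ) (hmeet : ∀ z ∈ K, ∃ x ∈ connectedComponentIn K z, x.im = 0) :
    ∃ (K' : Set ℂ) (Φ : ℂ → ℂ), IsCompact K' ∧ (∀ z ∈ K', z.im = 0) ∧
      DifferentiableOn ℂ Φ Kᶜ ∧ BijOn Φ Kᶜ K'ᶜ ∧ Tendsto Φ (cocompact ℂ) (cocompact ℂ) := by
  obtain ⟨f, H⟩ := upperPart_umap hK hsym hG hmeet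
  set U := upper \ K with hUdef
  obtain ⟨M₀, hM₀⟩ := hK.isBounded.exists_norm_le
  set R : ℝ := |M₀| + 1 with hR
  have hR0 : 0 < R := by positivity
  have hKR : ∀ z ∈ K, ‖z‖ < R := fun z hz => by linarith [hM₀ z hz, le_abs_self M₀]
  have S : Sdata K f R := ⟨hK, hsym, H, hR0, hKR⟩
  have H' := S.umap_inv
  have hsub' := S.sub_inv
  have hloc := S.loc
  set W' := winv K
  set F := extendFrom U f with hF
  set qi := extendFrom W' (f ∘ Jinv) ((0 : ℝ) : ℂ) with hqi
  obtain ⟨hqi1, -⟩ := H'.ext_norm (one_div_pos.2 hR0) hsub'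
  rw [← hqi] at hqi1
  have hFU : ∀ z ∈ U, F z = f z := fun z hz => H.ext_eq hz
  have hFreal : ∀ x : ℝ, (x : ℂ) ∉ K → ‖F x‖ = 1 := fun x hx => by
    obtain ⟨r, hr, -, hs⟩ := hloc x hx
    exact (H.ext_norm hr hs).1
  have hsep := S.sep
  simp only [fext] at hsep
  have hne_qi : ∀ x : ℝ, (x : ℂ) ∉ K → F x ≠ qi := S.ne_inf
  obtain ⟨y, hy1, hyF, hyqi⟩ : ∃ y : ℂ, ‖y‖ = 1 ∧ (∀ x : ℝ, (x : ℂ) ∉ K → y ≠ F x) ∧ y ≠ qi :=
    S.missing hKne
  -- send the missing value and infinity to infinity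
  have hy0 : y ≠ 0 := fun h => by simp [h] at hy1
  set G : ℂ → ℂ := fun z => kinv (F z / y) with hGdef
  set p : ℂ := kinv (qi / y) with hpdef
  have hsphere : ∀ v : ℂ, ‖v‖ = 1 → (kinv (v / y)).im = 0 := fun v hv => by
    rw [kinv_im, normSq_eq_norm_sq, norm_div, hv, hy1]
    simp
  have hp0 : p.im = 0 := hsphere qi hqi1
  set Q : Set ℂ := {z | 0 ≤ z.im} \ K with hQ
  have hQcases : ∀ z ∈ Q, z ∈ U ∨ ∃ x : ℝ, z = x ∧ (x : ℂ) ∉ K := by
    rintro z ⟨hz0, hzK⟩
    rcases eq_or_lt_of_le (show 0 ≤ z.im from hz0) with h | h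
    · have e : z = (z.re : ℂ) := Complex.ext rfl (by simp [← h])
      exact .inr ⟨z.re, e, e ▸ hzK⟩
    · exact .inl ⟨h, hzK⟩
  have hFne : ∀ z ∈ Q, F z / y ≠ 1 := by
    intro z hz he
    rw [div_eq_one_iff_eq hy0] at he
    rcases hQcases z hz with hU | ⟨x, rfl, hx⟩
    · have := H.norm_lt hU
      rw [← hFU z hU, he, hy1] at this
      exact lt_irrefl _ this
    · exact hyF x hx he.symm
  have hqi_ne : qi / y ≠ 1 := fun h => hyqi ((div_eq_one_iff_eq hy0).1 h).symm
  have hGne : ∀ z ∈ Q, G z - p ≠ 0 := by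
    intro z hz he
    have h2 := congrArg kap (sub_eq_zero.1 he)
    simp only [hGdef, hpdef] at h2
    rw [kap_kinv (hFne z hz), kap_kinv hqi_ne, div_left_inj' hy0] at h2
    rcases hQcases z hz with hU | ⟨x, rfl, hx⟩
    · have := H.norm_lt hU
      rw [← hFU z hU, h2, hqi1] at this
      exact lt_irrefl _ this
    · exact hne_qi x hx h2
  set h : ℂ → ℂ := fun z => -(G z - p)⁻¹ with hhdef
  have hhim : ∀ z : ℂ, (h z).im = (G z).im / normSq (G z - p) := fun z => by
    simp [hhdef, Complex.inv_im, hp0, neg_div]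
  have hGup : ∀ z ∈ U, 0 < (G z).im := by
    intro z hz
    rw [hGdef, kinv_im]
    have hn : ‖F z / y‖ < 1 := by rw [norm_div, hy1, div_one, hFU z hz]; exact H.norm_lt hz
    exact div_pos (by linarith [norm_lt_one_iff'.1 hn])
      (normSq_pos.2 (sub_ne_zero.2 (Ne.symm (hFne z ⟨le_of_lt (show (0 : ℝ) < z.im from hz.1), hz.2⟩))))
  have hQU : ∀ z ∈ U, z ∈ Q := fun z hz => ⟨le_of_lt (show (0 : ℝ) < z.im from hz.1), hz.2⟩
  have hhup : ∀ z ∈ U, 0 < (h z).im := fun z hz => by
    rw [hhim]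
    exact div_pos (hGup z hz) (normSq_pos.2 (hGne z (hQU z hz)))
  have hhreal : ∀ x : ℝ, (x : ℂ) ∉ K → (h x).im = 0 := fun x hx => by
    rw [hhim, show (G x).im = 0 from hsphere _ (hFreal x hx), zero_div]
  have hFc : ContinuousOn F Q := by
    intro z hz
    rcases hQcases z hz with hU | ⟨x, rfl, hx⟩
    · exact ((H.diff.continuousOn.continuousAt (H.isOpen.mem_nhds hU)).congr
        (Filter.eventuallyEq_of_mem (H.isOpen.mem_nhds hU) fun v hv => (hFU v hv).symm)).continuousWithinAt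
    · obtain ⟨r, hr, -, hs⟩ := hloc x hx
      refine (H.ext_cont hs x ⟨mem_ball_self hr, by simp⟩).mono_of_mem_nhdsWithin ?_
      exact mem_nhdsWithin.2 ⟨ball (x : ℂ) r, isOpen_ball, mem_ball_self hr,
        fun v hv => ⟨hv.1, hv.2.1⟩⟩
  have hhc : ContinuousOn h Q := by
    intro z hz
    have hG' : ContinuousWithinAt G Q z :=
      ContinuousAt.comp_continuousWithinAt (f := fun z => F z / y) (continuousAt_kinv (hFne z hz))
        ((hFc z hz).div_const _)
    exact ((hG'.sub continuousWithinAt_const).inv₀ (hGne z hz)).neg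
  have hhd : ∀ z ∈ U, DifferentiableAt ℂ h z := by
    intro z hz
    have hQz := hQU z hz
    have he : F =ᶠ[𝓝 z] f := Filter.eventuallyEq_of_mem (H.isOpen.mem_nhds hz) hFU
    have h1 : DifferentiableAt ℂ (fun z => F z / y) z :=
      ((H.diff.differentiableAt (H.isOpen.mem_nhds hz)).congr_of_eventuallyEq he).div_const _
    have h2 : DifferentiableAt ℂ kinv (F z / y) := by
      unfold kinv
      exact DifferentiableAt.div (by fun_prop) (by fun_prop)
        (sub_ne_zero.2 (Ne.symm (hFne z hQz)))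
    have h3 : DifferentiableAt ℂ G z := DifferentiableAt.comp (g := kinv) (f := fun z => F z / y) z h2 h1
    exact ((h3.sub_const p).inv (hGne z hQz)).neg
  have hhinj : InjOn h Q := by
    intro z hz w hw he
    have h2 : G z = G w := by simpa [hhdef] using he
    have h3 := congrArg kap h2
    simp only [hGdef] at h3
    rw [kap_kinv (hFne z hz), kap_kinv (hFne w hw), div_left_inj' hy0] at h3
    rcases hQcases z hz with hU | ⟨x, rfl, hx⟩ <;> rcases hQcases w hw with hU' | ⟨x', rfl, hx'⟩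
    · rw [hFU z hU, hFU w hU'] at h3
      exact H.inj hU hU' h3
    · have := H.norm_lt hU
      rw [← hFU z hU, h3, hFreal x' hx'] at this
      exact absurd this (lt_irrefl _)
    · have := H.norm_lt hU'
      rw [← hFU w hU', ← h3, hFreal x hx] at this
      exact absurd this (lt_irrefl _)
    · by_contra hne
      obtain ⟨r, hr, -, hs⟩ := hloc x hx
      obtain ⟨r', hr', -, hs'⟩ := hloc x' hx'
      set d := dist (x : ℂ) x' / 2 with hdd
      have hd : 0 < d := half_pos (dist_pos.2 hne)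
      refine hsep x (min r d) (lt_min hr hd) ((inter_subset_inter_left _
        (ball_subset_ball (min_le_left _ _))).trans hs) x' (min r' d) (lt_min hr' hd)
        ((inter_subset_inter_left _ (ball_subset_ball (min_le_left _ _))).trans hs') ?_ h3
      refine ball_disjoint_ball ?_
      linarith [min_le_right r d, min_le_right r' d]
  have hsymc : ∀ z ∈ Kᶜ, conj z ∈ Kᶜ := fun z hz hc => hz (by simpa using hsym _ hc)
  have hQin : ∀ z ∈ Kᶜ, 0 ≤ z.im → z ∈ Q := fun z hz h0 => ⟨h0, hz⟩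
  set Φ := refl h with hΦ
  have hΦd : DifferentiableOn ℂ Φ Kᶜ := by
    refine refl_differentiableOn hK.isClosed.isOpen_compl hsymc
      (hhc.mono fun z hz => ⟨hz.2, hz.1⟩) (fun z hz h0 => hhd z ⟨h0, hz⟩) fun z hz h0 => ?_
    have e : z = (z.re : ℂ) := Complex.ext rfl (by simp [h0])
    rw [e]
    exact hhreal z.re (e ▸ hz)
  have hsign : ∀ z ∈ Kᶜ, (0 < z.im → 0 < (Φ z).im) ∧ (z.im = 0 → (Φ z).im = 0) ∧
      (z.im < 0 → (Φ z).im < 0) := by
    intro z hz
    refine ⟨fun hp => ?_, fun h0 => ?_, fun hn => ?_⟩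
    · rw [hΦ, refl_of_nonneg hp.le]; exact hhup z ⟨hp, hz⟩
    · have e : z = (z.re : ℂ) := Complex.ext rfl (by simp [h0])
      rw [hΦ, refl_of_nonneg h0.ge, e]
      exact hhreal z.re (e ▸ hz)
    · rw [hΦ, refl_of_neg hn, conj_im, neg_lt_zero]
      exact hhup _ ⟨show (0 : ℝ) < (conj z).im by simpa using hn, hsymc z hz⟩
  have hΦi : InjOn Φ Kᶜ := by
    intro z hz w hw he
    obtain ⟨a1, a2, a3⟩ := hsign z hz
    obtain ⟨b1, b2, b3⟩ := hsign w hw
    have he' := congrArg Complex.im he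
    rcases lt_or_ge z.im 0 with hn | hn
    · have hn' : w.im < 0 := by
        rcases lt_trichotomy w.im 0 with q | q | q
        · exact q
        · linarith [a3 hn, b2 q]
        · linarith [a3 hn, b1 q]
      rw [hΦ, refl_of_neg hn, refl_of_neg hn'] at he
      exact (starRingEnd ℂ).injective (hhinj (hQin _ (hsymc z hz) (by simp; linarith))
        (hQin _ (hsymc w hw) (by simp; linarith)) ((starRingEnd ℂ).injective he))
    · have hn' : 0 ≤ w.im := by
        by_contra q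
        push Not at q
        rcases hn.lt_or_eq with r | r
        · linarith [a1 r, b3 q]
        · linarith [a2 r.symm, b3 q]
      rw [hΦ, refl_of_nonneg hn, refl_of_nonneg hn'] at he
      exact hhinj (hQin z hz hn) (hQin w hw hn') he
  set K' := (Φ '' Kᶜ)ᶜ with hK'
  have hK'closed : IsClosed K' := (isOpen_image_inj hK.isClosed.isOpen_compl hΦd hΦi
    hK.isClosed.isOpen_compl subset_rfl).isClosed_compl
  have honto : ∀ v : ℂ, 0 < v.im → ∃ z ∈ U, h z = v := by
    intro v hv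
    have hv0 : v ≠ 0 := fun e => by simp [e] at hv
    set g := p - v⁻¹ with hg
    have hgim : 0 < g.im := by
      simp [hg, Complex.inv_im, hp0, neg_div]
      exact div_pos hv (normSq_pos.2 hv0)
    have hn : ‖y * kap g‖ < 1 := by
      rw [norm_mul, hy1, one_mul]
      exact (norm_kap_lt_iff (by linarith)).2 hgim
    obtain ⟨z, hz, hze⟩ := H.image.symm.subset (mem_ball_zero_iff.2 hn)
    refine ⟨z, hz, ?_⟩
    have : G z = g := by
      simp only [hGdef]
      rw [hFU z hz, hze, mul_div_cancel_left₀ _ hy0, kinv_kap (by linarith)]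
    rw [hhdef]
    simp only [this, hg]
    simp
  have hK'real : ∀ v ∈ K', v.im = 0 := by
    intro v hv
    by_contra h0
    apply hv
    rcases lt_or_gt_of_ne h0 with hn | hp
    · obtain ⟨z, hz, he⟩ := honto (conj v) (by simpa using hn)
      have hzp : (0 : ℝ) < z.im := hz.1
      refine ⟨conj z, hsymc z hz.2, ?_⟩
      rw [hΦ, refl_of_neg (by simpa using hzp), Complex.conj_conj, he, Complex.conj_conj]
    · obtain ⟨z, hz, he⟩ := honto v hp
      have hzp : (0 : ℝ) < z.im := hz.1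
      exact ⟨z, hz.2, by rw [hΦ, refl_of_nonneg hzp.le, he]⟩
  obtain ⟨ε, hε, -, hreal'⟩ := H'.boundary_open (one_div_pos.2 hR0) hsub'
  rw [← hqi] at hreal'
  -- extension of the inverted map
  have hE : ∀ t : ℂ, t ∈ ball ((0 : ℝ) : ℂ) (1 / R) → 0 ≤ t.im → t ≠ 0 →
      Jinv t ∈ Q ∧ extendFrom W' (f ∘ Jinv) t = F (Jinv t) := S.ext_inv hFc
  have hK'b : ∃ C : ℝ, ∀ v ∈ K', ‖v‖ ≤ C := by
    have hp' : p = (p.re : ℂ) := Complex.ext rfl (by simp [hp0])
    have hcont : ContinuousAt (fun v : ℂ => y * kap v) p :=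
      (continuousAt_kap (by linarith)).const_mul y
    have hval : y * kap p = qi := by
      rw [hpdef, kap_kinv hqi_ne, mul_div_cancel₀ _ hy0]
    obtain ⟨η, hη, hη'⟩ := Metric.continuousAt_iff.1 hcont ε hε
    refine ⟨1 / η, fun v hv => ?_⟩
    by_contra hlt
    push Not at hlt
    have hvpos : 0 < ‖v‖ := lt_trans (one_div_pos.2 hη) hlt
    have hv0 : v ≠ 0 := norm_pos_iff.1 hvpos
    have hvim := hK'real v hv
    set g := p - v⁻¹ with hg
    have hgim : g.im = 0 := by simp [hg, Complex.inv_im, hp0, hvim]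
    have hgd : dist g p < η := by
      rw [hg, dist_eq, sub_sub_cancel_left, norm_neg, norm_inv, ← one_div,
        one_div_lt hvpos hη]
      exact hlt
    have hgn : ‖y * kap g‖ = 1 := by
      rw [norm_mul, hy1, one_mul, show g = (g.re : ℂ) from Complex.ext rfl (by simp [hgim]),
        norm_kap_real]
    have hgq : y * kap g ∈ ball qi ε := by
      rw [mem_ball, ← hval]
      exact hη' hgd
    obtain ⟨t, ht, hte⟩ := hreal' _ hgq hgn
    have ht0 : (t : ℂ) ≠ 0 := by
      intro h0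
      rw [h0, ← ofReal_zero, ← hqi, ← hval] at hte
      have h2 := congrArg kinv (mul_left_cancel₀ hy0 hte)
      rw [kinv_kap (by linarith), kinv_kap (by linarith)] at h2
      rw [hg, eq_comm, sub_eq_self, inv_eq_zero] at h2
      exact hv0 h2
    obtain ⟨hQt, hFt⟩ := hE t ht (by simp) ht0
    rw [hFt] at hte
    refine hv ⟨Jinv t, hQt.2, ?_⟩
    rw [hΦ, refl_of_nonneg hQt.1]
    have : G (Jinv t) = g := by
      simp only [hGdef]
      rw [hte, mul_div_cancel_left₀ _ hy0, kinv_kap (by linarith)]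
    simp only [hhdef, this, hg]
    simp
  have hK'c : IsCompact K' := by
    obtain ⟨C, hC⟩ := hK'b
    exact Metric.isCompact_of_isClosed_isBounded hK'closed (isBounded_iff_forall_norm_le.2 ⟨C, hC⟩)
  refine ⟨K', Φ, hK'c, hK'real, hΦd,
    ⟨fun z hz hc => hc (mem_image_of_mem Φ hz), hΦi, fun v hv => not_not.1 hv⟩, ?_⟩
  -- behaviour at infinity
  rw [← Metric.cobounded_eq_cocompact, ← tendsto_norm_atTop_iff_cobounded, Filter.tendsto_atTop]
  intro C
  have hk : ContinuousAt (fun v => kinv (v / y) - p) qi :=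
    ((continuousAt_kinv hqi_ne).comp (f := fun v : ℂ => v / y)
      (continuousAt_id.div_const _)).sub continuousAt_const
  have hk0 : kinv (qi / y) - p = 0 := by rw [hpdef, sub_self]
  obtain ⟨η, hη, hη'⟩ := Metric.continuousAt_iff.1 hk (1 / (|C| + 1)) (by positivity)
  obtain ⟨δ, hδ, hδ'⟩ := Metric.continuousWithinAt_iff.1
    (H'.ext_cont hsub' ((0 : ℝ) : ℂ) ⟨mem_ball_self (one_div_pos.2 hR0), by simp⟩) η hη
  have hbig : ∀ z : ℂ, R + 1 / δ + 1 ≤ ‖z‖ → 0 ≤ z.im → C ≤ ‖h z‖ := by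
    intro z hz h0
    have hd1 : (0 : ℝ) < 1 / δ := one_div_pos.2 hδ
    have hz0 : 0 < ‖z‖ := by linarith
    have htn : ‖Jinv z‖ = 1 / ‖z‖ := by rw [Jinv, norm_neg, norm_inv, one_div]
    have ht1 : ‖Jinv z‖ < 1 / R := by
      rw [htn]; exact one_div_lt_one_div_of_lt hR0 (by linarith)
    have ht2 : ‖Jinv z‖ < δ := by
      rw [htn, one_div_lt hz0 hδ]; linarith
    have hmem : Jinv z ∈ ball ((0 : ℝ) : ℂ) (1 / R) := by
      rw [ofReal_zero, mem_ball_zero_iff]; exact ht1
    have htim : 0 ≤ (Jinv z).im := by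
      rw [Jinv, neg_im, Complex.inv_im, neg_div, neg_neg]
      exact div_nonneg h0 (normSq_nonneg z)
    have htne : Jinv z ≠ 0 := norm_pos_iff.1 (by rw [htn]; positivity)
    obtain ⟨hQz, hFz⟩ := hE _ hmem htim htne
    rw [Jinv_Jinv] at hQz hFz
    have h1 := hδ' ⟨hmem, htim⟩ (by rw [ofReal_zero, dist_zero_right]; exact ht2)
    rw [hFz] at h1
    have h2 := hη' h1
    rw [hk0, dist_zero_right] at h2
    have hpos : 0 < ‖G z - p‖ := norm_pos_iff.2 (hGne z hQz)
    simp only [hhdef, norm_neg, norm_inv]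
    have h3 : |C| + 1 < ‖G z - p‖⁻¹ := by
      rw [← one_div, lt_one_div (by positivity) hpos]
      exact h2
    linarith [le_abs_self C]
  filter_upwards [tendsto_norm_cobounded_atTop.eventually_ge_atTop (R + 1 / δ + 1)] with z hz
  rcases le_or_gt 0 z.im with hp | hn
  · rw [hΦ, refl_of_nonneg hp]
    exact hbig z hz hp
  · rw [hΦ, refl_of_neg hn, norm_conj]
    exact hbig _ (by rwa [norm_conj]) (by simp; linarith)

/-- Koebe's conjecture for symmetric domains all of whose complementary components meet the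
line. -/
theorem symmetric_uniformisation (hK : IsCompact K) (hsym : ∀ z ∈ K, conj z ∈ K)
    (hG : IsConnected Kᶜ) (hmeet : ∀ z ∈ K, ∃ x ∈ connectedComponentIn K z, x.im = 0) :
    ∃ (E : Set ℂ) (F : ℂ → ℂ), IsCompact E ∧ DifferentiableOn ℂ F Kᶜ ∧ BijOn F Kᶜ Eᶜ ∧
      Tendsto F (cocompact ℂ) (cocompact ℂ) ∧
      ∀ w ∈ E, ∃ (c : ℂ) (r : ℝ), 0 ≤ r ∧ connectedComponentIn E w = closedBall c r := by
  rcases K.eq_empty_or_nonempty with rfl | hne
  · exact ⟨∅, id, isCompact_empty, differentiableOn_id, bijOn_id _, tendsto_id,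
      fun w hw => absurd hw (notMem_empty w)⟩
  · obtain ⟨K', Φ, hK', hreal, hΦd, hΦb, hΦt⟩ := symm_to_denjoy hK hne hsym hG hmeet
    obtain ⟨E, F, hE, hFd, hFb, hFt, hc⟩ := denjoy hK' hreal
    exact ⟨E, F ∘ Φ, hE, hFd.comp hΦd hΦb.mapsTo, hFb.comp hΦb, hFt.comp hΦt, hc⟩

end Vale.Agent.P116
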